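import Mathlib.Algebra.Order.Archimedean.Real.Hom
import Mathlib.Algebra.Ring.IsFormallyReal
import Mathlib.Analysis.Calculus.FDeriv.Norm
import Mathlib.Analysis.Calculus.ParametricIntervalIntegral
import Mathlib.Analysis.Calculus.Rademacher
import Mathlib.Analysis.Convex.Continuous
import Mathlib.Analysis.Convex.Measure
import Mathlib.Analysis.InnerProductSpace.Trace
import Mathlib.Analysis.InnerProductSpace.TwoDim
import Mathlib.Analysis.Real.Pi.Bounds
import Mathlib.Analysis.SpecialFunctions.Trigonometric.InverseDeriv
import Mathlib.Analysis.SumIntegralComparisons
import Mathlib.Dynamics.Ergodic.Action.Regular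
import Mathlib.LinearAlgebra.Transvection.Basic
import Mathlib.MeasureTheory.Function.L2Space
import Mathlib.MeasureTheory.Function.SpecialFunctions.Inner
import Mathlib.MeasureTheory.Measure.Lebesgue.VolumeOfBalls
import Mathlib.MeasureTheory.Measure.RegularityCompacts
import Mathlib.NumberTheory.Bernoulli
import Mathlib.Order.CompletePartialOrder
import Mathlib.RingTheory.Etale.Weakly
import Mathlib.RingTheory.Flat.TorsionFree
import Mathlib.RingTheory.RegularLocalRing.Defs
import Mathlib.RingTheory.SimpleRing.Principal
import Mathlib.RingTheory.TotallySplit
import Mathlib.Tactic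
import Mathlib.Topology.Filter
import Mathlib.Topology.MetricSpace.Closeds
import Mathlib.Topology.UniformSpace.Uniformizable

/-! The part of Mathlib that the development of this folder uses. -/
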