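import Vale.Agent.P237.Defs
import Vale.Agent.P227.PL

/-!
# P237-B: Brunn-Minkowski inequality in a finite-dimensional inner product space
-/

open MeasureTheory Metric Set Module
open scoped Pointwise ENNReal

namespace Vale.Agent.P237

variable {V : Type*} [NormedAddCommGroup V] [InnerProductSpace ℝ V] [FiniteDimensional ℝ V]
  [MeasurableSpace V] [BorelSpace V]

/-- volume preserving linear coordinates -/
noncomputable def coordEquiv (V : Type*) [NormedAddCommGroup V] [InnerProductSpace ℝ V]
    [FiniteDimensional ℝ V] : V ≃L[ℝ] (Fin (finrank ℝ V) → ℝ) :=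
  (stdOrthonormalBasis ℝ V).repr.toContinuousLinearEquiv.trans
    (PiLp.continuousLinearEquiv 2 ℝ (fun _ : Fin (finrank ℝ V) => ℝ))

theorem coordEquiv_measurePreserving : MeasurePreserving (coordEquiv V) volume volume := by
  have h1 := (stdOrthonormalBasis ℝ V).repr.measurePreserving
  have h2 := PiLp.volume_preserving_ofLp (Fin (finrank ℝ V))
  exact h2.comp h1

theorem volume_coord_image {K : Set V} (hK : IsCompact K) :
    volume (coordEquiv V '' K) = volume K := by
  have hc : IsCompact (coordEquiv V '' K) := hK.image (coordEquiv V).continuous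
  rw [← coordEquiv_measurePreserving.measure_preimage hc.measurableSet.nullMeasurableSet,
    preimage_image_eq _ (coordEquiv V).injective]

/-- multiplicative Brunn-Minkowski inequality (extended real version) -/
theorem bm_mul_volume {s t : ℝ} (hs : 0 < s) (ht : 0 < t) (hst : s + t = 1) {K L : Set V}
    (hK : IsCompact K) (hL : IsCompact L) :
    volume K ^ s * volume L ^ t ≤ volume (s • K + t • L) := by
  have hC : IsCompact (s • K + t • L) := (hK.smul s).add (hL.smul t)
  rw [← volume_coord_image hK, ← volume_coord_image hL, ← volume_coord_image hC]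
  refine P227.bm_mul hs ht hst (hK.image (coordEquiv V).continuous).measurableSet
    (hL.image (coordEquiv V).continuous).measurableSet
    (hC.image (coordEquiv V).continuous).measurableSet ?_
  rintro _ ⟨a, ha, rfl⟩ _ ⟨b, hb, rfl⟩
  refine ⟨s • a + t • b, add_mem_add (smul_mem_smul_set ha) (smul_mem_smul_set hb), ?_⟩
  simp

/-- multiplicative Brunn-Minkowski inequality -/
theorem bm_mul {s t : ℝ} (hs : 0 < s) (ht : 0 < t) (hst : s + t = 1) {K L : Set V}
    (hK : IsCompact K) (hL : IsCompact L) :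
    vol K ^ s * vol L ^ t ≤ vol (s • K + t • L) := by
  have hC : IsCompact (s • K + t • L) := (hK.smul s).add (hL.smul t)
  have h := ENNReal.toReal_mono hC.measure_lt_top.ne (bm_mul_volume hs ht hst hK hL)
  rw [ENNReal.toReal_mul, ← ENNReal.toReal_rpow, ← ENNReal.toReal_rpow] at h
  exact h

theorem vol_smul_set (r : ℝ) (K : Set V) : vol (r • K) = |r| ^ finrank ℝ V * vol K := by
  unfold vol
  rw [Measure.addHaar_smul, ENNReal.toReal_mul, ENNReal.toReal_ofReal (abs_nonneg _), abs_pow]

theorem vol_nonneg (K : Set V) : 0 ≤ vol K := ENNReal.toReal_nonneg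

theorem vol_mono {K L : Set V} (hL : IsCompact L) (h : K ⊆ L) : vol K ≤ vol L :=
  ENNReal.toReal_mono hL.measure_lt_top.ne (measure_mono h)

theorem vol_vadd_set (a : V) (K : Set V) : vol ({a} + K) = vol K := by
  unfold vol
  rw [singleton_add, Set.image_add_left, measure_preimage_add]

theorem brunn_minkowski {K L : Set V} (hK : IsCompact K) (hL : IsCompact L)
    (nK : K.Nonempty) (nL : L.Nonempty) (hd : 0 < finrank ℝ V) :
    vol K ^ ((1 : ℝ) / finrank ℝ V) + vol L ^ ((1 : ℝ) / finrank ℝ V) ≤
      vol (K + L) ^ ((1 : ℝ) / finrank ℝ V) := by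
  have hdR : (0 : ℝ) < finrank ℝ V := by exact_mod_cast hd
  have hKL : IsCompact (K + L) := hK.add hL
  have hle1 : vol K ≤ vol (K + L) := by
    obtain ⟨b, hb⟩ := nL
    have h1 : {b} + K ⊆ K + L := by
      rw [add_comm K L]
      exact add_subset_add (singleton_subset_iff.2 hb) subset_rfl
    have := vol_mono hKL h1
    rwa [vol_vadd_set] at this
  have hle2 : vol L ≤ vol (K + L) := by
    obtain ⟨a, ha⟩ := nK
    have h1 : {a} + L ⊆ K + L := add_subset_add (singleton_subset_iff.2 ha) subset_rfl
    have := vol_mono hKL h1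
    rwa [vol_vadd_set] at this
  have hexp : (0 : ℝ) < 1 / finrank ℝ V := by positivity
  rcases (vol_nonneg K).eq_or_lt with hK0 | hK0
  · rw [← hK0, Real.zero_rpow hexp.ne', zero_add]
    exact Real.rpow_le_rpow (vol_nonneg _) hle2 hexp.le
  rcases (vol_nonneg L).eq_or_lt with hL0 | hL0
  · rw [← hL0, Real.zero_rpow hexp.ne', add_zero]
    exact Real.rpow_le_rpow (vol_nonneg _) hle1 hexp.le
  set k := vol K ^ ((1 : ℝ) / finrank ℝ V) with hk
  set l := vol L ^ ((1 : ℝ) / finrank ℝ V) with hl
  have hkpos : 0 < k := Real.rpow_pos_of_pos hK0 _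
  have hlpos : 0 < l := Real.rpow_pos_of_pos hL0 _
  have hkd : k ^ finrank ℝ V = vol K := by
    rw [hk, ← Real.rpow_natCast, ← Real.rpow_mul hK0.le, one_div,
      inv_mul_cancel₀ hdR.ne', Real.rpow_one]
  have hld : l ^ finrank ℝ V = vol L := by
    rw [hl, ← Real.rpow_natCast, ← Real.rpow_mul hL0.le, one_div,
      inv_mul_cancel₀ hdR.ne', Real.rpow_one]
  have h := bm_mul (V := V) (s := k / (k + l)) (t := l / (k + l)) (by positivity) (by positivity)
    (by field_simp) (hK.smul k⁻¹) (hL.smul l⁻¹)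
  rw [vol_smul_set, vol_smul_set, abs_of_pos (inv_pos.2 hkpos), abs_of_pos (inv_pos.2 hlpos),
    inv_pow, inv_pow, hkd, hld, inv_mul_cancel₀ hK0.ne', inv_mul_cancel₀ hL0.ne',
    Real.one_rpow, Real.one_rpow, mul_one, smul_smul, smul_smul] at h
  have e1 : k / (k + l) * k⁻¹ = (k + l)⁻¹ := by field_simp
  have e2 : l / (k + l) * l⁻¹ = (k + l)⁻¹ := by field_simp
  rw [e1, e2, ← smul_add, vol_smul_set, abs_of_pos (by positivity), inv_pow,
    ← div_eq_inv_mul, le_div_iff₀ (by positivity), one_mul] at h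
  calc k + l = ((k + l) ^ finrank ℝ V) ^ ((1 : ℝ) / finrank ℝ V) := by
        rw [← Real.rpow_natCast, ← Real.rpow_mul (by positivity), mul_one_div_cancel hdR.ne',
          Real.rpow_one]
    _ ≤ vol (K + L) ^ ((1 : ℝ) / finrank ℝ V) := Real.rpow_le_rpow (by positivity) h hexp.le

theorem isCompact_sum {m : ℕ} {K : Fin m → Set V} (hK : ∀ i, IsCompact (K i)) :
    IsCompact (∑ i, K i) := by
  induction m with
  | zero => simpa using (isCompact_singleton (x := (0 : V)))
  | succ m ih =>
    rw [Fin.sum_univ_succ]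
    exact (hK 0).add (ih fun i => hK i.succ)

theorem nonempty_sum {m : ℕ} {K : Fin m → Set V} (nK : ∀ i, (K i).Nonempty) :
    (∑ i, K i).Nonempty := by
  induction m with
  | zero => simp
  | succ m ih =>
    rw [Fin.sum_univ_succ]
    exact (nK 0).add (ih fun i => nK i.succ)

theorem bm_sum {m : ℕ} {K : Fin m → Set V} (hK : ∀ i, IsCompact (K i)) (nK : ∀ i, (K i).Nonempty)
    (hd : 0 < finrank ℝ V) :
    ∑ i, vol (K i) ^ ((1 : ℝ) / finrank ℝ V) ≤ vol (∑ i, K i) ^ ((1 : ℝ) / finrank ℝ V) := by
  induction m with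
  | zero => simpa using Real.rpow_nonneg (vol_nonneg _) _
  | succ m ih =>
    rw [Fin.sum_univ_succ, Fin.sum_univ_succ]
    refine (add_le_add le_rfl (ih (fun i => hK i.succ) fun i => nK i.succ)).trans ?_
    exact brunn_minkowski (hK 0) (isCompact_sum fun i => hK i.succ) (nK 0)
      (nonempty_sum fun i => nK i.succ) hd

end Vale.Agent.P237
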