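import Vale.Agent.P237.BMEq1
import Vale.Agent.P227.PL

open MeasureTheory Set Filter Topology
open scoped Pointwise ENNReal NNReal

namespace Vale.Agent.P237
namespace BMEq

/-- the splitting of the first coordinate -/
noncomputable def spl (n : ℕ) : (Fin (n + 1) → ℝ) ≃ᵐ ℝ × (Fin n → ℝ) :=
  MeasurableEquiv.piFinSuccAbove (fun _ : Fin (n + 1) => ℝ) 0

theorem spl_mp (n : ℕ) : MeasurePreserving (spl n) volume volume :=
  volume_preserving_piFinSuccAbove (fun _ : Fin (n + 1) => ℝ) 0

theorem spl_symm_zero (n : ℕ) (t : ℝ) (z : Fin n → ℝ) : (spl n).symm (t, z) 0 = t := by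
  simp [spl, MeasurableEquiv.piFinSuccAbove]

theorem spl_symm_succ (n : ℕ) (t : ℝ) (z : Fin n → ℝ) (j : Fin n) :
    (spl n).symm (t, z) j.succ = z j := by
  simp [spl, MeasurableEquiv.piFinSuccAbove]

theorem spl_symm_comb (n : ℕ) (s t : ℝ) (a b : ℝ) (x y : Fin n → ℝ) :
    s • (spl n).symm (a, x) + t • (spl n).symm (b, y) = (spl n).symm (s * a + t * b, s • x + t • y) := by
  funext i
  refine Fin.cases ?_ (fun j => ?_) i
  · simp [spl_symm_zero]
  · simp [spl_symm_succ]

theorem continuous_spl_symm (n : ℕ) : Continuous fun p : ℝ × (Fin n → ℝ) => (spl n).symm p := by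
  apply continuous_pi
  intro i
  refine Fin.cases ?_ (fun j => ?_) i
  · have : (fun p : ℝ × (Fin n → ℝ) => (spl n).symm p 0) = fun p => p.1 := by
      funext p; exact spl_symm_zero n p.1 p.2
    rw [this]; fun_prop
  · have : (fun p : ℝ × (Fin n → ℝ) => (spl n).symm p j.succ) = fun p => p.2 j := by
      funext p; exact spl_symm_succ n p.1 p.2 j
    rw [this]; fun_prop

/-- slice -/
def sl {n : ℕ} (K : Set (Fin (n + 1) → ℝ)) (t : ℝ) : Set (Fin n → ℝ) :=
  {z | (spl n).symm (t, z) ∈ K}

theorem measurableSet_sl {n : ℕ} {K : Set (Fin (n + 1) → ℝ)} (hK : MeasurableSet K) (t : ℝ) :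
    MeasurableSet (sl K t) :=
  ((spl n).symm.measurable.comp measurable_prodMk_left) hK

theorem measurable_vol_sl {n : ℕ} {K : Set (Fin (n + 1) → ℝ)} (hK : MeasurableSet K) :
    Measurable fun t => volume (sl K t) :=
  measurable_measure_prodMk_left (ν := (volume : Measure (Fin n → ℝ)))
    ((spl n).symm.measurable hK)

theorem volume_eq {n : ℕ} {K : Set (Fin (n + 1) → ℝ)} (hK : MeasurableSet K) :
    volume K = ∫⁻ t, volume (sl K t) := by
  have h1 : volume K = volume ((spl n).symm ⁻¹' K) :=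
    ((spl_mp n).symm.measure_preimage hK.nullMeasurableSet).symm
  rw [h1]
  exact Measure.prod_apply ((spl n).symm.measurable hK)

theorem volume_inter {n : ℕ} {K : Set (Fin (n + 1) → ℝ)} (hK : MeasurableSet K) {T : Set ℝ}
    (hT : MeasurableSet T) :
    volume (K ∩ {x | x 0 ∈ T}) = ∫⁻ t in T, volume (sl K t) := by
  have hm : MeasurableSet {x : Fin (n + 1) → ℝ | x 0 ∈ T} := measurable_pi_apply 0 hT
  rw [volume_eq (hK.inter hm), ← lintegral_indicator hT]
  apply lintegral_congr
  intro t
  by_cases ht : t ∈ T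
  · rw [indicator_of_mem ht]
    congr 1
    ext z
    simp only [sl, mem_inter_iff, mem_ofPred_eq, spl_symm_zero, ht, and_true]
  · rw [indicator_of_notMem ht]
    have : sl (K ∩ {x | x 0 ∈ T}) t = ∅ := by
      ext z
      simp only [sl, mem_inter_iff, mem_ofPred_eq, spl_symm_zero, ht, and_false,
        mem_empty_iff_false]
    rw [this, measure_empty]

/-- slice volume -/
noncomputable def sv {n : ℕ} (K : Set (Fin (n + 1) → ℝ)) (t : ℝ) : ℝ := (volume (sl K t)).toReal

theorem isCompact_sl {n : ℕ} {K : Set (Fin (n + 1) → ℝ)} (hK : IsCompact K) (t : ℝ) :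
    IsCompact (sl K t) := by
  have h1 : sl K t = (fun x : Fin (n + 1) → ℝ => fun j : Fin n => x j.succ) '' (K ∩ {x | x 0 = t}) := by
    ext z
    constructor
    · intro hz
      refine ⟨(spl n).symm (t, z), ⟨hz, spl_symm_zero n t z⟩, ?_⟩
      funext j
      exact spl_symm_succ n t z j
    · rintro ⟨x, ⟨hx, hx0⟩, rfl⟩
      show (spl n).symm (t, fun j : Fin n => x j.succ) ∈ K
      have : (spl n).symm (t, fun j : Fin n => x j.succ) = x := by
        funext i
        refine Fin.cases ?_ (fun j => ?_) i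
        · rw [spl_symm_zero]; exact hx0.symm
        · rw [spl_symm_succ]
      rw [this]; exact hx
  rw [h1]
  apply IsCompact.image
  · exact hK.inter_right (isClosed_eq (continuous_apply 0) continuous_const)
  · fun_prop

theorem sv_lt_top {n : ℕ} {K : Set (Fin (n + 1) → ℝ)} (hK : IsCompact K) (t : ℝ) :
    volume (sl K t) < ∞ := (isCompact_sl hK t).measure_lt_top

theorem ofReal_sv {n : ℕ} {K : Set (Fin (n + 1) → ℝ)} (hK : IsCompact K) (t : ℝ) :
    ENNReal.ofReal (sv K t) = volume (sl K t) := ENNReal.ofReal_toReal (sv_lt_top hK t).ne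

theorem integrable_sv {n : ℕ} {K : Set (Fin (n + 1) → ℝ)} (hK : IsCompact K) :
    Integrable (sv K) := by
  apply integrable_toReal_of_lintegral_ne_top (measurable_vol_sl hK.measurableSet).aemeasurable
  rw [← volume_eq hK.measurableSet]
  exact hK.measure_lt_top.ne

theorem setIntegral_sv {n : ℕ} {K : Set (Fin (n + 1) → ℝ)} (hK : IsCompact K) {T : Set ℝ}
    (hT : MeasurableSet T) : ∫ t in T, sv K t = (volume (K ∩ {x | x 0 ∈ T})).toReal := by
  rw [volume_inter hK.measurableSet hT]
  exact integral_toReal (measurable_vol_sl hK.measurableSet).aemeasurable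
    (Eventually.of_forall fun t => sv_lt_top hK t)

/-- log-concavity and two-body version -/
theorem sl_mul {n : ℕ} {K M E : Set (Fin (n + 1) → ℝ)} (hK : IsCompact K) (hM : IsCompact M)
    (hE : IsCompact E) {s t : ℝ} (hs : 0 < s) (ht : 0 < t) (hst : s + t = 1)
    (h : ∀ x ∈ K, ∀ y ∈ M, s • x + t • y ∈ E) (y z : ℝ) :
    sv K y ^ s * sv M z ^ t ≤ sv E (s * y + t * z) := by
  have h1 := Vale.Agent.P227.bm_mul hs ht hst (isCompact_sl hK y).measurableSet
    (isCompact_sl hM z).measurableSet (isCompact_sl hE (s * y + t * z)).measurableSet (by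
      intro p hp q hq
      show (spl n).symm (s * y + t * z, s • p + t • q) ∈ E
      rw [← spl_symm_comb]
      exact h _ hp _ hq)
  have h2 := ENNReal.toReal_mono (sv_lt_top hE _).ne h1
  rwa [ENNReal.toReal_mul, ← ENNReal.toReal_rpow, ← ENNReal.toReal_rpow] at h2

/-- lower end of the projection -/
noncomputable def lo {n : ℕ} (K : Set (Fin (n + 1) → ℝ)) : ℝ := sInf ((fun x => x 0) '' K)
/-- upper end of the projection -/
noncomputable def hi {n : ℕ} (K : Set (Fin (n + 1) → ℝ)) : ℝ := sSup ((fun x => x 0) '' K)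

structure PBody {n : ℕ} (K : Set (Fin (n + 1) → ℝ)) : Prop where
  convex : Convex ℝ K
  compact : IsCompact K
  int : (interior K).Nonempty

variable {n : ℕ} {K M : Set (Fin (n + 1) → ℝ)}

theorem PBody.img_compact (hK : PBody K) : IsCompact ((fun x : Fin (n + 1) → ℝ => x 0) '' K) :=
  hK.compact.image (continuous_apply 0)

theorem PBody.nonempty (hK : PBody K) : K.Nonempty := hK.int.mono interior_subset

theorem PBody.mem_Icc (hK : PBody K) {x : Fin (n + 1) → ℝ} (hx : x ∈ K) :
    x 0 ∈ Icc (lo K) (hi K) :=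
  ⟨csInf_le hK.img_compact.bddBelow ⟨x, hx, rfl⟩, le_csSup hK.img_compact.bddAbove ⟨x, hx, rfl⟩⟩

theorem PBody.exists_int (hK : PBody K) {t : ℝ} (ht : t ∈ Ioo (lo K) (hi K)) :
    ∃ x ∈ interior K, x 0 = t := by
  obtain ⟨c, hc⟩ := hK.int
  obtain ⟨p, hp, hp0⟩ := hK.img_compact.sInf_mem (hK.nonempty.image _)
  obtain ⟨q, hq, hq0⟩ := hK.img_compact.sSup_mem (hK.nonempty.image _)
  have hp1 : p 0 < t := by
    have : p 0 = lo K := hp0
    rw [this]; exact ht.1
  have hq1 : t < q 0 := by
    have : q 0 = hi K := hq0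
    rw [this]; exact ht.2
  have key : ∀ r ∈ K, ∀ s : ℝ, 0 < s → s ≤ 1 → (s • c + (1 - s) • r) ∈ interior K := by
    intro r hr s hs hs1
    exact hK.convex.combo_interior_self_mem_interior hc hr hs (by linarith) (by ring)
  rcases lt_trichotomy (c 0) t with h | h | h
  · refine ⟨_, key q hq ((q 0 - t) / (q 0 - c 0)) (by apply div_pos <;> linarith)
      ((div_le_one (by linarith)).mpr (by linarith)), ?_⟩
    have : q 0 - c 0 ≠ 0 := by linarith
    simp only [Pi.add_apply, Pi.smul_apply, smul_eq_mul]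
    field_simp
    ring
  · exact ⟨c, hc, h⟩
  · refine ⟨_, key p hp ((t - p 0) / (c 0 - p 0)) (by apply div_pos <;> linarith)
      ((div_le_one (by linarith)).mpr (by linarith)), ?_⟩
    have : c 0 - p 0 ≠ 0 := by linarith
    simp only [Pi.add_apply, Pi.smul_apply, smul_eq_mul]
    field_simp
    ring

theorem PBody.lo_lt_hi (hK : PBody K) : lo K < hi K := by
  obtain ⟨c, hc⟩ := hK.int
  have h1 : Tendsto (fun s : ℝ => c + s • (Pi.single 0 1 : Fin (n + 1) → ℝ)) (𝓝 0) (𝓝 c) := by
    have : Continuous fun s : ℝ => c + s • (Pi.single 0 1 : Fin (n + 1) → ℝ) := by fun_prop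
    have h2 := this.tendsto 0
    simpa using h2
  have h2 : ∀ᶠ s in 𝓝 (0 : ℝ), c + s • (Pi.single 0 1 : Fin (n + 1) → ℝ) ∈ K :=
    h1 (mem_interior_iff_mem_nhds.mp hc)
  obtain ⟨s, hs, hs0⟩ := (h2.filter_mono nhdsWithin_le_nhds |>.and
    (self_mem_nhdsWithin : Ioi (0 : ℝ) ∈ 𝓝[>] 0)).exists
  have h3 := hK.mem_Icc hs
  have h4 := hK.mem_Icc (interior_subset hc)
  have h5 : (c + s • (Pi.single 0 1 : Fin (n + 1) → ℝ)) 0 = c 0 + s := by simp
  rw [h5] at h3
  have : (0 : ℝ) < s := hs0
  linarith [h3.2, h4.1]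

theorem PBody.sv_pos (hK : PBody K) {t : ℝ} (ht : t ∈ Ioo (lo K) (hi K)) : 0 < sv K t := by
  apply ENNReal.toReal_pos _ (sv_lt_top hK.compact t).ne
  obtain ⟨x, hx, hx0⟩ := hK.exists_int ht
  have ho : IsOpen {z : Fin n → ℝ | (spl n).symm (t, z) ∈ interior K} :=
    isOpen_interior.preimage ((continuous_spl_symm n).comp (by fun_prop))
  have hne : {z : Fin n → ℝ | (spl n).symm (t, z) ∈ interior K}.Nonempty := by
    refine ⟨fun j => x j.succ, ?_⟩
    show (spl n).symm (t, fun j : Fin n => x j.succ) ∈ interior K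
    have : (spl n).symm (t, fun j : Fin n => x j.succ) = x := by
      funext i
      refine Fin.cases ?_ (fun j => ?_) i
      · rw [spl_symm_zero]; exact hx0.symm
      · rw [spl_symm_succ]
    rw [this]; exact hx
  have h1 := ho.measure_pos volume hne
  have h2 : {z : Fin n → ℝ | (spl n).symm (t, z) ∈ interior K} ⊆ sl K t := by
    intro z hz
    have h3 : (spl n).symm (t, z) ∈ interior K := hz
    exact interior_subset (s := K) h3
  exact (lt_of_lt_of_le h1 (measure_mono h2)).ne'

theorem PBody.sv_cont (hK : PBody K) : ContinuousOn (sv K) (Ioo (lo K) (hi K)) := by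
  have hconc : ConcaveOn ℝ (Ioo (lo K) (hi K)) fun t => Real.log (sv K t) := by
    refine ⟨convex_Ioo _ _, ?_⟩
    intro y hy z hz s t hs ht hst
    rcases hs.eq_or_lt with rfl | hs
    · have : t = 1 := by linarith
      subst this; simp
    rcases ht.eq_or_lt with rfl | ht
    · have : s = 1 := by linarith
      subst this; simp
    have h1 := sl_mul hK.compact hK.compact hK.compact hs ht hst
      (fun x hx y hy => hK.convex hx hy hs.le ht.le hst) y z
    have hy0 := hK.sv_pos hy
    have hz0 := hK.sv_pos hz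
    have h2 := Real.log_le_log (by positivity) h1
    rw [Real.log_mul (by positivity) (by positivity), Real.log_rpow hy0, Real.log_rpow hz0] at h2
    simpa only [smul_eq_mul] using h2
  have h1 : ContinuousOn (fun t => Real.log (sv K t)) (Ioo (lo K) (hi K)) :=
    hconc.continuousOn isOpen_Ioo
  have h2 : ContinuousOn (fun t => Real.exp (Real.log (sv K t))) (Ioo (lo K) (hi K)) := h1.rexp
  refine h2.congr ?_
  intro t ht
  exact (Real.exp_log (hK.sv_pos ht)).symm

theorem PBody.integral_lo (hK : PBody K) {y : ℝ} (hy : lo K ≤ y) :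
    ∫ t in (lo K)..y, sv K t = (volume (K ∩ {x | x 0 ≤ y})).toReal := by
  rw [intervalIntegral.integral_of_le hy, ← integral_Icc_eq_integral_Ioc,
    setIntegral_sv hK.compact measurableSet_Icc]
  congr 2
  ext x
  simp only [mem_inter_iff, mem_ofPred_eq, Set.mem_Icc]
  constructor
  · rintro ⟨h1, h2, h3⟩; exact ⟨h1, h3⟩
  · rintro ⟨h1, h3⟩; exact ⟨h1, (hK.mem_Icc h1).1, h3⟩

theorem PBody.integral_lo_hi (hK : PBody K) :
    ∫ t in (lo K)..(hi K), sv K t = (volume K).toReal := by
  rw [hK.integral_lo hK.lo_lt_hi.le]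
  congr 2
  ext x
  simp only [mem_inter_iff, mem_ofPred_eq]
  constructor
  · rintro ⟨h1, h3⟩; exact h1
  · intro h1; exact ⟨h1, (hK.mem_Icc h1).2⟩

/-- Equality in Brunn-Minkowski implies equal distributions (up to a shift) of the first
coordinate. -/
theorem first_coord (hK : PBody K) (hM : PBody M) (h1 : volume K = volume M)
    (h2 : volume ((2⁻¹ : ℝ) • (K + M)) ≤ volume K) :
    ∃ k : ℝ, ∀ y, volume (M ∩ {x | x 0 ≤ y + k}) = volume (K ∩ {x | x 0 ≤ y}) := by
  set E := (2⁻¹ : ℝ) • (K + M) with hE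
  have hEc : IsCompact E := (hK.compact.add hM.compact).smul _
  obtain ⟨k, hk⟩ := oneD (e := fun t => volume (sl E t)) (V := (volume K).toReal)
    hK.lo_lt_hi hM.lo_lt_hi hK.sv_cont (fun y hy => hK.sv_pos hy)
    (integrable_sv hK.compact).intervalIntegrable hK.integral_lo_hi hM.sv_cont
    (fun y hy => hM.sv_pos hy) (integrable_sv hM.compact).intervalIntegrable
    (by rw [hM.integral_lo_hi, h1])
    (by
      intro y hy z hz
      have h3 := sl_mul hK.compact hM.compact hEc (s := 2⁻¹) (t := 2⁻¹) (by norm_num)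
        (by norm_num) (by norm_num) (by
          intro p hp q hq
          rw [← smul_add]
          exact smul_mem_smul_set (add_mem_add hp hq)) y z
      rw [← ofReal_sv hEc]
      apply ENNReal.ofReal_le_ofReal
      have h4 : (2⁻¹ : ℝ) * y + 2⁻¹ * z = (y + z) / 2 := by ring
      rw [h4] at h3
      refine le_trans (le_of_eq ?_) h3
      rw [Real.sqrt_eq_rpow, Real.mul_rpow (hK.sv_pos hy).le (hM.sv_pos hz).le]
      norm_num)
    (by
      rw [← volume_eq hEc.measurableSet, ENNReal.ofReal_toReal hK.compact.measure_lt_top.ne]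
      exact h2)
  have hfinK : ∀ y, volume (K ∩ {x | x 0 ≤ y}) ≠ ∞ := fun y =>
    ne_top_of_le_ne_top hK.compact.measure_lt_top.ne (measure_mono inter_subset_left)
  have hfinM : ∀ y, volume (M ∩ {x | x 0 ≤ y}) ≠ ∞ := fun y =>
    ne_top_of_le_ne_top hM.compact.measure_lt_top.ne (measure_mono inter_subset_left)
  refine ⟨k, ?_⟩
  have hmid : ∀ y ∈ Ioo (lo K) (hi K),
      volume (M ∩ {x | x 0 ≤ y + k}) = volume (K ∩ {x | x 0 ≤ y}) := by
    intro y hy
    obtain ⟨h3, h4⟩ := hk y hy
    rw [hM.integral_lo h3.1.le, hK.integral_lo hy.1.le] at h4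
    exact (ENNReal.toReal_eq_toReal_iff' (hfinM _) (hfinK _)).mp h4
  have hPc : ContinuousOn (fun y => ∫ t in (lo K)..y, sv K t) (Icc (lo K) (hi K)) := by
    have := intervalIntegral.continuousOn_primitive_interval' (μ := volume) (f := sv K)
      (b₁ := lo K) (b₂ := hi K) (a := lo K) (integrable_sv hK.compact).intervalIntegrable
      left_mem_uIcc
    rwa [uIcc_of_le hK.lo_lt_hi.le] at this
  intro y
  rcases le_or_gt y (lo K) with hy | hy
  · -- both sides vanish
    have h3 : volume (K ∩ {x | x 0 ≤ y}) = 0 := by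
      have h4 := hK.integral_lo le_rfl
      rw [intervalIntegral.integral_same] at h4
      have h5 : volume (K ∩ {x | x 0 ≤ lo K}) = 0 :=
        ((ENNReal.toReal_eq_zero_iff _).mp h4.symm).resolve_right (hfinK _)
      refine measure_mono_null ?_ h5
      intro x hx
      have h6 : x 0 ≤ y := hx.2
      exact ⟨hx.1, show x 0 ≤ lo K from h6.trans hy⟩
    rw [h3]
    have h6 : Tendsto (fun y => ∫ t in (lo K)..y, sv K t) (𝓝[>] (lo K)) (𝓝 0) := by
      have h7 := hPc (lo K) (left_mem_Icc.mpr hK.lo_lt_hi.le)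
      have h8 : Tendsto (fun y => ∫ t in (lo K)..y, sv K t) (𝓝[Icc (lo K) (hi K)] (lo K))
          (𝓝 (∫ t in (lo K)..(lo K), sv K t)) := h7
      rw [intervalIntegral.integral_same] at h8
      apply h8.mono_left
      rw [← nhdsWithin_Ioo_eq_nhdsGT hK.lo_lt_hi]
      exact nhdsWithin_mono _ Ioo_subset_Icc_self
    have h9 : (volume (M ∩ {x | x 0 ≤ y + k})).toReal ≤ 0 := by
      apply ge_of_tendsto h6
      rw [← nhdsWithin_Ioo_eq_nhdsGT hK.lo_lt_hi]
      filter_upwards [self_mem_nhdsWithin] with w hw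
      rw [hK.integral_lo hw.1.le, ← hmid w hw]
      apply ENNReal.toReal_mono (hfinM _)
      apply measure_mono
      intro x hx
      have h11 : x 0 ≤ y + k := hx.2
      refine ⟨hx.1, show x 0 ≤ w + k from ?_⟩
      linarith [hw.1]
    have h10 : (volume (M ∩ {x | x 0 ≤ y + k})).toReal = 0 :=
      le_antisymm h9 ENNReal.toReal_nonneg
    exact ((ENNReal.toReal_eq_zero_iff _).mp h10).resolve_right (hfinM _)
  · rcases lt_or_ge y (hi K) with hy2 | hy2
    · exact hmid y ⟨hy, hy2⟩
    · have h3 : volume (K ∩ {x | x 0 ≤ y}) = volume K := by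
        congr 1
        ext x
        simp only [mem_inter_iff, mem_ofPred_eq]
        exact ⟨fun h => h.1, fun h => ⟨h, (hK.mem_Icc h).2.trans hy2⟩⟩
      rw [h3]
      apply le_antisymm
      · rw [h1]; exact measure_mono inter_subset_left
      · have h6 : Tendsto (fun y => ∫ t in (lo K)..y, sv K t) (𝓝[<] (hi K))
            (𝓝 (volume K).toReal) := by
          have h7 := hPc (hi K) (right_mem_Icc.mpr hK.lo_lt_hi.le)
          have h8 : Tendsto (fun y => ∫ t in (lo K)..y, sv K t) (𝓝[Icc (lo K) (hi K)] (hi K))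
              (𝓝 (∫ t in (lo K)..(hi K), sv K t)) := h7
          rw [hK.integral_lo_hi] at h8
          apply h8.mono_left
          rw [← nhdsWithin_Ioo_eq_nhdsLT hK.lo_lt_hi]
          exact nhdsWithin_mono _ Ioo_subset_Icc_self
        have h9 : (volume K).toReal ≤ (volume (M ∩ {x | x 0 ≤ y + k})).toReal := by
          apply le_of_tendsto h6
          rw [← nhdsWithin_Ioo_eq_nhdsLT hK.lo_lt_hi]
          filter_upwards [self_mem_nhdsWithin] with w hw
          rw [hK.integral_lo hw.1.le, ← hmid w hw]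
          apply ENNReal.toReal_mono (hfinM _)
          apply measure_mono
          intro x hx
          have h11 : x 0 ≤ w + k := hx.2
          refine ⟨hx.1, show x 0 ≤ y + k from ?_⟩
          linarith [hw.2]
        exact (ENNReal.toReal_le_toReal hK.compact.measure_lt_top.ne (hfinM _)).mp h9

end BMEq
end Vale.Agent.P237
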