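import Vale.Agent.P237.Defs
import Vale.Agent.P237.BMEq2

open MeasureTheory Metric Set Module Filter Topology
open scoped Pointwise ENNReal NNReal

namespace Vale.Agent.P237

variable {V : Type*} [NormedAddCommGroup V] [InnerProductSpace ℝ V] [FiniteDimensional ℝ V]
  [MeasurableSpace V] [BorelSpace V]

namespace BMEq

theorem dir_shift {K M : Set V} (hK : IsBody K) (hM : IsBody M) (h1 : volume K = volume M)
    (h2 : volume ((2⁻¹ : ℝ) • (K + M)) ≤ volume K) {u : V} (hu : ‖u‖ = 1) :
    ∃ k : ℝ, ∀ y, volume (M ∩ {x | inner ℝ u x ≤ y + k}) = volume (K ∩ {x | inner ℝ u x ≤ y}) := by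
  have hu0 : u ≠ 0 := by
    intro h; rw [h, norm_zero] at hu; exact zero_ne_one hu
  have : Nontrivial V := ⟨u, 0, hu0⟩
  obtain ⟨n, hn⟩ : ∃ n, finrank ℝ V = n + 1 := Nat.exists_eq_succ_of_ne_zero finrank_pos.ne'
  have ho : Orthonormal ℝ (({0} : Set (Fin (n + 1))).domRestrict (fun _ => u)) := by
    constructor
    · intro i; exact hu
    · intro i j hij
      exact absurd (Subsingleton.elim i j) hij
  obtain ⟨b, hb⟩ := ho.exists_orthonormalBasis_extension_of_card_eq (by simpa using hn)
  have hb0 : b 0 = u := hb 0 rfl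
  let Φ : V ≃L[ℝ] (Fin (n + 1) → ℝ) :=
    b.repr.toContinuousLinearEquiv.trans (EuclideanSpace.equiv (Fin (n + 1)) ℝ)
  have hΦ : MeasurePreserving Φ volume volume :=
    (PiLp.volume_preserving_ofLp (Fin (n + 1))).comp b.measurePreserving_repr
  have hΦ0 : ∀ x, Φ x 0 = inner ℝ u x := by
    intro x
    show b.repr x 0 = _
    rw [b.repr_apply_apply, hb0]
  have hvol : ∀ A : Set V, MeasurableSet A → volume (Φ '' A) = volume A := by
    intro A hA
    have h3 : MeasurableSet (Φ '' A) := Φ.toHomeomorph.measurableEmbedding.measurableSet_image.mpr hA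
    rw [← hΦ.measure_preimage h3.nullMeasurableSet, preimage_image_eq _ Φ.injective]
  have hbody : ∀ A : Set V, IsBody A → PBody (Φ '' A) := by
    intro A hA
    refine ⟨hA.convex.linear_image (Φ : V →ₗ[ℝ] (Fin (n + 1) → ℝ)), hA.compact.image Φ.continuous,
      ?_⟩
    have : interior (Φ '' A) = Φ '' interior A := (Φ.toHomeomorph.image_interior A).symm
    rw [this]
    exact hA.int.image _
  have hsec : ∀ (A : Set V) (y : ℝ), Φ '' (A ∩ {x | inner ℝ u x ≤ y}) = Φ '' A ∩ {x | x 0 ≤ y} := by
    intro A y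
    ext z
    constructor
    · rintro ⟨x, ⟨hx, hxy⟩, rfl⟩
      exact ⟨⟨x, hx, rfl⟩, show Φ x 0 ≤ y by rw [hΦ0]; exact hxy⟩
    · rintro ⟨⟨x, hx, rfl⟩, hxy⟩
      refine ⟨x, ⟨hx, show inner ℝ u x ≤ y from ?_⟩, rfl⟩
      rw [← hΦ0]; exact hxy
  have hmeas : ∀ (A : Set V) (y : ℝ), IsBody A → MeasurableSet (A ∩ {x | inner ℝ u x ≤ y}) := by
    intro A y hA
    exact hA.compact.measurableSet.inter
      (isClosed_le (by fun_prop) continuous_const).measurableSet
  obtain ⟨k, hk⟩ := first_coord (hbody K hK) (hbody M hM)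
    (by rw [hvol K hK.compact.measurableSet, hvol M hM.compact.measurableSet, h1])
    (by
      have h3 : (2⁻¹ : ℝ) • (Φ '' K + Φ '' M) = Φ '' ((2⁻¹ : ℝ) • (K + M)) := by
        rw [image_smul_set, image_add]
      rw [h3, hvol _ ((hK.compact.add hM.compact).smul _).measurableSet,
        hvol K hK.compact.measurableSet]
      exact h2)
  refine ⟨k, fun y => ?_⟩
  have h4 := hk y
  rw [← hsec, ← hsec, hvol _ (hmeas M _ hM), hvol _ (hmeas K _ hK)] at h4
  exact h4

theorem integral_shift {K M : Set V} (hK : IsBody K) (hM : IsBody M)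
    {u : V} {k : ℝ} (hk : ∀ y, volume (M ∩ {x | inner ℝ u x ≤ y + k}) =
      volume (K ∩ {x | inner ℝ u x ≤ y})) :
    ∫ x in M, inner ℝ u x = (∫ x in K, inner ℝ u x) + k * vol K := by
  have hm : Measurable fun x : V => inner ℝ u x := by fun_prop
  have : IsFiniteMeasure (volume.restrict K) := ⟨by simpa using hK.compact.measure_lt_top⟩
  have : IsFiniteMeasure (volume.restrict M) := ⟨by simpa using hM.compact.measure_lt_top⟩
  have hI : ∀ A : Set V, IsBody A → Integrable (fun x : V => inner ℝ u x) (volume.restrict A) := by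
    intro A hA
    have hc : ContinuousOn (fun x : V => inner ℝ u x) A := by fun_prop
    exact hc.integrableOn_compact hA.compact
  have hmap : (volume.restrict M).map (fun x => inner ℝ u x) =
      (volume.restrict K).map (fun x => inner ℝ u x + k) := by
    apply Measure.ext_of_Iic
    intro y
    rw [Measure.map_apply hm measurableSet_Iic, Measure.map_apply (hm.add_const k) measurableSet_Iic,
      Measure.restrict_apply (hm measurableSet_Iic),
      Measure.restrict_apply ((hm.add_const k) measurableSet_Iic)]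
    have h3 := hk (y - k)
    rw [sub_add_cancel] at h3
    have e1 : (fun x : V => inner ℝ u x) ⁻¹' Iic y ∩ M = M ∩ {x | inner ℝ u x ≤ y} := by
      rw [inter_comm]; rfl
    have e2 : (fun x : V => inner ℝ u x + k) ⁻¹' Iic y ∩ K = K ∩ {x | inner ℝ u x ≤ y - k} := by
      rw [inter_comm]
      congr 1
      ext x
      simp only [mem_preimage, Set.mem_Iic, mem_ofPred_eq]
      constructor <;> intro h <;> linarith
    rw [e1, e2, h3]
  have h2 : ∫ x in M, inner ℝ u x = ∫ y, y ∂((volume.restrict M).map (fun x => inner ℝ u x)) :=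
    (integral_map (f := fun y : ℝ => y) hm.aemeasurable
      measurable_id.aestronglyMeasurable).symm
  have h3 : ∫ x in K, (inner ℝ u x + k) =
      ∫ y, y ∂((volume.restrict K).map (fun x => inner ℝ u x + k)) :=
    (integral_map (f := fun y : ℝ => y) (hm.add_const k).aemeasurable
      measurable_id.aestronglyMeasurable).symm
  rw [h2, hmap, ← h3, integral_add (hI K hK) (integrable_const _)]
  simp only [integral_const, smul_eq_mul]
  rw [vol, Measure.real, Measure.restrict_apply_univ, mul_comm]

theorem sub_mem {K M : Set V} (hK : IsBody K) (hM : IsBody M) (h1 : volume K = volume M)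
    (h2 : volume ((2⁻¹ : ℝ) • (K + M)) ≤ volume K) {x : V} (hx : x ∈ M) :
    x - (vol K)⁻¹ • ((∫ y in M, y) - ∫ y in K, y) ∈ K := by
  set c : V := (vol K)⁻¹ • ((∫ y in M, y) - ∫ y in K, y) with hc
  have hV : 0 < vol K := by
    apply ENNReal.toReal_pos _ hK.compact.measure_lt_top.ne
    exact (lt_of_lt_of_le (isOpen_interior.measure_pos volume hK.int)
      (measure_mono interior_subset)).ne'
  by_contra hcon
  obtain ⟨f, r, hf1, hf2⟩ := geometric_hahn_banach_closed_point hK.convex hK.compact.isClosed hcon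
  set w : V := (InnerProductSpace.toDual ℝ V).symm f with hw
  have hfw : ∀ z, f z = inner ℝ w z := by
    intro z
    rw [hw, InnerProductSpace.toDual_symm_apply]
  obtain ⟨p, hp⟩ := hK.int
  have hpK := interior_subset hp
  have hw0 : w ≠ 0 := by
    intro h0
    have h3 := hf1 p hpK
    rw [hfw, h0, inner_zero_left] at h3
    rw [hfw, h0, inner_zero_left] at hf2
    linarith
  have hwn : 0 < ‖w‖ := norm_pos_iff.mpr hw0
  set u : V := ‖w‖⁻¹ • w with hu
  have hu1 : ‖u‖ = 1 := by
    rw [hu, norm_smul, norm_inv, norm_norm, inv_mul_cancel₀ hwn.ne']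
  have hfu : ∀ z, inner ℝ u z = ‖w‖⁻¹ * f z := by
    intro z
    rw [hu, real_inner_smul_left, hfw]
  obtain ⟨k, hk⟩ := dir_shift hK hM h1 h2 hu1
  have hI := integral_shift hK hM hk
  have hidn : ∀ A : Set V, IsBody A → ∫ y in A, inner ℝ u y = inner ℝ u (∫ y in A, y) := by
    intro A hA
    have hi : Integrable (fun y : V => y) (volume.restrict A) :=
      (continuous_id.continuousOn).integrableOn_compact hA.compact
    exact integral_inner hi u
  have hkc : k = inner ℝ u c := by
    rw [hidn M hM, hidn K hK] at hI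
    rw [hc, real_inner_smul_right, inner_sub_right, hI]
    field_simp
    ring
  set t : ℝ := ‖w‖⁻¹ * r with ht
  have ht1 : ∀ z ∈ K, inner ℝ u z ≤ t := by
    intro z hz
    rw [hfu, ht]
    exact mul_le_mul_of_nonneg_left (hf1 z hz).le (by positivity)
  have ht2 : t + k < inner ℝ u x := by
    have h3 : t < inner ℝ u (x - c) := by
      rw [hfu, ht]
      exact mul_lt_mul_of_pos_left hf2 (by positivity)
    rw [inner_sub_right, ← hkc] at h3
    linarith
  have h3 : volume (M ∩ {x | inner ℝ u x ≤ t + k}) = volume M := by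
    rw [hk t, ← h1]
    congr 1
    ext z
    constructor
    · exact fun h => h.1
    · exact fun h => ⟨h, ht1 z h⟩
  -- the complementary part is null
  have hcl : IsClosed {x : V | inner ℝ u x ≤ t + k} := isClosed_le (by fun_prop) continuous_const
  have h4 : volume (M \ {x | inner ℝ u x ≤ t + k}) = 0 := by
    have h5 := measure_inter_add_sdiff (μ := volume) M hcl.measurableSet
    rw [h3] at h5
    have h6 : volume M + volume (M \ {x | inner ℝ u x ≤ t + k}) = volume M + 0 := by
      rw [add_zero]; exact h5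
    exact (ENNReal.add_right_inj hM.compact.measure_lt_top.ne).mp h6
  have h5 : x ∈ closure (interior M) := by
    rw [hM.convex.closure_interior_eq_closure_of_nonempty_interior hM.int]
    exact subset_closure hx
  have h6 : ({x : V | inner ℝ u x ≤ t + k}ᶜ ∩ interior M).Nonempty := by
    apply mem_closure_iff.mp h5 _ hcl.isOpen_compl
    intro h7
    have h8 : inner ℝ u x ≤ t + k := h7
    linarith
  have h7 := (hcl.isOpen_compl.inter isOpen_interior).measure_pos volume h6
  have h8 : volume ({x : V | inner ℝ u x ≤ t + k}ᶜ ∩ interior M) ≤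
      volume (M \ {x | inner ℝ u x ≤ t + k}) := by
    apply measure_mono
    rintro z ⟨hz1, hz2⟩
    exact ⟨interior_subset hz2, hz1⟩
  rw [h4] at h8
  exact absurd h7 (not_lt.mpr h8)

end BMEq

theorem bm_equality {K M : Set V} (hK : IsBody K) (hM : IsBody M) (h1 : vol K = vol M)
    (h2 : vol ((2⁻¹ : ℝ) • (K + M)) = vol K) : ∃ c : V, M = (fun x => c + x) '' K := by
  have hcE : IsCompact ((2⁻¹ : ℝ) • (K + M)) := (hK.compact.add hM.compact).smul _
  have h1' : volume K = volume M :=
    (ENNReal.toReal_eq_toReal_iff' hK.compact.measure_lt_top.ne hM.compact.measure_lt_top.ne).mp h1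
  have h2' : volume ((2⁻¹ : ℝ) • (K + M)) = volume K :=
    (ENNReal.toReal_eq_toReal_iff' hcE.measure_lt_top.ne hK.compact.measure_lt_top.ne).mp h2
  set c : V := (vol K)⁻¹ • ((∫ y in M, y) - ∫ y in K, y) with hc
  refine ⟨c, ?_⟩
  ext x
  constructor
  · intro hx
    refine ⟨x - c, BMEq.sub_mem hK hM h1' h2'.le hx, ?_⟩
    simp
  · rintro ⟨z, hz, rfl⟩
    have h3 := BMEq.sub_mem hM hK h1'.symm (by rw [add_comm M K, h2', h1']) hz
    have h4 : z - (vol M)⁻¹ • ((∫ y in K, y) - ∫ y in M, y) = c + z := by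
      rw [← h1, hc, ← neg_sub (∫ y in M, y) (∫ y in K, y), smul_neg, sub_neg_eq_add, add_comm]
    rwa [h4] at h3

end Vale.Agent.P237
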