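import Vale.Agent.P237.Seg

open MeasureTheory Metric Set Module
open scoped Pointwise

namespace Vale.Agent.P237

variable {V : Type*} [NormedAddCommGroup V] [InnerProductSpace ℝ V] [FiniteDimensional ℝ V]
  [MeasurableSpace V] [BorelSpace V]

omit [MeasurableSpace V] [BorelSpace V] in
/-- Hahn-Banach and Riesz: extension of a functional dominated by a sublinear function. -/
theorem exists_wulff_ext {h : V → ℝ} (hs : ∀ (t : ℝ) v, 0 ≤ t → h (t • v) = t * h v)
    (ha : ∀ v w, h (v + w) ≤ h v + h w) (f : V →ₗ.[ℝ] ℝ) (hf : ∀ x : f.domain, f x ≤ h x) :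
    ∃ y ∈ wulff h, ∀ x : f.domain, inner ℝ y (x : V) = f x := by
  obtain ⟨g, hg1, hg2⟩ := exists_extension_of_le_sublinear f h (fun c hc x => hs c x hc.le) ha hf
  refine ⟨(InnerProductSpace.toDual ℝ V).symm (LinearMap.toContinuousLinearMap g), ?_, ?_⟩
  · intro v
    rw [InnerProductSpace.toDual_symm_apply]
    exact hg2 v
  · intro x
    rw [InnerProductSpace.toDual_symm_apply]
    exact hg1 x

omit [MeasurableSpace V] [BorelSpace V] in
theorem exists_wulff_ext_sub {h : V → ℝ} (hs : ∀ (t : ℝ) v, 0 ≤ t → h (t • v) = t * h v)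
    (ha : ∀ v w, h (v + w) ≤ h v + h w) (F : Submodule ℝ V) (z : V)
    (hz : ∀ w ∈ F, inner ℝ z w ≤ h w) :
    ∃ y ∈ wulff h, ∀ w ∈ F, inner ℝ y w = inner ℝ z w := by
  obtain ⟨y, hy, hy'⟩ := exists_wulff_ext hs ha
    (⟨F, (innerSL ℝ z).toLinearMap ∘ₗ F.subtype⟩ : V →ₗ.[ℝ] ℝ) (by
      rintro ⟨x, hx⟩
      exact hz x hx)
  exact ⟨y, hy, fun w hw => hy' ⟨w, hw⟩⟩

omit [MeasurableSpace V] [BorelSpace V] in
theorem exists_wulff_eq {h : V → ℝ} (hs : ∀ (t : ℝ) v, 0 ≤ t → h (t • v) = t * h v)
    (ha : ∀ v w, h (v + w) ≤ h v + h w) (v : V) : ∃ y ∈ wulff h, inner ℝ y v = h v := by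
  have h0 : h 0 = 0 := by simpa only [smul_zero, zero_mul] using hs 0 0 le_rfl
  rcases eq_or_ne v 0 with rfl | hv
  · obtain ⟨y, hy, -⟩ := exists_wulff_ext_sub hs ha ⊥ 0 (by
      intro w hw
      have hx' : w = 0 := by simpa using hw
      subst hx'
      rw [inner_zero_right, h0])
    exact ⟨y, hy, by rw [inner_zero_right, h0]⟩
  · have hvv : inner ℝ v v ≠ (0 : ℝ) := by simpa using hv
    obtain ⟨y, hy, hy'⟩ := exists_wulff_ext_sub hs ha (ℝ ∙ v) ((h v / inner ℝ v v) • v) (by
      intro w hw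
      obtain ⟨t, rfl⟩ := Submodule.mem_span_singleton.mp hw
      rw [real_inner_smul_left, real_inner_smul_right]
      have h3 : h v / inner ℝ v v * (t * inner ℝ v v) = t * h v := by
        (clear * - hvv; field_simp)
      rw [h3]
      rcases le_total 0 t with ht | ht
      · rw [hs t v ht]
      · have h1 := ha (t • v) ((-t) • v)
        rw [hs (-t) v (by linarith only [ht])] at h1
        have h2 : t • v + (-t) • v = 0 := by rw [neg_smul, add_neg_cancel]
        rw [h2, h0] at h1
        linarith)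
    refine ⟨y, hy, ?_⟩
    rw [hy' v (Submodule.mem_span_singleton_self v), real_inner_smul_left]
    field_simp

omit [MeasurableSpace V] [BorelSpace V] in
theorem wulff_supp {h : V → ℝ} (hs : ∀ (t : ℝ) v, 0 ≤ t → h (t • v) = t * h v)
    (ha : ∀ v w, h (v + w) ≤ h v + h w) (v : V) : supp (wulff h) v = h v := by
  obtain ⟨y, hy, hy'⟩ := exists_wulff_eq hs ha v
  refine le_antisymm ?_ ?_
  · refine csSup_le ⟨_, ⟨y, hy, rfl⟩⟩ ?_
    rintro _ ⟨x, hx, rfl⟩
    exact hx v
  · refine le_csSup ⟨h v, ?_⟩ ⟨y, hy, hy'⟩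
    rintro _ ⟨x, hx, rfl⟩
    exact hx v

omit [MeasurableSpace V] [BorelSpace V] in
theorem wulff_proj {h : V → ℝ} (hs : ∀ (t : ℝ) v, 0 ≤ t → h (t • v) = t * h v)
    (ha : ∀ v w, h (v + w) ≤ h v + h w) (F : Submodule ℝ V) :
    F.orthogonalProjectionOnto '' (wulff h) = {z : F | ∀ w : F, inner ℝ z w ≤ h w} := by
  ext z
  constructor
  · rintro ⟨y, hy, rfl⟩ w
    have := hy (w : V)
    rw [← Submodule.inner_orthogonalProjectionOnto_eq_of_mem_right w y] at this
    exact this
  · intro hz
    obtain ⟨y, hy, hy'⟩ := exists_wulff_ext_sub hs ha F (z : V) (fun w hw => hz ⟨w, hw⟩)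
    refine ⟨y, hy, ?_⟩
    refine ext_inner_right ℝ fun w => ?_
    rw [Submodule.inner_orthogonalProjectionOnto_eq_of_mem_right w y, hy' w w.2]
    rfl

theorem projBody_eq_wulff {K : Set V} (hK : IsCompact K) (hc : Convex ℝ K) :
    projBody K = wulff (beta K) := by
  ext y
  constructor
  · intro hy v
    rcases eq_or_ne v 0 with rfl | hv
    · rw [inner_zero_right]
      exact beta_nonneg hK hc 0
    · have hn : ‖v‖ ≠ 0 := norm_ne_zero_iff.mpr hv
      have hu : ‖(‖v‖⁻¹ • v)‖ = 1 := by
        rw [norm_smul, norm_inv, norm_norm, inv_mul_cancel₀ hn]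
      have h1 := hy _ hu
      rw [← beta_unit hK hc hu, beta_smul hK hc, real_inner_smul_right, abs_inv, abs_norm] at h1
      exact le_of_mul_le_mul_left h1 (inv_pos.mpr (norm_pos_iff.mpr hv))
  · intro hy u hu
    rw [← beta_unit hK hc hu]
    exact hy u

theorem beta_hs {K : Set V} (hK : IsCompact K) (hc : Convex ℝ K) (t : ℝ) (v : V) (ht : 0 ≤ t) :
    beta K (t • v) = t * beta K v := by
  rw [beta_smul hK hc, abs_of_nonneg ht]

theorem beta_sum_le {K : Set V} (hK : IsCompact K) (hc : Convex ℝ K) {ι : Type*} (s : Finset ι)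
    (v : ι → V) : beta K (∑ i ∈ s, v i) ≤ ∑ i ∈ s, beta K (v i) := by
  classical
  induction s using Finset.induction_on with
  | empty => simp [beta_zero K]
  | insert a s ha ih =>
    rw [Finset.sum_insert ha, Finset.sum_insert ha]
    exact (beta_add_le hK hc _ _).trans (by (clear hK hc ha; linarith))

theorem exists_beta_le {K : Set V} (hK : IsCompact K) (hc : Convex ℝ K) :
    ∃ C : ℝ, 0 ≤ C ∧ ∀ v, beta K v ≤ C * ‖v‖ := by
  set b := stdOrthonormalBasis ℝ V
  refine ⟨∑ i, beta K (b i), Finset.sum_nonneg fun i _ => beta_nonneg hK hc _, fun v => ?_⟩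
  calc beta K v = beta K (∑ i, inner ℝ (b i) v • b i) := by rw [b.sum_repr' v]
    _ ≤ ∑ i, beta K (inner ℝ (b i) v • b i) := beta_sum_le hK hc _ _
    _ = ∑ i, |inner ℝ (b i) v| * beta K (b i) := by simp only [beta_smul hK hc]
    _ ≤ ∑ i, ‖v‖ * beta K (b i) := by
      refine Finset.sum_le_sum fun i _ => mul_le_mul_of_nonneg_right ?_ (beta_nonneg hK hc _)
      have := abs_real_inner_le_norm (b i) v
      rwa [b.norm_eq_one, one_mul] at this
    _ = (∑ i, beta K (b i)) * ‖v‖ := by rw [← Finset.mul_sum, mul_comm]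

theorem beta_continuous {K : Set V} (hK : IsCompact K) (hc : Convex ℝ K) :
    Continuous (beta K) := by
  obtain ⟨C, hC, hCb⟩ := exists_beta_le hK hc
  have h1 : ∀ v w, beta K v - beta K w ≤ C * dist v w := by
    intro v w
    have h2 := beta_add_le hK hc w (v - w)
    rw [add_sub_cancel] at h2
    have h3 := hCb (v - w)
    rw [dist_eq_norm]
    linarith
  refine (LipschitzWith.of_dist_le_mul (K := C.toNNReal) fun v w => ?_).continuous
  rw [Real.coe_toNNReal _ hC, Real.dist_eq, abs_le]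
  constructor
  · have := h1 w v
    rw [dist_comm] at this
    linarith
  · exact h1 v w

theorem exists_le_beta {K : Set V} (hK : IsBody K) :
    ∃ c : ℝ, 0 < c ∧ ∀ v, c * ‖v‖ ≤ beta K v := by
  have hcpt : IsCompact (sphere (0 : V) 1) := isCompact_sphere 0 1
  rcases (sphere (0 : V) 1).eq_empty_or_nonempty with he | hne
  · refine ⟨1, one_pos, fun v => ?_⟩
    have hv : v = 0 := by
      by_contra hv
      have hn : ‖v‖ ≠ 0 := norm_ne_zero_iff.mpr hv
      have : ‖v‖⁻¹ • v ∈ sphere (0 : V) 1 := by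
        rw [mem_sphere_zero_iff_norm, norm_smul, norm_inv, norm_norm, inv_mul_cancel₀ hn]
      rw [he] at this
      exact this
    subst hv
    simp [beta_zero K]
  · obtain ⟨u, hu, humin⟩ := hcpt.exists_isMinOn hne
      (beta_continuous hK.compact hK.convex).continuousOn
    have hu0 : u ≠ 0 := by
      rintro rfl
      simp only [mem_sphere_iff_norm, sub_self, norm_zero, zero_ne_one] at hu
    refine ⟨beta K u, beta_pos hK hu0, fun v => ?_⟩
    rcases eq_or_ne v 0 with rfl | hv
    · simp [beta_zero K]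
    · have hn : ‖v‖ ≠ 0 := norm_ne_zero_iff.mpr hv
      have hmem : ‖v‖⁻¹ • v ∈ sphere (0 : V) 1 := by
        rw [mem_sphere_zero_iff_norm, norm_smul, norm_inv, norm_norm, inv_mul_cancel₀ hn]
      have h1 : beta K u ≤ beta K (‖v‖⁻¹ • v) := humin hmem
      rw [beta_smul hK.compact hK.convex, abs_inv, abs_norm] at h1
      calc beta K u * ‖v‖ ≤ ‖v‖⁻¹ * beta K v * ‖v‖ :=
            mul_le_mul_of_nonneg_right h1 (norm_nonneg v)
        _ = beta K v := by (clear hK hcpt hne u hu humin hu0 hmem h1; field_simp)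

theorem projBody_convex (K : Set V) : Convex ℝ (projBody K) := by
  intro x hx y hy a b ha hb hab u hu
  have h1 := hx u hu
  have h2 := hy u hu
  rw [inner_add_left, real_inner_smul_left, real_inner_smul_left]
  calc a * inner ℝ x u + b * inner ℝ y u ≤ a * shadow K u + b * shadow K u :=
        add_le_add (mul_le_mul_of_nonneg_left h1 ha) (mul_le_mul_of_nonneg_left h2 hb)
    _ = shadow K u := by rw [← add_mul, hab, one_mul]

theorem projBody_isClosed (K : Set V) : IsClosed (projBody K) := by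
  have : projBody K = ⋂ (u : V) (_ : ‖u‖ = 1), {y | inner ℝ y u ≤ shadow K u} := by
    ext y
    simp only [projBody, mem_ofPred_eq, mem_iInter]
  rw [this]
  exact isClosed_iInter fun u => isClosed_iInter fun _ =>
    isClosed_le (continuous_id.inner continuous_const) continuous_const

theorem projBody_isSymBody {K : Set V} (hK : IsBody K) : IsSymBody (projBody K) := by
  have hw := projBody_eq_wulff hK.compact hK.convex
  refine ⟨⟨projBody_convex K, ?_, ?_⟩, ?_⟩
  · obtain ⟨C, hC, hCb⟩ := exists_beta_le hK.compact hK.convex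
    refine (isCompact_closedBall (0 : V) C).of_isClosed_subset (projBody_isClosed K) ?_
    intro y hy
    rw [hw] at hy
    rw [mem_closedBall_zero_iff]
    have h1 := hy y
    rw [real_inner_self_eq_norm_sq] at h1
    have h2 := h1.trans (hCb y)
    rcases (norm_nonneg y).eq_or_lt with h0 | h0
    · rw [← h0]; exact hC
    · rw [sq] at h2
      exact le_of_mul_le_mul_right h2 h0
  · obtain ⟨c, hc, hcb⟩ := exists_le_beta hK
    refine ⟨0, mem_interior.mpr ⟨ball 0 c, ?_, isOpen_ball, mem_ball_self hc⟩⟩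
    intro y hy
    rw [hw]
    intro v
    rw [mem_ball_zero_iff] at hy
    calc inner ℝ y v ≤ ‖y‖ * ‖v‖ := real_inner_le_norm y v
      _ ≤ c * ‖v‖ := mul_le_mul_of_nonneg_right hy.le (norm_nonneg v)
      _ ≤ beta K v := hcb v
  · intro y hy
    rw [hw] at hy ⊢
    intro v
    have h1 := hy (-v)
    rw [beta_neg K, inner_neg_right] at h1
    rwa [inner_neg_left]

theorem supp_projBody {K : Set V} (hK : IsBody K) (v : V) : supp (projBody K) v = beta K v := by
  rw [projBody_eq_wulff hK.compact hK.convex]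
  exact wulff_supp (beta_hs hK.compact hK.convex) (beta_add_le hK.compact hK.convex) v

omit [MeasurableSpace V] [BorelSpace V] in
theorem det_adjoint_real (T : V →ₗ[ℝ] V) :
    LinearMap.det (LinearMap.adjoint T) = LinearMap.det T := by
  have b := stdOrthonormalBasis ℝ V
  rw [← LinearMap.det_toMatrix b.toBasis, ← LinearMap.det_toMatrix b.toBasis,
    LinearMap.toMatrix_adjoint, Matrix.det_conjTranspose]
  simp

omit [MeasurableSpace V] in
theorem IsBody.image (T : V ≃ₗ[ℝ] V) {K : Set V} (hK : IsBody K) : IsBody (T '' K) := by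
  have hcont : Continuous T := LinearMap.continuous_of_finiteDimensional (T : V →ₗ[ℝ] V)
  refine ⟨hK.convex.linear_image (T : V →ₗ[ℝ] V), hK.compact.image hcont, ?_⟩
  obtain ⟨x, hx⟩ := hK.int
  refine ⟨T x, ?_⟩
  have := (T.toContinuousLinearEquiv.toHomeomorph).image_interior K
  have h2 : T '' interior K = interior (T '' K) := this
  rw [← h2]
  exact ⟨x, hx, rfl⟩

theorem vol_projBody_image (T : V ≃ₗ[ℝ] V) {K : Set V} (hK : IsBody K) :
    vol (projBody (T '' K)) = |LinearMap.det (T : V →ₗ[ℝ] V)| ^ (finrank ℝ V - 1) *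
      vol (projBody K) := by
  set D : ℝ := |LinearMap.det (T : V →ₗ[ℝ] V)| with hD
  have hdet : LinearMap.det (T : V →ₗ[ℝ] V) ≠ 0 := (LinearEquiv.isUnit_det' T).ne_zero
  have hDpos : 0 < D := abs_pos.mpr hdet
  have hKT := hK.image T
  set A : V →ₗ[ℝ] V := LinearMap.adjoint (T : V →ₗ[ℝ] V) with hA
  have hAdet : LinearMap.det A = LinearMap.det (T : V →ₗ[ℝ] V) := det_adjoint_real _
  have hset : projBody (T '' K) = A ⁻¹' (D • projBody K) := by
    rw [projBody_eq_wulff hKT.compact hKT.convex, projBody_eq_wulff hK.compact hK.convex]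
    ext y
    rw [mem_preimage, mem_smul_set_iff_inv_smul_mem₀ hDpos.ne']
    constructor
    · intro hy v
      have h1 := hy (T v)
      rw [beta_image] at h1
      rw [real_inner_smul_left, hA, LinearMap.adjoint_inner_left]
      rw [inv_mul_le_iff₀ hDpos]
      exact h1
    · intro hy v
      have h1 := hy (T.symm v)
      rw [real_inner_smul_left, hA, LinearMap.adjoint_inner_left, inv_mul_le_iff₀ hDpos] at h1
      have h2 := beta_image T K (T.symm v)
      rw [T.apply_symm_apply] at h2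
      rw [h2]
      simpa only [ge_iff_le, LinearEquiv.coe_coe, LinearEquiv.apply_symm_apply] using h1
  unfold vol
  rw [hset, Measure.addHaar_preimage_linearMap volume (by rw [hAdet]; exact hdet),
    Measure.addHaar_smul, hAdet, abs_inv, ← hD, ENNReal.toReal_mul, ENNReal.toReal_mul,
    ENNReal.toReal_ofReal (inv_nonneg.mpr hDpos.le), ENNReal.toReal_ofReal (abs_nonneg _),
    abs_of_nonneg (pow_nonneg hDpos.le _), ← mul_assoc]
  congr 1
  rcases Nat.eq_zero_or_pos (finrank ℝ V) with h0 | h0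
  · have h1 : LinearMap.det (T : V →ₗ[ℝ] V) = 1 := by
      have := LinearMap.det_eq_one_of_finrank_eq_zero h0 (T : V →ₗ[ℝ] V)
      exact this
    rw [h0, hD, h1]
    simp only [abs_one, inv_one, pow_zero, mul_one, zero_tsub]
  · obtain ⟨n, hn⟩ : ∃ n, finrank ℝ V = n + 1 := ⟨finrank ℝ V - 1, by omega⟩
    rw [hn]
    field_simp
    simp only [Nat.add_sub_cancel, pow_succ]
    ring

end Vale.Agent.P237
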