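import Vale.Agent.P237.Exist0
import Vale.Agent.P237.Pi

open MeasureTheory Metric Set Module
open scoped Pointwise

namespace Vale.Agent.P237

variable {V : Type*} [NormedAddCommGroup V] [InnerProductSpace ℝ V] [FiniteDimensional ℝ V]
  [MeasurableSpace V] [BorelSpace V]

set_option linter.unusedVariables false in
/-- The normalized volume of the projection body attains its minimum on the symmetric bodies
between two balls. -/
theorem exists_minimizer (hd : 0 < finrank ℝ V) (ρ : ℝ) (hρ : 1 ≤ ρ) : ∃ K₀ : Set V, IsSymBody K₀ ∧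
    closedBall (0 : V) 1 ⊆ K₀ ∧ K₀ ⊆ closedBall (0 : V) ρ ∧
    ∀ K : Set V, IsSymBody K → closedBall (0 : V) 1 ⊆ K → K ⊆ closedBall (0 : V) ρ →
      vol (projBody K₀) / vol K₀ ^ (finrank ℝ V - 1) ≤
        vol (projBody K) / vol K ^ (finrank ℝ V - 1) :=
  exists_minimizer_of_compact (fun _ hL => (projBody_isSymBody hL.toIsBody).compact) ρ hρ

end Vale.Agent.P237
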