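import Vale.Agent.P237.Defs

/-!
Measure-preserving decomposition `ℝ × u^⊥ ≃ V`, `(y, z) ↦ z + y u`, for a unit vector `u`.
-/

open MeasureTheory Metric Set Module
open scoped Pointwise

namespace Vale.Agent.P237

variable {V : Type*} [NormedAddCommGroup V] [InnerProductSpace ℝ V] [FiniteDimensional ℝ V]
  [MeasurableSpace V] [BorelSpace V]

/-- the equivalence `ℝ × u^⊥ ≃ V`, `(y, z) ↦ z + y u` -/
noncomputable def prodEquiv (u : V) (hu : ‖u‖ = 1) : (ℝ × ((ℝ ∙ u)ᗮ : Submodule ℝ V)) ≃ᵐ V :=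
  ((MeasurableEquiv.prodCongr
      (LinearIsometryEquiv.toSpanUnitSingleton (𝕜 := ℝ) u hu).toHomeomorph.toMeasurableEquiv
      (MeasurableEquiv.refl _)).trans (MeasurableEquiv.toLp 2 _)).trans
    (ℝ ∙ u).orthogonalDecomposition.symm.toHomeomorph.toMeasurableEquiv

theorem prodEquiv_apply (u : V) (hu : ‖u‖ = 1) (p : ℝ × ((ℝ ∙ u)ᗮ : Submodule ℝ V)) :
    prodEquiv u hu p = (p.2 : V) + p.1 • u := by
  have h : prodEquiv u hu p =
    ((LinearIsometryEquiv.toSpanUnitSingleton (𝕜 := ℝ) u hu p.1 : (ℝ ∙ u)) : V) + (p.2 : V) := by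
    show (ℝ ∙ u).orthogonalDecomposition.symm (WithLp.toLp 2
      (LinearIsometryEquiv.toSpanUnitSingleton (𝕜 := ℝ) u hu p.1, p.2)) = _
    rw [Submodule.orthogonalDecomposition_symm_apply]
    rfl
  rw [h, add_comm]
  rfl

theorem prodEquiv_measurePreserving (u : V) (hu : ‖u‖ = 1) :
    MeasurePreserving (prodEquiv u hu) := by
  refine MeasurePreserving.trans (MeasurePreserving.trans ?_
    (WithLp.volume_preserving_toLp (ℝ ∙ u) ((ℝ ∙ u)ᗮ : Submodule ℝ V))) ?_
  · exact MeasurePreserving.prod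
      (LinearIsometryEquiv.toSpanUnitSingleton (𝕜 := ℝ) u hu).measurePreserving
      (MeasurePreserving.id volume)
  · exact (ℝ ∙ u).orthogonalDecomposition.symm.measurePreserving

/-- Fubini: the volume is the integral over `z ∈ u^⊥` of the lengths of the fibres. -/
theorem volume_eq_lintegral_fibre (u : V) (hu : ‖u‖ = 1) {s : Set V} (hs : MeasurableSet s) :
    volume s = ∫⁻ z : ((ℝ ∙ u)ᗮ : Submodule ℝ V), volume {y : ℝ | (z : V) + y • u ∈ s} := by
  rw [← (prodEquiv_measurePreserving u hu).measure_preimage hs.nullMeasurableSet,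
    Measure.volume_eq_prod, Measure.prod_apply_symm ((prodEquiv u hu).measurable hs)]
  refine lintegral_congr fun z => ?_
  congr 1
  ext y
  simp only [mem_preimage, prodEquiv_apply, mem_ofPred_eq]

/-- Fubini: the volume is the integral over `y ∈ ℝ` of the volumes of the slices. -/
theorem volume_eq_lintegral_slice (u : V) (hu : ‖u‖ = 1) {s : Set V} (hs : MeasurableSet s) :
    volume s = ∫⁻ y : ℝ, volume (slice s u y) := by
  rw [← (prodEquiv_measurePreserving u hu).measure_preimage hs.nullMeasurableSet,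
    Measure.volume_eq_prod, Measure.prod_apply ((prodEquiv u hu).measurable hs)]
  refine lintegral_congr fun y => ?_
  congr 1
  ext z
  simp only [mem_preimage, prodEquiv_apply, slice, mem_ofPred_eq]

/-- Fubini for integrals. -/
theorem integral_eq_integral_prod (u : V) (hu : ‖u‖ = 1) (f : V → ℝ) :
    ∫ x, f x = ∫ p : ℝ × ((ℝ ∙ u)ᗮ : Submodule ℝ V), f ((p.2 : V) + p.1 • u) := by
  rw [← (prodEquiv_measurePreserving u hu).integral_comp' f]
  refine integral_congr_ae (Filter.Eventually.of_forall fun p => ?_)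
  simp only [prodEquiv_apply]

omit [FiniteDimensional ℝ V] [MeasurableSpace V] [BorelSpace V] in
theorem inner_prod_point {u : V} (hu : ‖u‖ = 1) (z : ((ℝ ∙ u)ᗮ : Submodule ℝ V)) (y : ℝ) :
    inner ℝ ((z : V) + y • u) u = y := by
  have h1 : inner ℝ (z : V) u = 0 := by
    rw [real_inner_comm]
    exact Submodule.mem_orthogonal_singleton_iff_inner_right.mp z.2
  rw [inner_add_left, h1, inner_smul_left, real_inner_self_eq_norm_sq, hu]
  simp

omit [FiniteDimensional ℝ V] [MeasurableSpace V] [BorelSpace V] in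
theorem proj_prod_point {u : V} (z : ((ℝ ∙ u)ᗮ : Submodule ℝ V)) (y : ℝ) :
    (ℝ ∙ u)ᗮ.orthogonalProjectionOnto ((z : V) + y • u) = z := by
  rw [map_add, Submodule.orthogonalProjectionOnto_mem_subspace_eq_self, map_smul]
  have : (ℝ ∙ u)ᗮ.orthogonalProjectionOnto u = 0 := by
    rw [Submodule.orthogonalProjectionOnto_eq_zero_iff, Submodule.orthogonal_orthogonal]
    exact Submodule.mem_span_singleton_self u
  rw [this, smul_zero, add_zero]

/-- every point is of the form `z + y u` -/
theorem eq_prod_point {u : V} (hu : ‖u‖ = 1) (x : V) :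
    x = (((ℝ ∙ u)ᗮ.orthogonalProjectionOnto x : ((ℝ ∙ u)ᗮ : Submodule ℝ V)) : V)
      + (inner ℝ x u) • u := by
  obtain ⟨p, rfl⟩ := (prodEquiv u hu).surjective x
  rw [prodEquiv_apply, proj_prod_point, inner_prod_point hu]

end Vale.Agent.P237
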