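import Vale.Agent.P237.Defs

/-!
# P237: John position
-/

open MeasureTheory Metric Set Module
open scoped Pointwise

namespace Vale.Agent.P237

section basic

variable {V : Type*} [NormedAddCommGroup V] [InnerProductSpace ℝ V]

theorem IsSymBody.zero_mem_interior {K : Set V} (hK : IsSymBody K) : (0 : V) ∈ interior K := by
  obtain ⟨x, hx⟩ := hK.int
  have hneg : -x ∈ interior K := by
    have h1 : -K = K := by
      ext y
      constructor
      · intro hy
        have := hK.symm _ (Set.mem_neg.1 hy)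
        simpa using this
      · intro hy
        exact Set.mem_neg.2 (hK.symm _ hy)
    have h2 : -(interior K) = interior K := by
      have h3 : interior (-K) = -(interior K) := by
        have := (Homeomorph.neg V).preimage_interior K
        simpa [Set.image_neg_eq_neg] using this.symm
      rw [← h3, h1]
    rw [← h2]
    simpa using hx
  have := hK.convex.interior.midpoint_mem hx hneg
  simpa using this

theorem IsSymBody.exists_closedBall {K : Set V} (hK : IsSymBody K) :
    ∃ r : ℝ, 0 < r ∧ closedBall (0 : V) r ⊆ K := by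
  obtain ⟨r, hr, h⟩ := Metric.mem_nhds_iff.1 (mem_interior_iff_mem_nhds.1 hK.zero_mem_interior)
  exact ⟨r / 2, by positivity, (closedBall_subset_ball (by linarith only [hr])).trans h⟩

/-- A symmetric convex body is balanced. -/
theorem IsSymBody.smul_mem {K : Set V} (hK : IsSymBody K) {x : V} (hx : x ∈ K) {t : ℝ}
    (ht : |t| ≤ 1) : t • x ∈ K := by
  have h := abs_le.1 ht
  have h1 : t • x = ((1 + t) / 2) • x + ((1 - t) / 2) • (-x) := by
    rw [smul_neg, ← sub_eq_add_neg, ← sub_smul]
    congr 1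
    ring
  rw [h1]
  exact hK.convex hx (hK.symm x hx) (by linarith only [h]) (by linarith only [h]) (by ring)

end basic

variable {V : Type*} [NormedAddCommGroup V] [InnerProductSpace ℝ V] [FiniteDimensional ℝ V]
  [MeasurableSpace V] [BorelSpace V]

theorem exists_johnPos {K : Set V} (hK : IsSymBody K) :
    ∃ T : V ≃ₗ[ℝ] V, JohnPos (T '' K) := by
  obtain ⟨r, hr, hrK⟩ := hK.exists_closedBall
  obtain ⟨R, hR⟩ := hK.compact.isBounded.subset_closedBall (0 : V)
  let A : Set (V →L[ℝ] V) := {S | ∀ x ∈ closedBall (0 : V) 1, S x ∈ K}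
  have hAc : IsClosed A := by
    have : A = ⋂ x ∈ closedBall (0 : V) 1, {S : V →L[ℝ] V | S x ∈ K} := by
      ext S; simp only [mem_closedBall, dist_zero_right, mem_ofPred_eq, mem_iInter, A]
    rw [this]
    refine isClosed_biInter fun x _ => ?_
    exact hK.compact.isClosed.preimage (ContinuousLinearMap.apply ℝ V x).continuous
  have hAb : Bornology.IsBounded A := by
    refine (Metric.isBounded_iff_subset_closedBall (0 : V →L[ℝ] V)).2 ⟨max R 0, fun S hS => ?_⟩
    rw [mem_closedBall_zero_iff]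
    refine ContinuousLinearMap.opNorm_le_of_unit_norm (le_max_right _ _) fun x hx => ?_
    have := hR (hS x (by rw [mem_closedBall_zero_iff, hx]))
    rw [mem_closedBall_zero_iff] at this
    exact this.trans (le_max_left _ _)
  have hAcomp : IsCompact A := Metric.isCompact_of_isClosed_isBounded hAc hAb
  have hS0 : r • ContinuousLinearMap.id ℝ V ∈ A := by
    intro x hx
    apply hrK
    rw [mem_closedBall_zero_iff] at hx ⊢
    show ‖r • x‖ ≤ r
    rw [norm_smul, Real.norm_eq_abs, abs_of_pos hr]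
    exact (mul_le_mul_of_nonneg_left hx hr.le).trans (by linarith)
  obtain ⟨S, hSA, hSmax⟩ := hAcomp.exists_isMaxOn ⟨_, hS0⟩
    (f := fun S : V →L[ℝ] V => |S.det|) ContinuousLinearMap.continuous_det.abs.continuousOn
  have hdet : 0 < |S.det| := by
    refine lt_of_lt_of_le ?_ (hSmax hS0)
    have h1 : (r • ContinuousLinearMap.id ℝ V).det = r ^ finrank ℝ V := by
      show LinearMap.det ((r • ContinuousLinearMap.id ℝ V : V →L[ℝ] V) : V →ₗ[ℝ] V) = _
      have : ((r • ContinuousLinearMap.id ℝ V : V →L[ℝ] V) : V →ₗ[ℝ] V) =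
        r • (LinearMap.id : V →ₗ[ℝ] V) := rfl
      rw [this, LinearMap.det_smul, LinearMap.det_id, mul_one]
    show 0 < |(r • ContinuousLinearMap.id ℝ V).det|
    rw [h1]
    positivity
  have hne : LinearMap.det (S : V →ₗ[ℝ] V) ≠ 0 := fun h => by
    have : S.det = 0 := h
    rw [this] at hdet
    simp at hdet
  let E : V ≃ₗ[ℝ] V := LinearEquiv.ofIsUnitDet (v := finBasis ℝ V) (v' := finBasis ℝ V)
    (f := (S : V →ₗ[ℝ] V)) (by
      rw [← LinearMap.det_toMatrix (finBasis ℝ V)] at hne
      exact isUnit_iff_ne_zero.2 hne)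
  have hE : ∀ x, E x = S x := fun x => rfl
  refine ⟨E.symm, ?_, ?_⟩
  · intro x hx
    exact ⟨S x, hSA x hx, by rw [← hE, E.symm_apply_apply]⟩
  · intro T hT
    have hmem : S.comp (LinearMap.toContinuousLinearMap T) ∈ A := by
      intro x hx
      obtain ⟨y, hy, hyx⟩ := hT ⟨x, hx, rfl⟩
      have : S (T x) = y := by
        rw [← hE, ← hyx, E.apply_symm_apply]
      show S (T x) ∈ K
      rw [this]
      exact hy
    have h2 := hSmax hmem
    have h3 : (S.comp (LinearMap.toContinuousLinearMap T)).det =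
        S.det * LinearMap.det T := by
      show LinearMap.det ((S : V →ₗ[ℝ] V) ∘ₗ T) = _
      rw [LinearMap.det_comp]
    have h4 : |S.det| * |LinearMap.det T| ≤ |S.det| := by
      rw [← abs_mul, ← h3]
      exact h2
    by_contra hcon
    push Not at hcon
    have := mul_lt_mul_of_pos_left hcon hdet
    linarith only [h4, this]

theorem johnPos_bounded {K : Set V} (hK : IsSymBody K) (hJ : JohnPos K) :
    K ⊆ closedBall (0 : V) (2 ^ finrank ℝ V) := by
  intro x hx
  rw [mem_closedBall_zero_iff]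
  by_contra hcon
  push Not at hcon
  have hR0 : 0 < ‖x‖ := lt_trans (by positivity) hcon
  set R := ‖x‖ with hR
  set e : V := R⁻¹ • x with he
  have hen : ‖e‖ = 1 := by
    rw [he, norm_smul, norm_inv, Real.norm_eq_abs, abs_of_pos hR0, ← hR]
    (clear * - hR0; field_simp)
  have hxe : x = R • e := by rw [he, smul_smul, mul_inv_cancel₀ hR0.ne', one_smul]
  let f : Dual ℝ V := (innerₛₗ ℝ e : V →ₗ[ℝ] ℝ)
  have hf : ∀ ξ, f ξ = inner ℝ e ξ := fun ξ => rfl
  let T : V →ₗ[ℝ] V := (2⁻¹ : ℝ) • LinearMap.transvection f ((R - 1) • e)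
  have hTx : ∀ ξ, T ξ = (2⁻¹ : ℝ) • (ξ - inner ℝ e ξ • e) + (2⁻¹ : ℝ) • (inner ℝ e ξ • x) := by
    intro ξ
    show (2⁻¹ : ℝ) • (ξ + f ξ • ((R - 1) • e)) = _
    rw [hf, ← smul_add, hxe, sub_smul]
    congr 1
    simp only [smul_sub, smul_smul, one_smul]
    abel
  have hTK : T '' closedBall (0 : V) 1 ⊆ K := by
    rintro _ ⟨ξ, hξ, rfl⟩
    rw [mem_closedBall_zero_iff] at hξ
    rw [hTx]
    refine hK.convex ?_ ?_ (by norm_num) (by norm_num) (by norm_num)
    · apply hJ.1
      rw [mem_closedBall_zero_iff]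
      have h1 : ‖ξ - inner ℝ e ξ • e‖ ^ 2 = ‖ξ‖ ^ 2 - (inner ℝ e ξ) ^ 2 := by
        rw [norm_sub_sq_real, inner_smul_right, norm_smul, hen, real_inner_comm,
          Real.norm_eq_abs, mul_one, sq_abs]
        ring
      have h2 : ‖ξ - inner ℝ e ξ • e‖ ^ 2 ≤ 1 := by
        rw [h1]
        have : ‖ξ‖ ^ 2 ≤ 1 := by
          rw [sq_le_one_iff₀ (norm_nonneg _)]
          exact hξ
        nlinarith only [this]
      rwa [sq_le_one_iff₀ (norm_nonneg _)] at h2
    · apply hK.smul_mem hx
      calc |inner ℝ e ξ| ≤ ‖e‖ * ‖ξ‖ := abs_real_inner_le_norm e ξ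
        _ ≤ 1 := by rw [hen, one_mul]; exact hξ
  have h1 := hJ.2 T hTK
  have h2 : LinearMap.det T = (2⁻¹ : ℝ) ^ finrank ℝ V * R := by
    show LinearMap.det ((2⁻¹ : ℝ) • LinearMap.transvection f ((R - 1) • e)) = _
    rw [LinearMap.det_smul, LinearMap.transvection.det, map_smul, hf, real_inner_self_eq_norm_sq,
      hen]
    simp only [inv_pow, one_pow, smul_eq_mul, mul_one, add_sub_cancel]
  rw [h2, abs_of_pos (by positivity), inv_pow, inv_mul_le_iff₀ (by positivity), mul_one] at h1
  linarith only [hcon, h1]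

end Vale.Agent.P237
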