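import Vale.Agent.P237.John1

/-!
# P237: a contact point of the John ellipsoid with large variance
-/

open MeasureTheory Metric Set Module Filter Topology
open scoped Pointwise

namespace Vale.Agent.P237

variable {V : Type*} [NormedAddCommGroup V] [InnerProductSpace ℝ V] [FiniteDimensional ℝ V]
  [MeasurableSpace V] [BorelSpace V]

namespace John2

theorem integrableOn_of_continuous {E : Type*} [NormedAddCommGroup E] {K : Set V}
    (hK : IsCompact K) {f : V → E} (hf : Continuous f) : IntegrableOn f K :=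
  hf.continuousOn.integrableOn_compact hK

/-- The covariance operator. -/
noncomputable def cov {K : Set V} (hK : IsCompact K) : V →ₗ[ℝ] V where
  toFun v := ∫ x in K, (inner ℝ x v : ℝ) • x
  map_add' v w := by
    rw [← integral_add]
    · congr 1
      ext x
      rw [inner_add_right, add_smul]
    · exact integrableOn_of_continuous hK (by fun_prop)
    · exact integrableOn_of_continuous hK (by fun_prop)
  map_smul' t v := by
    rw [RingHom.id_apply, ← integral_smul]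
    congr 1
    ext x
    rw [inner_smul_right, mul_smul]

theorem inner_cov {K : Set V} (hK : IsCompact K) (v : V) :
    inner ℝ v (cov hK v) = ∫ x in K, (inner ℝ x v) ^ 2 := by
  have h := integral_inner (𝕜 := ℝ) (μ := volume.restrict K)
    (f := fun x : V => (inner ℝ x v : ℝ) • x) (integrableOn_of_continuous hK (by (clear * -; fun_prop))) v
  show inner ℝ v (∫ x in K, (inner ℝ x v : ℝ) • x) = _
  rw [← h]
  congr 1
  ext x
  rw [inner_smul_right, real_inner_comm, sq]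

/-- The traceless part of the covariance operator. -/
noncomputable def tl {K : Set V} (hK : IsCompact K) : V →ₗ[ℝ] V :=
  cov hK - ((∫ x in K, ‖x‖ ^ 2) / finrank ℝ V) • LinearMap.id

theorem inner_tl {K : Set V} (hK : IsCompact K) (v : V) :
    inner ℝ v (tl hK v) = (∫ x in K, (inner ℝ x v) ^ 2) -
      ((∫ x in K, ‖x‖ ^ 2) / finrank ℝ V) * ‖v‖ ^ 2 := by
  rw [tl, LinearMap.sub_apply, inner_sub_right, inner_cov]
  congr 1
  show inner ℝ v (((∫ x in K, ‖x‖ ^ 2) / finrank ℝ V) • v) = _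
  rw [inner_smul_right, real_inner_self_eq_norm_sq]

theorem trace_tl {K : Set V} (hK : IsCompact K) (hd : 0 < finrank ℝ V) :
    LinearMap.trace ℝ V (tl hK) = 0 := by
  let b := stdOrthonormalBasis ℝ V
  have h1 : LinearMap.trace ℝ V (tl hK) = ∑ i, inner ℝ (b i) (tl hK (b i)) :=
    LinearMap.trace_eq_sum_inner _ b
  rw [h1]
  simp only [inner_tl, b.norm_eq_one]
  rw [Finset.sum_sub_distrib, ← integral_finsetSum]
  · simp only [b.sum_sq_inner_left]
    rw [Finset.sum_const, Finset.card_univ, Fintype.card_fin, nsmul_eq_mul]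
    have : (finrank ℝ V : ℝ) ≠ 0 := by positivity
    field_simp
    ring
  · intro i _
    exact integrableOn_of_continuous hK (by fun_prop)

theorem det_expand (S : V →ₗ[ℝ] V) : ∃ C : ℝ, 0 ≤ C ∧ ∀ ε : ℝ, 0 ≤ ε → ε ≤ 1 →
    1 + LinearMap.trace ℝ V S * ε - C * ε ^ 2 ≤ LinearMap.det (LinearMap.id + ε • S) := by
  let b := finBasis ℝ V
  let M := LinearMap.toMatrix b b S
  let P : Polynomial ℝ := (Matrix.det (1 + (Polynomial.X : Polynomial ℝ) • M.map Polynomial.C)).divX.divX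
  obtain ⟨C, hC⟩ := isCompact_Icc.exists_bound_of_continuousOn (s := Icc (0 : ℝ) 1)
    (f := fun ε => P.eval ε) P.continuous.continuousOn
  refine ⟨|C|, abs_nonneg _, fun ε h0 h1 => ?_⟩
  have h2 : LinearMap.det (LinearMap.id + ε • S) = Matrix.det (1 + ε • M) := by
    rw [← LinearMap.det_toMatrix b]
    congr 1
    simp only [map_add, LinearMap.toMatrix_id_eq_basis_toMatrix, Basis.toMatrix_self, map_smul, M]
  have h3 : LinearMap.trace ℝ V S = Matrix.trace M := LinearMap.trace_eq_matrix_trace ℝ b S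
  rw [h2, h3, Matrix.det_one_add_smul]
  have h4 := hC ε ⟨h0, h1⟩
  rw [Real.norm_eq_abs] at h4
  have h5 : -|C| ≤ P.eval ε := by
    have := neg_abs_le (P.eval ε)
    have h6 := le_abs_self C
    linarith only [h4, this, h6]
  have h6 : -|C| * ε ^ 2 ≤ P.eval ε * ε ^ 2 := mul_le_mul_of_nonneg_right h5 (sq_nonneg _)
  show 1 + M.trace * ε - |C| * ε ^ 2 ≤ 1 + M.trace * ε + P.eval ε * ε ^ 2
  linarith only [h6]

theorem cov_symm {K : Set V} (hK : IsCompact K) (v w : V) :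
    inner ℝ (cov hK v) w = inner ℝ v (cov hK w) := by
  have h1 := integral_inner (𝕜 := ℝ) (μ := volume.restrict K)
    (f := fun x : V => (inner ℝ x w : ℝ) • x) (integrableOn_of_continuous hK (by fun_prop)) v
  have h2 := integral_inner (𝕜 := ℝ) (μ := volume.restrict K)
    (f := fun x : V => (inner ℝ x v : ℝ) • x) (integrableOn_of_continuous hK (by fun_prop)) w
  rw [real_inner_comm]
  show inner ℝ w (∫ x in K, (inner ℝ x v : ℝ) • x) = inner ℝ v (∫ x in K, (inner ℝ x w : ℝ) • x)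
  rw [← h1, ← h2]
  congr 1
  ext x
  rw [inner_smul_right, inner_smul_right, real_inner_comm x w, real_inner_comm x v]
  ring

theorem tl_symm {K : Set V} (hK : IsCompact K) (v w : V) :
    inner ℝ (tl hK v) w = inner ℝ v (tl hK w) := by
  rw [tl, LinearMap.sub_apply, LinearMap.sub_apply, inner_sub_left, inner_sub_right, cov_symm]
  congr 1
  show inner ℝ (((∫ x in K, ‖x‖ ^ 2) / finrank ℝ V) • v) w =
    inner ℝ v (((∫ x in K, ‖x‖ ^ 2) / finrank ℝ V) • w)
  rw [real_inner_smul_left, inner_smul_right]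

/-- The perturbed map. -/
noncomputable def pert {K : Set V} (hK : IsCompact K) (a ε : ℝ) : V →ₗ[ℝ] V :=
  (1 + a * ε) • (LinearMap.id + ε • tl hK)

theorem pert_apply {K : Set V} (hK : IsCompact K) (a ε : ℝ) (v : V) :
    pert hK a ε v = (1 + a * ε) • (v + ε • tl hK v) := rfl

theorem pert_symm {K : Set V} (hK : IsCompact K) (a ε : ℝ) (v w : V) :
    inner ℝ (pert hK a ε v) w = inner ℝ v (pert hK a ε w) := by
  rw [pert_apply, pert_apply, real_inner_smul_left, inner_smul_right, inner_add_left,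
    inner_add_right, real_inner_smul_left, inner_smul_right, tl_symm]

theorem norm_pert_sq {K : Set V} (hK : IsCompact K) (a ε : ℝ) (v : V) :
    ‖pert hK a ε v‖ ^ 2 = (1 + a * ε) ^ 2 *
      (‖v‖ ^ 2 + 2 * ε * inner ℝ v (tl hK v) + ε ^ 2 * ‖tl hK v‖ ^ 2) := by
  rw [pert_apply, norm_smul, mul_pow, Real.norm_eq_abs, sq_abs, norm_add_sq_real,
    inner_smul_right, norm_smul, mul_pow, Real.norm_eq_abs, sq_abs]
  ring

theorem det_pert {K : Set V} (hK : IsCompact K) (hd : 0 < finrank ℝ V) {a : ℝ} (ha : 0 < a) :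
    ∃ δ : ℝ, 0 < δ ∧ ∀ ε : ℝ, 0 < ε → ε < δ → 1 < LinearMap.det (pert hK a ε) := by
  obtain ⟨C, hC0, hC⟩ := det_expand (tl hK)
  rw [trace_tl hK hd] at hC
  refine ⟨min 1 (a / ((C + 1) * (1 + a) + a)), by (clear * - ha hC0; positivity), fun ε h0 h1 => ?_⟩
  have hε1 : ε < 1 := h1.trans_le (min_le_left _ _)
  have hε2 : ε < a / ((C + 1) * (1 + a) + a) := h1.trans_le (min_le_right _ _)
  rw [lt_div_iff₀ (by positivity)] at hε2
  have h2 := hC ε h0.le hε1.le
  have h3 : LinearMap.det (pert hK a ε) =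
      (1 + a * ε) ^ finrank ℝ V * LinearMap.det (LinearMap.id + ε • tl hK) := by
    rw [pert, LinearMap.det_smul]
  have h4 : 1 + a * ε ≤ (1 + a * ε) ^ finrank ℝ V := by
    calc 1 + a * ε = (1 + a * ε) ^ 1 := (pow_one _).symm
      _ ≤ (1 + a * ε) ^ finrank ℝ V :=
        pow_le_pow_right₀ (by nlinarith only [ha, h0]) hd
  have h5 : 0 < 1 - C * ε ^ 2 := by
    have : C * ε < 1 := by
      have h6 : a * (C * ε) < a * 1 := by
        nlinarith only [h0, hε2, hC0, ha]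
      exact lt_of_mul_lt_mul_left h6 ha.le
    nlinarith only [hε1, hε2, h0, ha]
  rw [h3]
  have h7 : 1 < (1 + a * ε) * (1 - C * ε ^ 2) := by
    have h8 : C * ε + a * C * ε ^ 2 < a := by
      nlinarith only [hε2, h0, ha, hε1, mul_nonneg (mul_nonneg (mul_nonneg hC0 h0.le) ha.le) h0.le]
    nlinarith only [h0, h8]
  calc 1 < (1 + a * ε) * (1 - C * ε ^ 2) := h7
    _ ≤ (1 + a * ε) ^ finrank ℝ V * (1 - C * ε ^ 2) :=
      mul_le_mul_of_nonneg_right h4 h5.le
    _ ≤ (1 + a * ε) ^ finrank ℝ V * LinearMap.det (LinearMap.id + ε • tl hK) := by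
      apply mul_le_mul_of_nonneg_left _ (by positivity)
      linarith

/-- Separation: if the image of the ball under the perturbed map is not in `K` there is a
direction in which the image sticks out. -/
theorem exists_dir {K : Set V} (hK : IsSymBody K) (hB : closedBall (0 : V) 1 ⊆ K) {a ε : ℝ}
    (h : ¬ pert hK.compact a ε '' closedBall (0 : V) 1 ⊆ K) :
    ∃ u : V, ‖u‖ = 1 ∧ (∀ x ∈ K, inner ℝ x u ≤ ‖pert hK.compact a ε u‖) ∧
      1 < ‖pert hK.compact a ε u‖ := by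
  rw [Set.not_subset] at h
  obtain ⟨_, ⟨ξ, hξ, rfl⟩, hξK⟩ := h
  obtain ⟨f, r, hf1, hf2⟩ := geometric_hahn_banach_closed_point hK.convex hK.compact.isClosed hξK
  let w : V := (InnerProductSpace.toDual ℝ V).symm f
  have hw : ∀ x, inner ℝ w x = f x := fun x => InnerProductSpace.toDual_symm_apply
  have h0 : (0 : V) ∈ K := hB (mem_closedBall_self zero_le_one)
  have hw0 : w ≠ 0 := by
    intro h
    have h1 := hf1 0 h0
    rw [← hw, h] at h1
    rw [← hw, h] at hf2
    simp only [inner_zero_left] at h1 hf2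
    linarith only [h1, hf2]
  have hwn : 0 < ‖w‖ := norm_pos_iff.2 hw0
  have hun : ‖‖w‖⁻¹ • w‖ = 1 := by
    rw [norm_smul, norm_inv, norm_norm, inv_mul_cancel₀ hwn.ne']
  have key : ∀ x ∈ K, inner ℝ x (‖w‖⁻¹ • w) < ‖pert hK.compact a ε (‖w‖⁻¹ • w)‖ := by
    intro x hx
    calc inner ℝ x (‖w‖⁻¹ • w) = ‖w‖⁻¹ * f x := by
          rw [inner_smul_right, real_inner_comm, hw]
      _ < ‖w‖⁻¹ * f (pert hK.compact a ε ξ) :=
        mul_lt_mul_of_pos_left ((hf1 x hx).trans hf2) (by positivity)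
      _ = inner ℝ (pert hK.compact a ε ξ) (‖w‖⁻¹ • w) := by
          rw [inner_smul_right, real_inner_comm, hw]
      _ = inner ℝ ξ (pert hK.compact a ε (‖w‖⁻¹ • w)) := pert_symm _ _ _ _ _
      _ ≤ ‖ξ‖ * ‖pert hK.compact a ε (‖w‖⁻¹ • w)‖ := real_inner_le_norm _ _
      _ ≤ 1 * ‖pert hK.compact a ε (‖w‖⁻¹ • w)‖ := by
          apply mul_le_mul_of_nonneg_right _ (norm_nonneg _)
          rwa [mem_closedBall_zero_iff] at hξ
      _ = _ := one_mul _
  refine ⟨‖w‖⁻¹ • w, hun, fun x hx => (key x hx).le, ?_⟩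
  have := key (‖w‖⁻¹ • w) (hB (by rw [mem_closedBall_zero_iff, hun]))
  rwa [real_inner_self_eq_norm_sq, hun, one_pow] at this

end John2

open John2

theorem john_contact {K : Set V} (hK : IsSymBody K) (hJ : JohnPos K) (hd : 0 < finrank ℝ V) :
    ∃ u : V, ‖u‖ = 1 ∧ (∀ x ∈ K, inner ℝ x u ≤ 1) ∧
      (∫ x in K, ‖x‖ ^ 2) ≤ finrank ℝ V * ∫ x in K, (inner ℝ x u) ^ 2 := by
  by_contra hcon
  push Not at hcon
  set S := tl hK.compact with hS
  have hScont : Continuous S := S.continuous_of_finiteDimensional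
  set q : V → ℝ := fun u => inner ℝ u (S u) with hq
  have hqcont : Continuous q := by
    rw [hq]; fun_prop
  have hd' : (0 : ℝ) < finrank ℝ V := by exact_mod_cast hd
  have hneg : ∀ u : V, ‖u‖ = 1 → (∀ x ∈ K, inner ℝ x u ≤ 1) → q u < 0 := by
    intro u hu h
    have h1 := hcon u hu h
    show inner ℝ u (tl hK.compact u) < 0
    rw [inner_tl, hu, one_pow, mul_one, sub_neg, lt_div_iff₀ hd']
    (clear hK hJ hd S hS hScont q hq hqcont hd'; linarith)
  -- the contact set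
  let Cs : Set V := sphere (0 : V) 1 ∩ {u | ∀ x ∈ K, inner ℝ x u ≤ 1}
  have hCs : IsCompact Cs := by
    apply (isCompact_sphere (0 : V) 1).inter_right
    have : {u : V | ∀ x ∈ K, inner ℝ x u ≤ 1} = ⋂ x ∈ K, {u : V | inner ℝ x u ≤ 1} := by
      ext u; simp only [mem_ofPred_eq, mem_iInter]
    rw [this]
    exact isClosed_biInter fun x _ => isClosed_le (by fun_prop) continuous_const
  obtain ⟨c, hc0, hc⟩ : ∃ c : ℝ, 0 < c ∧ ∀ u ∈ Cs, q u ≤ -c := by
    rcases Cs.eq_empty_or_nonempty with he | hne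
    · exact ⟨1, one_pos, fun u hu => by rw [he] at hu; exact absurd hu (Set.notMem_empty _)⟩
    · obtain ⟨u0, hu0, hmax⟩ := hCs.exists_isMaxOn hne hqcont.continuousOn
      refine ⟨-q u0, ?_, fun u hu => ?_⟩
      · have := hneg u0 (by simpa using hu0.1) hu0.2
        linarith only [this]
      · have := hmax hu
        simpa using this
  set a := c / 2 with ha
  have ha0 : 0 < a := by positivity
  obtain ⟨δ, hδ0, hδ⟩ := det_pert hK.compact hd ha0
  obtain ⟨N, hN⟩ := exists_nat_one_div_lt hδ0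
  set ε : ℕ → ℝ := fun n => 1 / ((n : ℝ) + N + 1) with hε
  have hε0 : ∀ n, 0 < ε n := fun n => by (clear * -; positivity)
  have hεδ : ∀ n, ε n < δ := by
    intro n
    refine lt_of_le_of_lt ?_ hN
    apply one_div_le_one_div_of_le (by positivity)
    have : (0 : ℝ) ≤ n := by positivity
    linarith only []
  have hεlim : Tendsto ε atTop (𝓝 0) := by
    have h1 : Tendsto (fun n : ℕ => 1 / (((n + N : ℕ) : ℝ) + 1)) atTop (𝓝 0) :=
      (tendsto_one_div_add_atTop_nhds_zero_nat).comp (tendsto_add_atTop_nat N)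
    refine h1.congr fun n => ?_
    rw [hε]
    push_cast
    rfl
  have hex : ∀ n, ∃ u : V, ‖u‖ = 1 ∧ (∀ x ∈ K, inner ℝ x u ≤ ‖pert hK.compact a (ε n) u‖) ∧
      1 < ‖pert hK.compact a (ε n) u‖ := by
    intro n
    apply exists_dir hK hJ.1
    intro h
    have h1 := hJ.2 _ h
    have h2 := hδ (ε n) (hε0 n) (hεδ n)
    have := le_abs_self (LinearMap.det (pert hK.compact a (ε n)))
    (clear hd hcon S hS hScont q hq hqcont hd' hneg Cs hCs hc0 hc ha ha0 hδ0 hε hεlim; linarith)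
  choose u hu1 hu2 hu3 using hex
  obtain ⟨v, hv, φ, hφ, hlim⟩ := (isCompact_sphere (0 : V) 1).tendsto_subseq
    (x := u) (fun n => by simpa using hu1 n)
  have hv1 : ‖v‖ = 1 := by simpa using hv
  have hεφ : Tendsto (fun n => ε (φ n)) atTop (𝓝 0) := hεlim.comp hφ.tendsto_atTop
  have hSlim : Tendsto (fun n => S (u (φ n))) atTop (𝓝 (S v)) :=
    (hScont.tendsto v).comp hlim
  have hqlim : Tendsto (fun n => q (u (φ n))) atTop (𝓝 (q v)) :=
    (hqcont.tendsto v).comp hlim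
  have hT : Tendsto (fun n => pert hK.compact a (ε (φ n)) (u (φ n))) atTop (𝓝 v) := by
    have h1 : Tendsto (fun n => (1 + a * ε (φ n)) • (u (φ n) + ε (φ n) • S (u (φ n)))) atTop
        (𝓝 ((1 + a * 0) • (v + (0 : ℝ) • S v))) :=
      (tendsto_const_nhds.add (tendsto_const_nhds.mul hεφ)).smul (hlim.add (hεφ.smul hSlim))
    have h2 : (1 + a * 0) • (v + (0 : ℝ) • S v) = v := by simp
    rw [h2] at h1
    exact h1
  have hvC : v ∈ Cs := by
    refine ⟨hv, fun x hx => ?_⟩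
    have h1 : Tendsto (fun n => inner ℝ x (u (φ n))) atTop (𝓝 (inner ℝ x v)) :=
      ((continuous_const.inner continuous_id).tendsto v).comp hlim
    have h2 := le_of_tendsto_of_tendsto' h1 hT.norm (fun n => hu2 (φ n) x hx)
    rwa [hv1] at h2
  have h1 := hc v hvC
  have h2 : ∀ n, 0 ≤ (2 * a + a ^ 2 * ε (φ n)) *
      (1 + 2 * ε (φ n) * q (u (φ n)) + ε (φ n) ^ 2 * ‖S (u (φ n))‖ ^ 2) +
      2 * q (u (φ n)) + ε (φ n) * ‖S (u (φ n))‖ ^ 2 := by
    intro n
    have h3 := hu3 (φ n)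
    have h4 : 1 < ‖pert hK.compact a (ε (φ n)) (u (φ n))‖ ^ 2 := by (clear hJ hd hcon S hS hScont q hq hqcont hd' hneg Cs hCs hc0 hc ha ha0 δ hδ0 hδ hN hε hε0 hεδ hεlim hu1 hu2 v hv hφ hlim hv1 hεφ hSlim hqlim hT hvC h1; nlinarith)
    rw [norm_pert_sq, hu1] at h4
    have h5 := hε0 (φ n)
    have h6 : 0 < ε (φ n) * ((2 * a + a ^ 2 * ε (φ n)) *
      (1 + 2 * ε (φ n) * q (u (φ n)) + ε (φ n) ^ 2 * ‖S (u (φ n))‖ ^ 2) +
      2 * q (u (φ n)) + ε (φ n) * ‖S (u (φ n))‖ ^ 2) := by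
      have h7 : ε (φ n) * ((2 * a + a ^ 2 * ε (φ n)) *
        (1 + 2 * ε (φ n) * q (u (φ n)) + ε (φ n) ^ 2 * ‖S (u (φ n))‖ ^ 2) +
        2 * q (u (φ n)) + ε (φ n) * ‖S (u (φ n))‖ ^ 2) =
        (1 + a * ε (φ n)) ^ 2 * (1 ^ 2 + 2 * ε (φ n) * q (u (φ n)) +
          ε (φ n) ^ 2 * ‖S (u (φ n))‖ ^ 2) - 1 := by ring
      rw [h7]
      have h8 : inner ℝ (u (φ n)) (tl hK.compact (u (φ n))) = q (u (φ n)) := rfl
      rw [h8] at h4
      (clear hJ hd hcon hS hScont hq hqcont hd' hneg Cs hCs hc0 hc ha ha0 δ hδ0 hδ hN hε hε0 hεδ hεlim hu1 hu2 hu3 v hv hφ hlim hv1 hεφ hSlim hqlim hT hvC h1 h3 h5 h7 h8; linarith)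
    exact ((mul_pos_iff_of_pos_left h5).1 h6).le
  have h3 : Tendsto (fun n => (2 * a + a ^ 2 * ε (φ n)) *
      (1 + 2 * ε (φ n) * q (u (φ n)) + ε (φ n) ^ 2 * ‖S (u (φ n))‖ ^ 2) +
      2 * q (u (φ n)) + ε (φ n) * ‖S (u (φ n))‖ ^ 2) atTop
      (𝓝 ((2 * a + a ^ 2 * 0) * (1 + 2 * 0 * q v + 0 ^ 2 * ‖S v‖ ^ 2) + 2 * q v +
        0 * ‖S v‖ ^ 2)) := by
    refine (((tendsto_const_nhds.add (tendsto_const_nhds.mul hεφ)).mul
      ((tendsto_const_nhds.add ((tendsto_const_nhds.mul hεφ).mul hqlim)).add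
        ((hεφ.pow 2).mul (hSlim.norm.pow 2)))).add (tendsto_const_nhds.mul hqlim)).add
      (hεφ.mul (hSlim.norm.pow 2))
  have h4 := ge_of_tendsto' h3 h2
  have h5 : (2 * a + a ^ 2 * 0) * (1 + 2 * 0 * q v + 0 ^ 2 * ‖S v‖ ^ 2) + 2 * q v +
        0 * ‖S v‖ ^ 2 = 2 * a + 2 * q v := by ring
  rw [h5] at h4
  linarith only [ha, ha0, h1, h4]

end Vale.Agent.P237
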