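import Vale.Agent.P237.Seg

/-!
Task P237-D2: approximation of the surface area measure by finitely many vectors, by duality:
if a zonotope `Z = ∑ mᵢ [-uᵢ/2, uᵢ/2]` is contained in `N`, then `∑ mᵢ β_N(uᵢ) ≤ d vol N`.
-/

open MeasureTheory Metric Set Module
open scoped Pointwise

namespace Vale.Agent.P237


variable {V : Type*} [NormedAddCommGroup V] [InnerProductSpace ℝ V] [FiniteDimensional ℝ V]
  [MeasurableSpace V] [BorelSpace V]

namespace ZA

omit [FiniteDimensional ℝ V] [MeasurableSpace V] [BorelSpace V] in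
lemma isCompact_seg (x y : V) : IsCompact (segment ℝ x y) := by
  rw [segment_eq_image]
  exact isCompact_Icc.image (by fun_prop)

omit [FiniteDimensional ℝ V] [MeasurableSpace V] [BorelSpace V] in
lemma bddAbove_supp {N : Set V} (hN : IsCompact N) (v : V) :
    BddAbove ((fun x => inner ℝ x v) '' N) :=
  (hN.image (by fun_prop)).bddAbove

omit [FiniteDimensional ℝ V] [MeasurableSpace V] [BorelSpace V] in
lemma le_supp {N : Set V} (hN : IsCompact N) {x : V} (hx : x ∈ N) (v : V) :
    inner ℝ x v ≤ supp N v :=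
  le_csSup (bddAbove_supp hN v) ⟨x, hx, rfl⟩

omit [FiniteDimensional ℝ V] [MeasurableSpace V] [BorelSpace V] in
lemma supp_le {N : Set V} (hne : N.Nonempty) {v : V} {c : ℝ} (h : ∀ x ∈ N, inner ℝ x v ≤ c) :
    supp N v ≤ c := by
  apply csSup_le (hne.image _)
  rintro _ ⟨x, hx, rfl⟩
  exact h x hx

omit [FiniteDimensional ℝ V] [MeasurableSpace V] [BorelSpace V] in
lemma supp_smul {N : Set V} (hN : IsCompact N) (hne : N.Nonempty) {t : ℝ} (ht : 0 ≤ t) (v : V) :
    supp N (t • v) = t * supp N v := by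
  apply le_antisymm
  · refine supp_le hne fun x hx => ?_
    rw [inner_smul_right]
    exact mul_le_mul_of_nonneg_left (le_supp hN hx v) ht
  · rcases ht.eq_or_lt with rfl | ht
    · obtain ⟨x, hx⟩ := hne
      have h := le_supp hN hx ((0 : ℝ) • v)
      simpa only [zero_mul, zero_smul, ge_iff_le, inner_zero_right] using h
    · have h : supp N v ≤ t⁻¹ * supp N (t • v) := by
        refine supp_le hne fun x hx => ?_
        have h1 := le_supp hN hx (t • v)
        rw [inner_smul_right] at h1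
        rw [inv_mul_eq_div, le_div_iff₀ ht]
        linarith only [h1]
      calc t * supp N v ≤ t * (t⁻¹ * supp N (t • v)) := mul_le_mul_of_nonneg_left h ht.le
        _ = supp N (t • v) := by (clear * - ht; field_simp)

omit [MeasurableSpace V] [BorelSpace V] in
lemma mem_of_supp {N : Set V} (hN : IsCompact N) (hc : Convex ℝ N) (hne : N.Nonempty) {z : V}
    (h : ∀ v, inner ℝ z v ≤ supp N v) : z ∈ N := by
  by_contra hz
  obtain ⟨f, c, h1, h2⟩ := geometric_hahn_banach_closed_point hc hN.isClosed hz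
  set w := (InnerProductSpace.toDual ℝ V).symm f with hw
  have hf : ∀ x, f x = inner ℝ x w := fun x => by
    rw [real_inner_comm, hw, InnerProductSpace.toDual_symm_apply]
  have h3 : supp N w ≤ c := supp_le hne fun x hx => by
    rw [← hf]
    exact (h1 x hx).le
  have h4 := h w
  rw [← hf] at h4
  linarith

omit [FiniteDimensional ℝ V] [MeasurableSpace V] [BorelSpace V] in
lemma zero_mem {N : Set V} (hN : IsSymBody N) : (0 : V) ∈ N := by
  obtain ⟨x, hx⟩ := hN.int
  have hx' := interior_subset hx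
  have h := hN.convex hx' (hN.symm x hx') (show (0 : ℝ) ≤ 1 / 2 by norm_num)
    (show (0 : ℝ) ≤ 1 / 2 by norm_num) (by norm_num)
  simpa only [one_div, smul_neg, add_neg_cancel] using h

omit [FiniteDimensional ℝ V] [MeasurableSpace V] [BorelSpace V] in
lemma ball_subset {N : Set V} (hN : IsSymBody N) : ∃ ρ > 0, closedBall (0 : V) ρ ⊆ N := by
  obtain ⟨x, hx⟩ := hN.int
  obtain ⟨r, hr, hb⟩ := Metric.mem_nhds_iff.1 (mem_interior_iff_mem_nhds.1 hx)
  refine ⟨r / 2, by positivity, fun y hy => ?_⟩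
  rw [mem_closedBall_zero_iff] at hy
  have h1 : x + y ∈ N := hb (by rw [mem_ball_iff_norm]; simp; linarith only [hr, hy])
  have h2 : x - y ∈ N := hb (by rw [mem_ball_iff_norm]; simp; linarith only [hr, hy])
  have h3 := hN.convex h1 (hN.symm _ h2) (show (0 : ℝ) ≤ 1 / 2 by norm_num)
    (show (0 : ℝ) ≤ 1 / 2 by norm_num) (by norm_num)
  have h4 : (1 / 2 : ℝ) • (x + y) + (1 / 2 : ℝ) • -(x - y) = y := by
    module
  rwa [h4] at h3

omit [FiniteDimensional ℝ V] [MeasurableSpace V] [BorelSpace V] in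
lemma supp_ge {N : Set V} (hN : IsCompact N) {ρ : ℝ} (hρ : 0 < ρ)
    (hb : closedBall (0 : V) ρ ⊆ N) (v : V) : ρ * ‖v‖ ≤ supp N v := by
  rcases eq_or_ne v 0 with rfl | hv
  · have h := le_supp hN (hb (mem_closedBall_self hρ.le)) (0 : V)
    simpa only [norm_zero, mul_zero, ge_iff_le, inner_self_eq_norm_sq_to_K, Real.ringHom_apply, ne_eq,     OfNat.ofNat_ne_zero, not_false_eq_true, zero_pow] using h
  · have hv' : 0 < ‖v‖ := norm_pos_iff.2 hv
    have hx : (ρ / ‖v‖) • v ∈ N := hb (by
      rw [mem_closedBall_zero_iff, norm_smul, Real.norm_eq_abs, abs_of_pos (by (clear * - hρ hv; positivity))]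
      rw [div_mul_cancel₀ _ hv'.ne'])
    have h := le_supp hN hx v
    rw [real_inner_smul_left, real_inner_self_eq_norm_sq] at h
    calc ρ * ‖v‖ = ρ / ‖v‖ * ‖v‖ ^ 2 := by field_simp
      _ ≤ _ := h

lemma vol_pos {N : Set V} (hN : IsBody N) : 0 < vol N := by
  unfold vol
  refine ENNReal.toReal_pos ?_ hN.compact.measure_lt_top.ne
  exact (Measure.measure_pos_of_nonempty_interior _ hN.int).ne'

lemma vol_mono {A B : Set V} (hB : IsCompact B) (h : A ⊆ B) : vol A ≤ vol B :=
  ENNReal.toReal_mono hB.measure_lt_top.ne (measure_mono h)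

lemma vol_smul {A : Set V} {r : ℝ} (hr : 0 ≤ r) : vol (r • A) = r ^ finrank ℝ V * vol A := by
  unfold vol
  rw [Measure.addHaar_smul, ENNReal.toReal_mul, ENNReal.toReal_ofReal (abs_nonneg _),
    abs_of_nonneg (by positivity)]

lemma vol_translate (w : V) (A : Set V) : vol (w +ᵥ A) = vol A := by
  unfold vol
  rw [measure_vadd]

/-- The key inequality (a mixed volume inequality). -/
lemma sum_beta_le {ι : Type*} [Fintype ι] {N : Set V} (hN : IsSymBody N) (u : ι → V) (m : ι → ℝ)
    (hm : ∀ i, 0 ≤ m i) (h : ∀ v, 2⁻¹ * ∑ i, m i * |inner ℝ v (u i)| ≤ supp N v) :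
    ∑ i, m i * beta N (u i) ≤ finrank ℝ V * vol N := by
  classical
  have hcN := hN.convex
  have hkN := hN.compact
  have hneN : N.Nonempty := ⟨0, zero_mem hN⟩
  -- growth of the volume
  have key : ∀ t : ℝ, 0 < t → t * ∑ i, m i * beta N (u i) ≤
      ((1 + t) ^ finrank ℝ V - 1) * vol N := by
    intro t ht
    set F : Finset ι → Set V := fun s => N + ∑ i ∈ s, segment ℝ 0 ((t * m i) • u i) with hF
    have hFc : ∀ s, IsCompact (F s) ∧ Convex ℝ (F s) ∧ N ⊆ F s ∧
        vol N + t * ∑ i ∈ s, m i * beta N (u i) ≤ vol (F s) := by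
      intro s
      induction s using Finset.induction_on with
      | empty =>
        have h0 : F ∅ = N := by simp [hF]
        rw [h0]
        exact ⟨hkN, hcN, subset_rfl, by simp⟩
      | insert i s hi ih =>
        obtain ⟨h1, h2, h3, h4⟩ := ih
        have h5 : F (insert i s) = F s + segment ℝ 0 ((t * m i) • u i) := by
          simp only [hF]
          rw [Finset.sum_insert hi, add_assoc]
          congr 1
          exact add_comm _ _
        have h6 : beta N ((t * m i) • u i) ≤ beta (F s) ((t * m i) • u i) :=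
          beta_mono hkN hcN h1 h2 h3 _
        rw [beta_smul hkN hcN, abs_of_nonneg (mul_nonneg ht.le (hm i))] at h6
        have h7 : beta (F s) ((t * m i) • u i) = vol (F (insert i s)) - vol (F s) := by
          rw [h5]; rfl
        refine ⟨?_, ?_, ?_, ?_⟩
        · rw [h5]; exact h1.add (isCompact_seg _ _)
        · rw [h5]; exact h2.add (convex_segment _ _)
        · rw [h5]
          intro x hx
          exact ⟨x, h3 hx, 0, left_mem_segment ℝ _ _, add_zero x⟩
        · rw [Finset.sum_insert hi]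
          rw [h7] at h6
          (clear hN hm h hcN hkN hneN ht hF hi h1 h2 h3 h5 h7; nlinarith [h6, h4])
    obtain ⟨-, -, -, hlow⟩ := hFc Finset.univ
    set w : V := ∑ i, (t * m i / 2) • u i with hw
    have hsub : F Finset.univ ⊆ w +ᵥ ((1 + t) • N) := by
      rintro y ⟨x, hx, z', hz', rfl⟩
      rw [Set.mem_fintype_sum] at hz'
      obtain ⟨g, hg, rfl⟩ := hz'
      have hg' : ∀ i, ∃ s ∈ Icc (0 : ℝ) 1, g i = s • ((t * m i) • u i) := by
        intro i
        have h1 := hg i
        rw [segment_eq_image] at h1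
        obtain ⟨s, hs, h2⟩ := h1
        exact ⟨s, hs, by rw [← h2]; simp⟩
      choose s hs hgs using hg'
      set z : V := ∑ i, ((s i - 1 / 2) * m i) • u i with hz
      have hzN : z ∈ N := by
        refine mem_of_supp hkN hcN hneN fun v => le_trans ?_ (h v)
        rw [hz, sum_inner, Finset.mul_sum]
        refine Finset.sum_le_sum fun i _ => ?_
        rw [real_inner_smul_left, real_inner_comm]
        have h1 : |s i - 1 / 2| ≤ 1 / 2 := by
          rw [abs_le]
          constructor <;> linarith only [(hs i).1, (hs i).2]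
        have h2 : (s i - 1 / 2) * inner ℝ v (u i) ≤ 1 / 2 * |inner ℝ v (u i)| := by
          calc (s i - 1 / 2) * inner ℝ v (u i) ≤ |(s i - 1 / 2) * inner ℝ v (u i)| := le_abs_self _
            _ = |s i - 1 / 2| * |inner ℝ v (u i)| := abs_mul _ _
            _ ≤ _ := mul_le_mul_of_nonneg_right h1 (abs_nonneg _)
        have h3 := mul_le_mul_of_nonneg_left h2 (hm i)
        calc (s i - 1 / 2) * m i * inner ℝ v (u i)
            = m i * ((s i - 1 / 2) * inner ℝ v (u i)) := by ring
          _ ≤ m i * (1 / 2 * |inner ℝ v (u i)|) := h3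
          _ = _ := by ring
      have hcomb : (1 / (1 + t)) • x + (t / (1 + t)) • z ∈ N :=
        hcN hx hzN (by (clear * - ht; positivity)) (by positivity) (by (clear * - ht; field_simp))
      refine ⟨(1 + t) • ((1 / (1 + t)) • x + (t / (1 + t)) • z), ⟨_, hcomb, rfl⟩, ?_⟩
      have h1 : (1 + t) • ((1 / (1 + t)) • x + (t / (1 + t)) • z) = x + t • z := by
        rw [smul_add, smul_smul, smul_smul]
        have h2 : (1 + t) * (1 / (1 + t)) = 1 := by field_simp
        have h3 : (1 + t) * (t / (1 + t)) = t := by (clear * - ht; field_simp)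
        rw [h2, h3, one_smul]
      show w + (1 + t) • ((1 / (1 + t)) • x + (t / (1 + t)) • z) = x + ∑ i, g i
      rw [h1, hw, hz, Finset.smul_sum]
      have h4 : ∑ i, g i = ∑ i, (t * m i / 2) • u i + ∑ i, t • ((s i - 1 / 2) * m i) • u i := by
        rw [← Finset.sum_add_distrib]
        refine Finset.sum_congr rfl fun i _ => ?_
        rw [hgs i]
        module
      rw [h4]
      abel
    have hup : vol (F Finset.univ) ≤ (1 + t) ^ finrank ℝ V * vol N := by
      have h1 := vol_mono ((hkN.smul (1 + t)).vadd w) hsub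
      rwa [vol_translate, vol_smul (by (clear * - ht; positivity))] at h1
    (clear hF hFc; linarith)
  -- limit `t → 0`
  have hlim : ∀ t : ℝ, 0 < t → ∑ i, m i * beta N (u i) ≤
      finrank ℝ V * (1 + t) ^ (finrank ℝ V) * vol N := by
    intro t ht
    have h1 := key t ht
    have h2 : (1 + t) ^ finrank ℝ V - 1 ≤ t * (finrank ℝ V * (1 + t) ^ finrank ℝ V) := by
      have h3 := one_add_mul_le_pow (show (-2 : ℝ) ≤ -(t / (1 + t)) by
        have : t / (1 + t) ≤ 1 := by rw [div_le_one (by positivity)]; linarith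
        linarith only [this]) (finrank ℝ V)
      have h4 : 1 + -(t / (1 + t)) = (1 + t)⁻¹ := by field_simp; ring
      rw [h4, inv_pow] at h3
      have h5 : 0 < (1 + t) ^ finrank ℝ V := by positivity
      have h6 := mul_le_mul_of_nonneg_left h3 h5.le
      rw [mul_inv_cancel₀ h5.ne'] at h6
      have h7 : t / (1 + t) ≤ t := by
        rw [div_le_iff₀ (by positivity)]
        nlinarith only [ht]
      have h8 : (1 + t) ^ finrank ℝ V * (finrank ℝ V * (t / (1 + t))) ≤
          (1 + t) ^ finrank ℝ V * (finrank ℝ V * t) := by (clear * - h7 ht; gcongr)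
      linarith only [h6, h8]
    have h3 : ((1 + t) ^ finrank ℝ V - 1) * vol N ≤
        t * (finrank ℝ V * (1 + t) ^ finrank ℝ V) * vol N :=
      mul_le_mul_of_nonneg_right h2 (vol_pos hN.toIsBody).le
    have h4 := h1.trans h3
    have h5 : t * ∑ i, m i * beta N (u i) ≤ t * (finrank ℝ V * (1 + t) ^ (finrank ℝ V) * vol N) := by
      linarith
    exact le_of_mul_le_mul_left h5 ht
  have hcont : Filter.Tendsto (fun t : ℝ => (finrank ℝ V : ℝ) * (1 + t) ^ (finrank ℝ V) * vol N)
      (nhdsWithin 0 (Ioi 0)) (nhds ((finrank ℝ V : ℝ) * (1 + 0) ^ (finrank ℝ V) * vol N)) := by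
    apply Filter.Tendsto.mono_left _ nhdsWithin_le_nhds
    exact Continuous.tendsto (by (clear hN u m hm h hcN hkN hneN key hlim; fun_prop)) 0
  have h1 := ge_of_tendsto hcont (Filter.eventually_of_mem self_mem_nhdsWithin fun t ht => hlim t ht)
  simpa only [ge_iff_le, add_zero, one_pow, mul_one] using h1

/-! ### duality -/

/-- The vector of data of a finite list of vectors. -/
noncomputable def dat {ι : Type*} (N : Set V) (u : ι → V) (L : List V) : (ι → ℝ) × ℝ :=
  (fun i => 2⁻¹ * (L.map fun v => |inner ℝ v (u i)|).sum, (L.map fun v => supp N v).sum)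

omit [FiniteDimensional ℝ V] [MeasurableSpace V] [BorelSpace V] in
lemma dat_append {ι : Type*} (N : Set V) (u : ι → V) (L L' : List V) :
    dat N u (L ++ L') = dat N u L + dat N u L' := by
  simp only [dat, List.map_append, List.sum_append, Prod.mk_add_mk, Prod.mk.injEq, and_true]
  funext i
  simp only [mul_add, Pi.add_apply]

omit [FiniteDimensional ℝ V] [MeasurableSpace V] [BorelSpace V] in
lemma dat_smul {ι : Type*} {N : Set V} (hN : IsCompact N) (hne : N.Nonempty) (u : ι → V)
    (L : List V) {t : ℝ} (ht : 0 ≤ t) :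
    dat N u (L.map fun v => t • v) = t • dat N u L := by
  simp only [dat, List.map_map, Prod.smul_mk, Prod.mk.injEq]
  refine ⟨?_, ?_⟩
  · funext i
    have h1 : ((fun v => |inner ℝ v (u i)|) ∘ fun v : V => t • v) =
        fun v => t * |inner ℝ v (u i)| := by
      funext v
      simp only [Function.comp, real_inner_smul_left, abs_mul, abs_of_nonneg ht]
    rw [h1, List.sum_map_mul_left]
    simp only [Pi.smul_apply, smul_eq_mul]
    ring
  · have h1 : ((fun v => supp N v) ∘ fun v : V => t • v) = fun v => t * supp N v := by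
      funext v
      simp only [Function.comp, supp_smul hN hne ht]
    rw [h1, List.sum_map_mul_left]
    rfl

/-- Finitely many directions. -/
lemma finite_dir {ι : Type*} [Fintype ι] {N : Set V} (hN : IsSymBody N) (hd : 0 < finrank ℝ V)
    {ε : ℝ} (hε : 0 < ε) (hε1 : ε < 1) (u : ι → V) (hu : ∀ i, ‖u i‖ = 1) :
    ∃ L : List V, (∀ i, (1 - ε) * beta N (u i) ≤ 2⁻¹ * (L.map fun v => |inner ℝ v (u i)|).sum) ∧
      (L.map fun v => supp N v).sum ≤ (1 + ε) * (finrank ℝ V * vol N) := by
  classical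
  by_contra hcon
  push Not at hcon
  have hkN := hN.compact
  have hneN : N.Nonempty := ⟨0, zero_mem hN⟩
  have hvol := vol_pos hN.toIsBody
  have hd' : (0 : ℝ) < finrank ℝ V := by exact_mod_cast hd
  set T : ℝ := (1 + ε) * (finrank ℝ V * vol N) with hT
  set b : ι → ℝ := fun i => (1 - ε) * beta N (u i) with hb
  set S : Set ((ι → ℝ) × ℝ) := Set.range (dat N u) with hS
  set Q : Set ((ι → ℝ) × ℝ) := (Set.univ.pi fun i => Ioi (b i)) ×ˢ Iio T with hQ
  have hQo : IsOpen Q := (isOpen_set_pi Set.finite_univ fun i _ => isOpen_Ioi).prod isOpen_Iio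
  have hQc : Convex ℝ Q := (convex_pi fun i _ => convex_Ioi _).prod (convex_Iio _)
  have hSc : Convex ℝ S := by
    rintro _ ⟨L, rfl⟩ _ ⟨L', rfl⟩ a c ha hc _
    refine ⟨(L.map fun v => a • v) ++ (L'.map fun v => c • v), ?_⟩
    rw [dat_append, dat_smul hkN hneN u L ha, dat_smul hkN hneN u L' hc]
  have hdisj : Disjoint Q S := by
    rw [Set.disjoint_left]
    rintro _ ⟨h1, h2⟩ ⟨L, rfl⟩
    have h3 := hcon L (fun i => (h1 i (Set.mem_univ i)).le)
    exact absurd h2 (not_lt.2 h3.le)
  obtain ⟨f, c, hfQ, hfS⟩ := geometric_hahn_banach_open hQc hQo hSc hdisj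
  -- the coefficients
  set m : ι → ℝ := fun i => -f (Pi.single i 1, 0) with hm
  set l : ℝ := f (0, 1) with hl
  have hf : ∀ (x : ι → ℝ) (t : ℝ), f (x, t) = -(∑ i, m i * x i) + l * t := by
    intro x t
    have h1 : (x, t) = ∑ i, x i • ((Pi.single i 1, 0) : (ι → ℝ) × ℝ) + t • ((0, 1) : (ι → ℝ) × ℝ) := by
      ext i
      · simp only [Prod.smul_mk, smul_eq_mul, mul_zero, smul_zero, mul_one, Prod.fst_add, Prod.fst_sum, Pi.add_apply, Finset.sum_apply, Pi.smul_apply, Pi.single_apply, mul_ite, Finset.sum_ite_eq, Finset.mem_univ, ↓reduceIte, Pi.zero_apply, add_zero]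
      · simp only [Prod.smul_mk, smul_eq_mul, mul_zero, smul_zero, mul_one, Prod.snd_add, Prod.snd_sum, Finset.sum_const_zero, zero_add]
    rw [h1, map_add, map_sum, map_smul]
    simp only [map_smul, smul_eq_mul, hm, hl]
    rw [← Finset.sum_neg_distrib]
    congr 1
    · exact Finset.sum_congr rfl fun i _ => by ring
    · ring
  have hc0 : c ≤ 0 := by
    have h1 := hfS (dat N u []) ⟨[], rfl⟩
    have h2 : dat N u [] = 0 := by
      simp only [dat, List.map_nil, List.sum_nil, mul_zero]
      rfl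
    rwa [h2, map_zero] at h1
  have hS0 : ∀ v : V, 0 ≤ f (dat N u [v]) := by
    intro v
    by_contra hneg
    push Not at hneg
    obtain ⟨n, hn⟩ := exists_nat_gt (c / f (dat N u [v]))
    have h1 := hfS _ ⟨[v].map fun v => (n : ℝ) • v, rfl⟩
    rw [dat_smul hkN hneN u [v] (Nat.cast_nonneg n), map_smul, smul_eq_mul] at h1
    rw [div_lt_iff_of_neg hneg] at hn
    linarith only [hn, h1]
  set q0 : (ι → ℝ) × ℝ := (fun i => b i + 1, T - 1) with hq0
  have hmi : ∀ i, 0 ≤ m i := by
    intro i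
    by_contra hneg
    push Not at hneg
    obtain ⟨n, hn⟩ := exists_nat_gt ((c - f q0) / (-m i))
    have h1 : q0 + (n : ℝ) • ((Pi.single i 1, 0) : (ι → ℝ) × ℝ) ∈ Q := by
      refine ⟨fun j _ => ?_, ?_⟩
      · simp only [hq0, Prod.fst_add, Prod.smul_fst, Pi.add_apply, Pi.smul_apply, smul_eq_mul,
          mem_Ioi, Pi.single_apply]
        have : (0 : ℝ) ≤ (n : ℝ) * (if j = i then 1 else 0) := by (clear * -; (clear * -; positivity))
        (clear hN hd hu hkN hneN hvol hd' T hcon hT hb S hS Q hQ hQo hQc hSc hdisj f c hfQ hfS m hm l hl hf hc0 hS0 q0 hq0 hneg hn; linarith)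
      · simp only [hq0, Prod.smul_mk, smul_eq_mul, mul_zero, Prod.mk_add_mk, add_zero, mem_Iio, sub_lt_self_iff, zero_lt_one]
    have h2 := hfQ _ h1
    rw [map_add, map_smul, smul_eq_mul] at h2
    have h3 : f (Pi.single i 1, 0) = -m i := by simp [hm]
    rw [h3] at h2
    rw [div_lt_iff₀ (by linarith only [hneg])] at hn
    linarith only [hn, h2]
  have hl0 : 0 ≤ l := by
    by_contra hneg
    push Not at hneg
    obtain ⟨n, hn⟩ := exists_nat_gt ((c - f q0) / (-l))
    have h1 : q0 + (n : ℝ) • ((0, -1) : (ι → ℝ) × ℝ) ∈ Q := by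
      refine ⟨fun j _ => ?_, ?_⟩
      · simp only [hq0, Prod.smul_mk, smul_zero, smul_eq_mul, mul_neg, mul_one, Prod.mk_add_mk, add_zero, mem_Ioi, lt_add_iff_pos_right, zero_lt_one]
      · simp only [hq0, Prod.snd_add, Prod.smul_snd, smul_eq_mul, mem_Iio]
        have : (0 : ℝ) ≤ (n : ℝ) := Nat.cast_nonneg n
        (clear hN hd u hu hkN hneN hvol hd' hcon hT b hb S hS Q hQ hQo hQc hSc hdisj f c hfQ hfS m hm l hl hf hc0 hS0 q0 hq0 hmi hneg hn this; linarith)
    have h2 := hfQ _ h1
    rw [map_add, map_smul, smul_eq_mul] at h2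
    have h3 : f ((0, -1) : (ι → ℝ) × ℝ) = -l := by
      rw [hf]
      simp only [Pi.zero_apply, mul_zero, Finset.sum_const_zero, neg_zero, mul_neg, mul_one, zero_add]
    rw [h3] at h2
    rw [div_lt_iff₀ (by linarith only [hneg])] at hn
    linarith only [hn, h2]
  have hvS : ∀ v, 2⁻¹ * ∑ i, m i * |inner ℝ v (u i)| ≤ l * supp N v := by
    intro v
    have h1 := hS0 v
    have h2 : dat N u [v] = (fun i => 2⁻¹ * |inner ℝ v (u i)|, supp N v) := by
      simp only [dat, List.map_cons, List.map_nil, List.sum_cons, List.sum_nil, add_zero]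
    rw [h2, hf] at h1
    have h3 : ∑ i, m i * (2⁻¹ * |inner ℝ v (u i)|) = 2⁻¹ * ∑ i, m i * |inner ℝ v (u i)| := by
      rw [Finset.mul_sum]
      exact Finset.sum_congr rfl fun i _ => by ring
    rw [h3] at h1
    linarith only [h1]
  have hl1 : 0 < l := by
    rcases hl0.eq_or_lt with h0 | h0
    · exfalso
      have hmz : ∀ i, m i = 0 := by
        intro i
        have h1 := hvS (u i)
        rw [← h0, zero_mul] at h1
        have h2 : m i * |inner ℝ (u i) (u i)| ≤ ∑ j, m j * |inner ℝ (u i) (u j)| :=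
          Finset.single_le_sum (f := fun j => m j * |inner ℝ (u i) (u j)|)
            (fun j _ => mul_nonneg (hmi j) (abs_nonneg _)) (Finset.mem_univ i)
        rw [real_inner_self_eq_norm_sq, hu i] at h2
        have h3 : |(1 : ℝ) ^ 2| = 1 := by norm_num
        rw [h3, mul_one] at h2
        have h4 : ∑ j, m j * |inner ℝ (u i) (u j)| ≤ 0 := by linarith only [h1]
        exact le_antisymm (h2.trans h4) (hmi i)
      have h1 := hfQ q0 ⟨fun i _ => by simp only [hq0, mem_Ioi, lt_add_iff_pos_right, zero_lt_one], by simp only [hq0, mem_Iio, sub_lt_self_iff, zero_lt_one]⟩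
      rw [hq0, hf, ← h0] at h1
      simp only [hmz, zero_mul, Finset.sum_const_zero, neg_zero, add_zero] at h1
      linarith only [hc0, h1]
    · exact h0
  -- the zonotope with coefficients `m / l`
  have hkey := sum_beta_le hN u (fun i => m i / l) (fun i => div_nonneg (hmi i) hl1.le) (by
    intro v
    have h1 := hvS v
    have h2 : ∑ i, m i / l * |inner ℝ v (u i)| = (∑ i, m i * |inner ℝ v (u i)|) / l := by
      rw [Finset.sum_div]
      exact Finset.sum_congr rfl fun i _ => by ring
    rw [h2, ← mul_div_assoc, div_le_iff₀ hl1]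
    linarith only [h1])
  have hkey2 : ∑ i, m i * beta N (u i) ≤ l * (finrank ℝ V * vol N) := by
    have h2 : ∑ i, m i / l * beta N (u i) = (∑ i, m i * beta N (u i)) / l := by
      rw [Finset.sum_div]
      exact Finset.sum_congr rfl fun i _ => by ring
    rw [h2, div_le_iff₀ hl1] at hkey
    (clear hN hd ε hε hε1 hu hkN hneN hvol hd' T hcon hT b hb S hS Q hQ hQo hQc hSc hdisj c hfQ hfS hm hl hf hc0 hS0 q0 hq0 hmi hl0 hvS hl1 h2; linarith)
  have hlow : l * T ≤ ∑ i, m i * b i := by
    refine le_of_forall_pos_le_add fun η hη => ?_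
    set C : ℝ := ∑ i, m i + l + 1 with hC
    have hCpos : 0 < C := by
      have : 0 ≤ ∑ i, m i := Finset.sum_nonneg fun i _ => hmi i
      linarith only [hl1, this]
    have h1 := hfQ (fun i => b i + η / C, T - η / C) ⟨fun i _ => by
      simp only [mem_Ioi]
      have : 0 < η / C := div_pos hη hCpos
      (clear hd hvol hd' hcon hT hb hS hQ hQo hQc hSc hdisj hkey hkey2 hC; linarith), by
      simp only [mem_Iio]
      have : 0 < η / C := div_pos hη hCpos
      (clear hd hvol hd' hcon hT hb hS hQ hQo hQc hSc hdisj hkey hkey2 hC; linarith)⟩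
    rw [hf] at h1
    have h2 : ∑ i, m i * (b i + η / C) = ∑ i, m i * b i + (∑ i, m i) * (η / C) := by
      rw [Finset.sum_mul, ← Finset.sum_add_distrib]
      exact Finset.sum_congr rfl fun i _ => by ring
    rw [h2] at h1
    have h3 : (∑ i, m i) * (η / C) + l * (η / C) ≤ η := by
      have h4 : (∑ i, m i + l) * (η / C) ≤ C * (η / C) :=
        mul_le_mul_of_nonneg_right (by linarith only []) (div_pos hη hCpos).le
      have h5 : C * (η / C) = η := by (clear * - hCpos hη; field_simp)
      nlinarith only [h4, h5]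
    (clear hd hvol hd' hcon hT hb hS hQ hQo hQc hSc hdisj hkey hkey2 hC h2; nlinarith)
  have hb2 : ∑ i, m i * b i = (1 - ε) * ∑ i, m i * beta N (u i) := by
    rw [Finset.mul_sum]
    exact Finset.sum_congr rfl fun i _ => by simp only [hb]; ring
  rw [hb2] at hlow
  have h1 : (1 - ε) * ∑ i, m i * beta N (u i) ≤ (1 - ε) * (l * (finrank ℝ V * vol N)) :=
    mul_le_mul_of_nonneg_left hkey2 (by linarith only [hε1])
  have h2 : 0 < l * (finrank ℝ V * vol N) := by (clear hd' hcon hT hb hS hQ hQo hQc hSc hdisj hkey hkey2 hlow hb2 h1; positivity)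
  rw [hT] at hlow
  (clear hN hd hε1 hu hkN hneN hvol hd' T hcon hT b hb S hS Q hQ hQo hQc hSc hdisj c hfQ hfS hm hl hf hc0 hS0 q0 hq0 hmi hl0 hvS hl1 hkey hkey2 hb2; nlinarith)

end ZA

open ZA in
/-- Task D2: finitely many vectors approximating the surface area measure of `N`. -/
theorem zonotope_approx {N : Set V} (hN : IsSymBody N) {ε : ℝ} (hε : 0 < ε) (hε1 : ε < 1) :
    ∃ (m : ℕ) (v : Fin m → V),
      (∀ u : V, (1 - ε) * beta N u ≤ 2⁻¹ * ∑ j, |inner ℝ (v j) u|) ∧
      ∑ j, supp N (v j) ≤ (1 + ε) * (finrank ℝ V * vol N) := by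
  classical
  have hkN := hN.compact
  have hcN := hN.convex
  have hbz : beta N 0 = 0 := by
    have h := beta_smul hkN hcN 0 (0 : V)
    simpa only [smul_zero, abs_zero, zero_mul] using h
  rcases Nat.eq_zero_or_pos (finrank ℝ V) with hd | hd
  · refine ⟨0, Fin.elim0, fun u => ?_, ?_⟩
    · have : Subsingleton V := finrank_zero_iff.1 hd
      rw [Subsingleton.elim u 0, hbz]
      simp
    · simp [hd]
  have : Nontrivial V := finrank_pos_iff.1 hd
  have hvol := vol_pos hN.toIsBody
  have hd' : (0 : ℝ) < finrank ℝ V := by exact_mod_cast hd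
  -- upper bound for `β`
  obtain ⟨B, hB0, hB⟩ : ∃ B : ℝ, 0 ≤ B ∧ ∀ w, beta N w ≤ B * ‖w‖ := by
    set e := stdOrthonormalBasis ℝ V
    refine ⟨∑ i, beta N (e i), Finset.sum_nonneg fun i _ => beta_nonneg hkN hcN _, fun w => ?_⟩
    have h1 : beta N (∑ i, inner ℝ (e i) w • e i) ≤ ∑ i, beta N (inner ℝ (e i) w • e i) :=
      Finset.le_sum_of_subadditive (beta N) hbz.le (fun x y => beta_add_le hkN hcN x y)
        Finset.univ _
    rw [e.sum_repr' w] at h1
    refine h1.trans ?_
    rw [Finset.sum_mul]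
    refine Finset.sum_le_sum fun i _ => ?_
    rw [beta_smul hkN hcN, mul_comm]
    refine mul_le_mul_of_nonneg_left ?_ (beta_nonneg hkN hcN _)
    have h2 := abs_real_inner_le_norm (e i) w
    rwa [e.norm_eq_one, one_mul] at h2
  have hdiff : ∀ x y, beta N x ≤ beta N y + B * ‖x - y‖ := by
    intro x y
    have h1 := beta_add_le hkN hcN y (x - y)
    rw [add_sub_cancel] at h1
    linarith [hB (x - y)]
  -- lower bound on the sphere
  obtain ⟨b0, hb0, hb0'⟩ : ∃ b0 : ℝ, 0 < b0 ∧ ∀ w, ‖w‖ = 1 → b0 ≤ beta N w := by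
    have hcont : Continuous (beta N) := by
      have h1 : LipschitzWith (Real.toNNReal B) (beta N) := by
        refine LipschitzWith.of_dist_le_mul fun x y => ?_
        rw [Real.dist_eq, dist_eq_norm, abs_le, Real.coe_toNNReal B hB0]
        have h1 := hdiff x y
        have h2 := hdiff y x
        rw [norm_sub_rev] at h2
        constructor <;> linarith
      exact h1.continuous
    obtain ⟨w, hw, hmin⟩ := (isCompact_sphere (0 : V) 1).exists_isMinOn
      (NormedSpace.sphere_nonempty.2 zero_le_one) hcont.continuousOn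
    rw [mem_sphere_zero_iff_norm] at hw
    refine ⟨beta N w, beta_pos hN.toIsBody (by
      intro h
      rw [h, norm_zero] at hw
      exact zero_ne_one hw), fun x hx => ?_⟩
    exact hmin (mem_sphere_zero_iff_norm.2 hx)
  obtain ⟨ρ, hρ, hball⟩ := ball_subset hN
  set Lc : ℝ := 2 * (finrank ℝ V * vol N) / ρ with hLc
  have hLc0 : 0 < Lc := by (clear ε hε hε1 hkN hcN hbz hd' B hB0 hB hdiff b0 hb0 hb0' hball hLc; positivity)
  set δ : ℝ := (ε / 2) * b0 / (B + Lc / 2) with hδ
  have hδ0 : 0 < δ := by (clear hε1 hkN hcN hbz hd' hB hdiff hb0' hball hLc hLc0 hδ; positivity)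
  obtain ⟨t, hts, htf, hcov⟩ := (isCompact_sphere (0 : V) 1).finite_cover_balls hδ0
  have : Fintype t := htf.fintype
  obtain ⟨L, hL1, hL2⟩ := finite_dir hN hd (ε := ε / 2) (by linarith only [hε]) (by linarith only [hε1])
    (fun i : t => (i : V)) (fun i => mem_sphere_zero_iff_norm.1 (hts i.2))
  refine ⟨L.length, fun j => L[j], ?_, ?_⟩
  · -- all directions
    have hsum : ∀ u : V, ∑ j : Fin L.length, |inner ℝ L[j] u| = (L.map fun v => |inner ℝ v u|).sum :=
      fun u => Fin.sum_univ_fun_getElem L (fun v => |inner ℝ v u|)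
    have hnorm : (L.map fun v => ‖v‖).sum ≤ Lc := by
      have h1 : ρ * (L.map fun v => ‖v‖).sum ≤ (L.map fun v => supp N v).sum := by
        rw [← List.sum_map_mul_left]
        exact List.sum_le_sum fun v _ => supp_ge hkN hρ hball v
      have h2 : (1 + ε / 2) * (finrank ℝ V * vol N) ≤ 2 * (finrank ℝ V * vol N) :=
        mul_le_mul_of_nonneg_right (by linarith only [hε1]) (by (clear ε hε hε1 hkN hcN hbz hd' B hB0 hB hdiff b0 hb0 hb0' ρ hρ hball Lc hLc hLc0 δ hδ hδ0 hts hcov L hL1 hL2 hsum h1; positivity))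
      rw [hLc, le_div_iff₀ hρ]
      (clear hcN hbz hd' B hB0 hB hdiff b0 hb0 hb0' Lc hLc hLc0 δ hδ hδ0 hts hcov hL1 hsum; linarith)
    have hunit : ∀ u : V, ‖u‖ = 1 → (1 - ε) * beta N u ≤
        2⁻¹ * (L.map fun v => |inner ℝ v u|).sum := by
      intro u hu
      have h1 := hcov (mem_sphere_zero_iff_norm.2 hu)
      simp only [mem_iUnion, exists_prop] at h1
      obtain ⟨w, hw, huw⟩ := h1
      rw [mem_ball_iff_norm] at huw
      have h2 := hL1 ⟨w, hw⟩
      have h3 : (L.map fun v => |inner ℝ v w|).sum ≤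
          (L.map fun v => |inner ℝ v u|).sum + δ * (L.map fun v => ‖v‖).sum := by
        rw [← List.sum_map_mul_left, ← List.sum_map_add]
        refine List.sum_le_sum fun v _ => ?_
        have h4 : inner ℝ v w = inner ℝ v u - inner ℝ v (u - w) := by
          rw [inner_sub_right]; ring
        have h5 := abs_real_inner_le_norm v (u - w)
        have h6 : ‖v‖ * ‖u - w‖ ≤ ‖v‖ * δ := mul_le_mul_of_nonneg_left huw.le (norm_nonneg v)
        rw [h4]
        have h7 := abs_sub (inner ℝ v u) (inner ℝ v (u - w))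
        (clear hN hε hε1 hkN hcN hbz hvol hd' hB0 hB hdiff hb0 hb0' hρ hball hLc hLc0 hδ hδ0 hts hcov hL1 hL2 hsum hnorm hu hw h2 h4; linarith)
      have h4 : beta N u ≤ beta N w + B * δ := by
        have h5 := hdiff u w
        have h6 : B * ‖u - w‖ ≤ B * δ := mul_le_mul_of_nonneg_left huw.le hB0
        (clear hε hε1 hbz hvol hd' hb0 hb0' hρ hball hLc hLc0 hδ hδ0 hts hcov L hL1 hL2 hsum hnorm hu hw h2 h3; linarith)
      have h5 : δ * (L.map fun v => ‖v‖).sum ≤ δ * Lc := mul_le_mul_of_nonneg_left hnorm hδ0.le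
      have h6 : δ * (B + Lc / 2) = (ε / 2) * b0 := by
        rw [hδ]
        (clear * - hB0 hLc0 hb0 hε; field_simp)
      have h7 := hb0' u hu
      simp only at h2
      have h8 : (1 - ε / 2) * beta N u ≤ (1 - ε / 2) * beta N w + B * δ := by
        have h9 : (1 - ε / 2) * beta N u ≤ (1 - ε / 2) * (beta N w + B * δ) :=
          mul_le_mul_of_nonneg_left h4 (by linarith only [hε1])
        have h10 : (1 - ε / 2) * (B * δ) ≤ 1 * (B * δ) :=
          mul_le_mul_of_nonneg_right (by linarith only [hε]) (by (clear hε1 hkN hcN hbz hd' hB hdiff hb0' hball hLc hLc0 hδ hδ0 hts hcov L hL1 hL2 hsum hnorm u hu w hw huw h2 h3 h4 h5 h6 h7 h9; positivity))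
        (clear hbz hd' hb0' hball hLc hLc0 hδ hδ0 hts hcov L hL1 hL2 hsum hnorm hu hw h2 h3 h5 h6 h7; linarith)
      have h9 : (ε / 2) * b0 ≤ (ε / 2) * beta N u := mul_le_mul_of_nonneg_left h7 (by linarith only [hε])
      (clear hbz hd' hts hcov hsum; nlinarith)
    intro u
    rw [hsum u]
    rcases eq_or_ne u 0 with rfl | hu
    · rw [hbz]
      simp
    · have hn : 0 < ‖u‖ := norm_pos_iff.2 hu
      have h1 := hunit (‖u‖⁻¹ • u) (by rw [norm_smul, norm_inv, norm_norm, inv_mul_cancel₀ hn.ne'])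
      rw [beta_smul hkN hcN, abs_of_pos (inv_pos.2 hn)] at h1
      have h2 : (fun v : V => |inner ℝ v (‖u‖⁻¹ • u)|) = fun v => ‖u‖⁻¹ * |inner ℝ v u| := by
        funext v
        rw [inner_smul_right, abs_mul, abs_of_pos (inv_pos.2 hn)]
      rw [h2, List.sum_map_mul_left] at h1
      have h3 := mul_le_mul_of_nonneg_left h1 hn.le
      have h4 : ‖u‖ * ((1 - ε) * (‖u‖⁻¹ * beta N u)) = (1 - ε) * beta N u := by (clear hN hε hε1 hkN hcN hbz hvol hd' B hB0 hB hdiff b0 hb0 hb0' ρ hρ hball Lc hLc hLc0 δ hδ hδ0 hts hcov L hL1 hL2 hsum hnorm hunit hn h1 h2 h3; field_simp)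
      have h5 : ‖u‖ * (2⁻¹ * (‖u‖⁻¹ * (L.map fun v => |inner ℝ v u|).sum)) =
          2⁻¹ * (L.map fun v => |inner ℝ v u|).sum := by (clear * - hu; field_simp)
      rwa [h4, h5] at h3
  · have h1 : ∑ j : Fin L.length, supp N L[j] = (L.map fun v => supp N v).sum :=
      Fin.sum_univ_fun_getElem L (fun v => supp N v)
    rw [h1]
    have h2 : (1 + ε / 2) * (finrank ℝ V * vol N) ≤ (1 + ε) * (finrank ℝ V * vol N) :=
      mul_le_mul_of_nonneg_right (by linarith only [hε]) (by (clear ε hε hε1 hkN hcN hbz hd' B hB0 hB hdiff b0 hb0 hb0' ρ hρ hball Lc hLc hLc0 δ hδ hδ0 hts hcov L hL1 hL2 h1; positivity))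
    exact hL2.trans h2

end Vale.Agent.P237
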