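import Vale.Agent.P237.Mixed0
import Vale.Agent.P237.ZonoApprox

open MeasureTheory Metric Set Module
open scoped Pointwise

namespace Vale.Agent.P237

variable {V : Type*} [NormedAddCommGroup V] [InnerProductSpace ℝ V] [FiniteDimensional ℝ V]
  [MeasurableSpace V] [BorelSpace V]

set_option linter.unusedVariables false in
/-- Volume bound for `K + t M` when `h_M` is the support function of the projection body of `N`
and `h_{Π K} ≤ h_N`. -/
theorem mixed_bound {K N M : Set V} (hK : IsBody K) (h0 : (0 : V) ∈ interior K)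
    (hN : IsSymBody N) (hM : IsCompact M) (hMc : Convex ℝ M) (hMne : M.Nonempty)
    (h1 : ∀ v, beta K v ≤ supp N v) (h2 : ∀ v, supp M v ≤ beta N v) :
    ∃ C : ℝ, 0 ≤ C ∧ ∀ t : ℝ, 0 ≤ t → vol (K + t • M) ≤
      vol K + t * (1 + t * C) ^ (finrank ℝ V - 1) * (finrank ℝ V * vol N) :=
  mixed_bound_of_approx hK h0 hN hM (fun _ hε hε1 => zonotope_approx hN hε hε1) h1 h2

end Vale.Agent.P237
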