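import Vale.Agent.P237.MathlibUsed

/-!
# P237: the two-variable inequality behind the one-dimensional lemma
-/

namespace Vale.Agent.P237

open Real

/-- Pade lower bound for the arctangent. -/
theorem arctan_ge_pade (t : ℝ) (ht : 0 ≤ t) :
    t * (105 + 55 * t ^ 2) / (105 + 90 * t ^ 2 + 9 * t ^ 4) ≤ arctan t := by
  set f : ℝ → ℝ := fun s => arctan s - s * (105 + 55 * s ^ 2) / (105 + 90 * s ^ 2 + 9 * s ^ 4)
    with hf
  have hW : ∀ s : ℝ, 0 < 105 + 90 * s ^ 2 + 9 * s ^ 4 := fun s => by (clear * -; positivity)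
  have hder : ∀ s : ℝ, HasDerivAt f (576 * s ^ 8 / ((1 + s ^ 2) * (105 + 90 * s ^ 2 + 9 * s ^ 4) ^ 2)) s := by
    intro s
    have h1 : HasDerivAt (fun s : ℝ => s * (105 + 55 * s ^ 2)) (105 + 165 * s ^ 2) s := by
      have := (hasDerivAt_id s).mul (((hasDerivAt_pow 2 s).const_mul 55).const_add 105)
      refine this.congr_deriv ?_
      simp only [one_mul, id_eq, Nat.cast_ofNat, Nat.add_one_sub_one, pow_one]
      ring
    have h2 : HasDerivAt (fun s : ℝ => 105 + 90 * s ^ 2 + 9 * s ^ 4) (180 * s + 36 * s ^ 3) s := by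
      have := (((hasDerivAt_pow 2 s).const_mul 90).const_add 105).add ((hasDerivAt_pow 4 s).const_mul 9)
      refine this.congr_deriv ?_
      simp only [Nat.cast_ofNat, Nat.add_one_sub_one, pow_one]
      ring
    have h3 := (hasDerivAt_arctan s).sub (h1.div h2 (hW s).ne')
    refine h3.congr_deriv ?_
    have hq : (1 + s ^ 2) ≠ 0 := by (clear * -; (clear * -; positivity))
    have hW' := (hW s).ne'
    field_simp
    ring
  have hmono : MonotoneOn f (Set.Ici 0) := by
    apply monotoneOn_of_deriv_nonneg (convex_Ici 0)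
    · exact fun s _ => (hder s).continuousAt.continuousWithinAt
    · exact fun s _ => (hder s).differentiableAt.differentiableWithinAt
    · intro s _
      rw [(hder s).deriv]
      (clear * -; (clear * -; positivity))
  have h0 : f 0 = 0 := by simp only [hf, arctan_zero, ne_eq, OfNat.ofNat_ne_zero, not_false_eq_true, zero_pow, mul_zero, add_zero, zero_mul, zero_div, sub_self]
  have := hmono (Set.mem_Ici.mpr le_rfl) (Set.mem_Ici.mpr ht) ht
  rw [h0] at this
  simp only [hf] at this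
  linarith only [this]

/-- The polynomial of the certificate. -/
theorem poly_ge (t : ℝ) (h0 : 0 ≤ t) (h1 : t ≤ 1) :
    (100:ℝ) ≤
    (1300151811/1000000) + (-183939/125)*t^1 + (-2807496459/500000)*t^2 + (410521/125)*t^3
      + (13558679009/5000000)*t^4 + (5617154/625)*t^5 + (9382029759/1250000)*t^6
      + (3498882/625)*t^7 + (-47317324671/5000000)*t^8 + (1515197/625)*t^9
      + (-24242456567/2500000)*t^10 + (661169/625)*t^11 + (-6013872081/5000000)*t^12 := by
  rcases le_total t (1/2) with h | h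
  · obtain ⟨v, hv, hvt⟩ : ∃ v : ℝ, 0 ≤ v ∧ v = 1/2 - t := ⟨1/2 - t, by linarith only [h], rfl⟩
    obtain ⟨u, hu, hut⟩ : ∃ u : ℝ, 0 ≤ u ∧ u = t := ⟨t, h0, rfl⟩
    have key : (0:ℝ) ≤
    (76809715904/15625)*v^12 + (874628206848/15625)*u^1*v^11 + (4461629138976/15625)*u^2*v^10
      + (107489206848/125)*u^3*v^9 + (132278690753636/78125)*u^4*v^8
      + (177819663479328/78125)*u^5*v^7 + (164974865310124/78125)*u^6*v^6
      + (103909929517192/78125)*u^7*v^5 + (168766581667569/312500)*u^8*v^4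
      + (1960221806533/15625)*u^9*v^3 + (304793670077/25000)*u^10*v^2
      + (592200153/2500)*u^11*v^1 + (1344886519/8000)*u^12 := by (clear * - hu hv; (clear * - hu hv; positivity))
    subst hvt
    subst hut
    refine le_of_sub_nonneg (key.trans (le_of_eq ?_))
    ring
  · obtain ⟨v, hv, hvt⟩ : ∃ v : ℝ, 0 ≤ v ∧ v = 1 - t := ⟨1 - t, by linarith only [h1], rfl⟩
    obtain ⟨u, hu, hut⟩ : ∃ u : ℝ, 0 ≤ u ∧ u = t - 1/2 := ⟨t - 1/2, by linarith only [h], rfl⟩
    have key : (0:ℝ) ≤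
    (1344886519/8000)*v^12 + (18988897479/5000)*u^1*v^11 + (160505126824/3125)*u^2*v^10
      + (5658471268117/15625)*u^3*v^9 + (116808432639891/78125)*u^4*v^8
      + (309324094887824/78125)*u^5*v^7 + (552763898655488/78125)*u^6*v^6
      + (136262235218304/15625)*u^7*v^5 + (578291965504576/78125)*u^8*v^4
      + (65822742533632/15625)*u^9*v^3 + (117813413855232/78125)*u^10*v^2
      + (23067859570688/78125)*u^11*v^1 + (1702334631936/78125)*u^12 := by (clear * - hu hv; positivity)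
    subst hvt
    subst hut
    refine le_of_sub_nonneg (key.trans (le_of_eq ?_))
    ring

/-- The key inequality at the height `p = 1`, in half-angle form. -/
theorem core_one (t x y K : ℝ) (h0 : 0 ≤ t) (h1 : t ≤ 1)
    (hx : x = 2 * t / (1 + t ^ 2)) (hy : y = (1 - t ^ 2) / (1 + t ^ 2)) (hK : K = 18506 / 10000) :
    (2 * y - (K + 4/5 - x ^ 2) + 3/5 + 2/5 * x) ^ 2 <
      4 * (2/5 * (1 + x)) *
        (4 * arctan t + 4 * y - 2 * x * y - (1 + x) * (K + 3/5 - x ^ 2)) := by
  have hq : 0 < 1 + t ^ 2 := by (clear * -; positivity)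
  have hW : 0 < 105 + 90 * t ^ 2 + 9 * t ^ 4 := by (clear * -; (clear * -; positivity))
  have hA := arctan_ge_pade t h0
  have hx0 : 0 ≤ x := by rw [hx]; (clear * - h0; positivity)
  have hP := poly_ge t h0 h1
  set R : ℝ := t * (105 + 55 * t ^ 2) / (105 + 90 * t ^ 2 + 9 * t ^ 4) with hR
  have h2 : 4 * (2/5 * (1 + x)) * (4 * R + 4 * y - 2 * x * y - (1 + x) * (K + 3/5 - x ^ 2)) ≤
      4 * (2/5 * (1 + x)) *
        (4 * arctan t + 4 * y - 2 * x * y - (1 + x) * (K + 3/5 - x ^ 2)) := by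
    apply mul_le_mul_of_nonneg_left _ (by (clear * - hx0; positivity))
    linarith only [hA]
  refine lt_of_lt_of_le ?_ h2
  rw [← sub_pos]
  have h3 : 4 * (2/5 * (1 + x)) * (4 * R + 4 * y - 2 * x * y - (1 + x) * (K + 3/5 - x ^ 2)) -
      (2 * y - (K + 4/5 - x ^ 2) + 3/5 + 2/5 * x) ^ 2 =
      ((1300151811/1000000) +
        (-183939/125)*t^1 +
        (-2807496459/500000)*t^2 +
        (410521/125)*t^3 +
        (13558679009/5000000)*t^4 +
        (5617154/625)*t^5 +
        (9382029759/1250000)*t^6 +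
        (3498882/625)*t^7 +
        (-47317324671/5000000)*t^8 +
        (1515197/625)*t^9 +
        (-24242456567/2500000)*t^10 +
        (661169/625)*t^11 +
        (-6013872081/5000000)*t^12) / (5 * (1 + t ^ 2) ^ 4 * (105 + 90 * t ^ 2 + 9 * t ^ 4)) := by
    rw [hR, hx, hy, hK]
    have hq' := hq.ne'
    have hW' := hW.ne'
    field_simp
    ring
  rw [h3]
  apply div_pos (by linarith only [hP]) (by (clear * -; positivity))

/-- The two-variable inequality. -/
theorem core_ineq (t x y p K : ℝ) (h0 : 0 ≤ t) (h1 : t ≤ 1)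
    (hx : x = 2 * t / (1 + t ^ 2)) (hy : y = (1 - t ^ 2) / (1 + t ^ 2)) (hK : K ≤ 18506 / 10000)
    (hp : x ≤ p) :
    0 < 4 * arctan t + 2 * y * (1 + p) - 2 * x * y - (p + x) * (K + 4/5 - x ^ 2 - p ^ 2 / 5) := by
  have hx0 : 0 ≤ x := by rw [hx]; (clear * - h0; positivity)
  have hc := core_one t x y (18506/10000) h0 h1 hx hy rfl
  set D1 : ℝ := 4 * arctan t + 4 * y - 2 * x * y - (1 + x) * (18506/10000 + 3/5 - x ^ 2) with hD1
  set m : ℝ := 2 * y - (18506/10000 + 4/5 - x ^ 2) + 3/5 + 2/5 * x with hm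
  have e1 : 4 * arctan t + 2 * y * (1 + p) - 2 * x * y - (p + x) * (K + 4/5 - x ^ 2 - p ^ 2 / 5) =
      (p + x) * (18506/10000 - K) + D1 + m * (p - 1) + 2/5 * (1 + x) * (p - 1) ^ 2
        + (p - 1) ^ 2 * (p - x) / 5 := by
    rw [hD1, hm]; ring
  rw [e1]
  have h3 : 0 ≤ (p + x) * (18506/10000 - K) := mul_nonneg (by linarith only [hp, hx0]) (by linarith only [hK])
  have h4 : 0 ≤ (p - 1) ^ 2 * (p - x) / 5 := by
    have := mul_nonneg (sq_nonneg (p - 1)) (sub_nonneg.mpr hp)
    linarith only [this]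
  have h5 : 0 < D1 + m * (p - 1) + 2/5 * (1 + x) * (p - 1) ^ 2 := by
    have h6 : 0 < 4 * (2/5 * (1 + x)) * (D1 + m * (p - 1) + 2/5 * (1 + x) * (p - 1) ^ 2) := by
      have : 4 * (2/5 * (1 + x)) * (D1 + m * (p - 1) + 2/5 * (1 + x) * (p - 1) ^ 2) =
          (2 * (2/5 * (1 + x)) * (p - 1) + m) ^ 2 + (4 * (2/5 * (1 + x)) * D1 - m ^ 2) := by ring
      rw [this]
      have := sq_nonneg (2 * (2/5 * (1 + x)) * (p - 1) + m)
      linarith only [hc, this]
    exact (mul_pos_iff_of_pos_left (by (clear * - hx0; positivity))).mp h6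
  linarith only [h3, h4, h5]

theorem kappa_le : 3 * π ^ 2 / 16 ≤ 18506 / 10000 := by
  have := pi_lt_d4
  have h0 := pi_pos
  nlinarith

end Vale.Agent.P237
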