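import Vale.Agent.P237.MathlibUsed
import Vale.Agent.P237.OneD1

/-!
# P237: the one-dimensional lemma

`p` concave on `[0,1]`, `p y ≥ √(1 - y²)` and `∫ p⁴ ≤ 4 ∫ y² p²` imply
`(3 π² / 32) ∫ p² ≤ (∫ p)²`, with equality only for the half circle.
-/

namespace Vale.Agent.P237

open Real MeasureTheory Set intervalIntegral

/-- The primitive of the half circle. -/
theorem integral_sqrt_one_sub_sq_zero (y : ℝ) (h0 : 0 ≤ y) (h1 : y ≤ 1) :
    ∫ s in (0:ℝ)..y, √(1 - s ^ 2) = (arcsin y + y * √(1 - y ^ 2)) / 2 := by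
  have hder : ∀ s ∈ Ioo (0:ℝ) y, HasDerivAt (fun s : ℝ => (arcsin s + s * √(1 - s ^ 2)) / 2)
      (√(1 - s ^ 2)) s := by
    intro s hs
    have hs1 : s < 1 := lt_of_lt_of_le hs.2 h1
    have hpos : 0 < 1 - s ^ 2 := by nlinarith only [hs1, hs.1]
    have hsq : 0 < √(1 - s ^ 2) := Real.sqrt_pos.mpr hpos
    have e1 := Real.hasDerivAt_arcsin (x := s) (by linarith only [hs.1]) (by linarith)
    have e2 : HasDerivAt (fun s : ℝ => 1 - s ^ 2) (-(2 * s)) s := by
      have := (hasDerivAt_pow 2 s).const_sub 1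
      refine this.congr_deriv ?_
      simp only [Nat.cast_ofNat, Nat.add_one_sub_one, pow_one]
    have e3 := e2.sqrt hpos.ne'
    have e4 := (hasDerivAt_id s).mul e3
    have e5 := (e1.add e4).div_const 2
    refine e5.congr_deriv ?_
    have hsq2 : √(1 - s ^ 2) ^ 2 = 1 - s ^ 2 := Real.sq_sqrt hpos.le
    simp only [id]
    field_simp
    rw [hsq2]
    ring
  have hcont : ContinuousOn (fun s : ℝ => (arcsin s + s * √(1 - s ^ 2)) / 2) (Icc 0 y) := by
    have : Continuous (fun s : ℝ => (arcsin s + s * √(1 - s ^ 2)) / 2) := by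
      have := Real.continuous_arcsin
      (clear * -; fun_prop)
    exact this.continuousOn
  have hint : IntervalIntegrable (fun s : ℝ => √(1 - s ^ 2)) volume 0 y := by
    have : Continuous (fun s : ℝ => √(1 - s ^ 2)) := by fun_prop
    exact this.intervalIntegrable _ _
  rw [intervalIntegral.integral_eq_sub_of_hasDerivAt_of_le h0 hcont hder hint]
  simp

/-- half angle substitution. -/
theorem exists_half_angle (y : ℝ) (h0 : 0 ≤ y) (h1 : y ≤ 1) :
    ∃ t : ℝ, 0 ≤ t ∧ t ≤ 1 ∧ √(1 - y ^ 2) = 2 * t / (1 + t ^ 2) ∧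
      y = (1 - t ^ 2) / (1 + t ^ 2) ∧ 4 * arctan t = π - 2 * arcsin y := by
  set θ := arccos y with hθ
  have hθ0 : 0 ≤ θ := arccos_nonneg y
  have hθ1 : θ ≤ π / 2 := arccos_le_pi_div_two.mpr h0
  have hpi := pi_pos
  have hc : cos θ = y := cos_arccos (by linarith only [h0]) h1
  have hs : sin θ = √(1 - y ^ 2) := by rw [hθ, sin_arccos]
  set c := cos (θ / 2) with hcdef
  set s := sin (θ / 2) with hsdef
  have hcpos : 0 < c := cos_pos_of_mem_Ioo ⟨by linarith only [hθ0, hpi], by linarith only [hθ1, hpi]⟩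
  have hs0 : 0 ≤ s := sin_nonneg_of_nonneg_of_le_pi (by linarith only [hθ0]) (by linarith only [hθ1, hpi])
  have hsc : s ^ 2 + c ^ 2 = 1 := sin_sq_add_cos_sq _
  have hsin : sin θ = 2 * s * c := by
    have := sin_two_mul (θ / 2)
    rw [show 2 * (θ / 2) = θ by ring] at this
    exact this
  have hcos : cos θ = c ^ 2 - s ^ 2 := by
    have := cos_two_mul (θ / 2)
    rw [show 2 * (θ / 2) = θ by ring] at this
    rw [this]
    linarith only [hsc]
  refine ⟨s / c, by (clear * - hs0 hcpos; (clear * - hs0 hcpos; positivity)), ?_, ?_, ?_, ?_⟩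
  · rw [div_le_one hcpos]
    have : s ^ 2 ≤ c ^ 2 := by
      have : 0 ≤ c ^ 2 - s ^ 2 := by rw [← hcos, hc]; exact h0
      linarith only [h0, hc, hcos]
    exact le_of_sq_le_sq this hcpos.le
  · rw [← hs, hsin]
    have h2 : 1 + (s / c) ^ 2 = 1 / c ^ 2 := by
      field_simp
      linarith only [hsc]
    rw [h2]
    (clear * - hcpos; field_simp)
  · rw [← hc, hcos]
    have h2 : 1 + (s / c) ^ 2 = 1 / c ^ 2 := by
      field_simp
      linarith only [hsc]
    rw [h2]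
    (clear * - hcpos; (clear * - hcpos; field_simp))
  · have h2 : s / c = tan (θ / 2) := (tan_eq_sin_div_cos _).symm
    rw [h2, arctan_tan (by linarith only [hθ0, hpi]) (by linarith only [hθ1, hpi]), hθ, arccos_eq_pi_div_two_sub_arcsin]
    ring

section

variable (p : ℝ → ℝ)

theorem intervalIntegrable_of_cont_bdd {f : ℝ → ℝ} (hf : ContinuousOn f (Ioo 0 1)) {C : ℝ}
    (hb : ∀ y ∈ Ioo (0:ℝ) 1, |f y| ≤ C) : IntervalIntegrable f volume 0 1 := by
  rw [intervalIntegrable_iff_integrableOn_Ioo_of_le zero_le_one]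
  refine Integrable.of_bound (hf.aestronglyMeasurable measurableSet_Ioo) C ?_
  rw [ae_restrict_iff' measurableSet_Ioo]
  exact Filter.Eventually.of_forall fun y hy => hb y hy

theorem concave_bdd {p : ℝ → ℝ} (hc : ConcaveOn ℝ (Icc 0 1) p) (hp : ∀ y ∈ Icc (0:ℝ) 1, 0 ≤ p y)
    (y : ℝ) (hy : y ∈ Icc (0:ℝ) 1) : p y ≤ 2 * p (1/2) := by
  have h1 : (1 - y) ∈ Icc (0:ℝ) 1 := ⟨by linarith only [hy.2], by linarith only [hy.1]⟩
  have := hc.2 hy h1 (by norm_num : (0:ℝ) ≤ 1/2) (by (clear * -; norm_num) : (0:ℝ) ≤ 1/2) (by norm_num)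
  simp only [smul_eq_mul] at this
  rw [show 1/2 * y + 1/2 * (1 - y) = 1/2 by ring] at this
  have h2 := hp _ h1
  linarith only [this, h2]

/-- lower bound for the primitive of `p` by concavity -/
theorem integral_ge_of_concave {p : ℝ → ℝ} (hc : ConcaveOn ℝ (Icc 0 1) p) (h0 : 1 ≤ p 0)
    (hint : IntervalIntegrable p volume 0 1)
    (y : ℝ) (hy0 : 0 < y) (hy1 : y ≤ 1) : y * (1 + p y) / 2 ≤ ∫ s in (0:ℝ)..y, p s := by
  have hint' : IntervalIntegrable p volume 0 y :=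
    hint.mono_set (by rw [uIcc_of_le hy0.le, uIcc_of_le zero_le_one]; exact Icc_subset_Icc_right hy1)
  have h1 : ∫ s in (0:ℝ)..y, (1 + (p y - 1) / y * s) = y * (1 + p y) / 2 := by
    rw [intervalIntegral.integral_add (by simp) (by
      exact (continuous_const.mul continuous_id).intervalIntegrable _ _)]
    rw [intervalIntegral.integral_const_mul]
    simp only [intervalIntegral.integral_const, integral_id, smul_eq_mul]
    field_simp
    ring
  rw [← h1]
  apply intervalIntegral.integral_mono_on hy0.le _ hint'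
  · intro s hs
    have e0 : 0 ≤ 1 - s / y := by rw [sub_nonneg, div_le_one hy0]; exact hs.2
    have e1 : 0 ≤ s / y := div_nonneg hs.1 hy0.le
    have e := hc.2 (⟨le_rfl, zero_le_one⟩ : (0:ℝ) ∈ Icc (0:ℝ) 1)
      (⟨hy0.le, hy1⟩ : y ∈ Icc (0:ℝ) 1) e0 e1 (by ring)
    simp only [smul_eq_mul] at e
    have e2 : (1 - s / y) * 0 + s / y * y = s := by field_simp; ring
    rw [e2] at e
    have e3 : (1 - s / y) * 1 ≤ (1 - s / y) * p 0 := mul_le_mul_of_nonneg_left h0 e0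
    have e4 : 1 + (p y - 1) / y * s = (1 - s / y) * 1 + s / y * p y := by field_simp; ring
    rw [e4]
    linarith only [e, e3]
  · exact (continuous_const.add (continuous_const.mul continuous_id)).intervalIntegrable _ _

/-- the kernel `D` -/
theorem D_pos {p : ℝ → ℝ} (hc : ConcaveOn ℝ (Icc 0 1) p)
    (hp : ∀ y ∈ Icc (0:ℝ) 1, √(1 - y ^ 2) ≤ p y)
    (hint : IntervalIntegrable p volume 0 1) (y : ℝ) (hy0 : 0 < y) (hy1 : y ≤ 1) :
    0 < π + 4 * (∫ s in (0:ℝ)..y, (p s - √(1 - s ^ 2))) -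
      (p y + √(1 - y ^ 2)) * (3 * π ^ 2 / 16 - 1/5 + y ^ 2 - (p y) ^ 2 / 5) := by
  have hint' : IntervalIntegrable p volume 0 y :=
    hint.mono_set (by rw [uIcc_of_le hy0.le, uIcc_of_le zero_le_one]; exact Icc_subset_Icc_right hy1)
  have hint2 : IntervalIntegrable (fun s : ℝ => √(1 - s ^ 2)) volume 0 y := by
    have : Continuous (fun s : ℝ => √(1 - s ^ 2)) := by (clear * -; fun_prop)
    exact this.intervalIntegrable _ _
  have h0 : 1 ≤ p 0 := by
    have := hp 0 ⟨le_rfl, zero_le_one⟩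
    simpa only [ge_iff_le, ne_eq, OfNat.ofNat_ne_zero, not_false_eq_true, zero_pow, sub_zero, sqrt_one] using this
  have hL := integral_ge_of_concave hc h0 hint y hy0 hy1
  rw [intervalIntegral.integral_sub hint' hint2, integral_sqrt_one_sub_sq_zero y hy0.le hy1]
  obtain ⟨t, ht0, ht1, hx, hy, ht⟩ := exists_half_angle y hy0.le hy1
  have hpy := hp y ⟨hy0.le, hy1⟩
  have hcore := core_ineq t (√(1 - y ^ 2)) y (p y) (3 * π ^ 2 / 16) ht0 ht1 hx hy kappa_le hpy
  rw [ht] at hcore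
  have hsq : √(1 - y ^ 2) ^ 2 = 1 - y ^ 2 := Real.sq_sqrt (by nlinarith only [hy1, hy0])
  rw [hsq] at hcore
  have : 3 * π ^ 2 / 16 + 4/5 - (1 - y ^ 2) - (p y) ^ 2 / 5 =
    3 * π ^ 2 / 16 - 1/5 + y ^ 2 - (p y) ^ 2 / 5 := by ring
  rw [this] at hcore
  (clear * - hL hcore; linarith)

theorem concave_contOn {p : ℝ → ℝ} (hc : ConcaveOn ℝ (Icc 0 1) p) : ContinuousOn p (Ioo 0 1) := by
  have := hc.continuousOn_interior
  rwa [interior_Icc] at this

/-- The main identity. -/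
theorem one_dim_identity {p : ℝ → ℝ} (hc : ConcaveOn ℝ (Icc 0 1) p)
    (hp : ∀ y ∈ Icc (0:ℝ) 1, √(1 - y ^ 2) ≤ p y) :
    IntervalIntegrable (fun y => (p y - √(1 - y ^ 2)) *
      (π + 4 * (∫ s in (0:ℝ)..y, (p s - √(1 - s ^ 2))) -
      (p y + √(1 - y ^ 2)) * (3 * π ^ 2 / 16 - 1/5 + y ^ 2 - (p y) ^ 2 / 5))) volume 0 1 ∧
    ∫ y in (0:ℝ)..1, (p y - √(1 - y ^ 2)) *
      (π + 4 * (∫ s in (0:ℝ)..y, (p s - √(1 - s ^ 2))) -
      (p y + √(1 - y ^ 2)) * (3 * π ^ 2 / 16 - 1/5 + y ^ 2 - (p y) ^ 2 / 5)) =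
    2 * (∫ y in (0:ℝ)..1, p y) ^ 2 - 3 * π ^ 2 / 16 * (∫ y in (0:ℝ)..1, p y ^ 2) +
      1/5 * ((∫ y in (0:ℝ)..1, p y ^ 4) - 4 * ∫ y in (0:ℝ)..1, y ^ 2 * p y ^ 2) := by
  have hp0 : ∀ y ∈ Icc (0:ℝ) 1, 0 ≤ p y := fun y hy => (Real.sqrt_nonneg _).trans (hp y hy)
  have hcont := concave_contOn hc
  set C : ℝ := 2 * p (1/2) with hC
  have hbd : ∀ y ∈ Ioo (0:ℝ) 1, p y ≤ C := fun y hy => concave_bdd hc hp0 y (Ioo_subset_Icc_self hy)
  have hnn : ∀ y ∈ Ioo (0:ℝ) 1, 0 ≤ p y := fun y hy => hp0 y (Ioo_subset_Icc_self hy)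
  have hC0 : 0 ≤ C := by
    have := hp0 (1/2) ⟨by (clear * -; norm_num), by (clear * -; norm_num)⟩
    (clear * - this; positivity)
  have hpowint : ∀ n : ℕ, IntervalIntegrable (fun y => p y ^ n) volume 0 1 := by
    intro n
    refine intervalIntegrable_of_cont_bdd (C := C ^ n) (hcont.pow n) ?_
    intro y hy
    rw [abs_of_nonneg (pow_nonneg (hnn y hy) n)]
    exact pow_le_pow_left₀ (hnn y hy) (hbd y hy) n
  have hpint : IntervalIntegrable p volume 0 1 := by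
    have := hpowint 1
    simpa using this
  have hsqc : Continuous (fun s : ℝ => √(1 - s ^ 2)) := by (clear * -; fun_prop)
  have hsqint : IntervalIntegrable (fun s : ℝ => √(1 - s ^ 2)) volume 0 1 :=
    hsqc.intervalIntegrable _ _
  set g : ℝ → ℝ := fun s => p s - √(1 - s ^ 2) with hg
  have hgint : IntervalIntegrable g volume 0 1 := hpint.sub hsqint
  have hgcont : ContinuousOn g (Ioo 0 1) := hcont.sub hsqc.continuousOn
  set L : ℝ → ℝ := fun y => ∫ s in (0:ℝ)..y, g s with hL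
  have hLcont : ContinuousOn L (Icc 0 1) := by
    have := intervalIntegral.continuousOn_primitive_interval (f := g) (μ := volume)
      (a := 0) (b := 1) (by
        rw [uIcc_of_le zero_le_one, ← intervalIntegrable_iff_integrableOn_Icc_of_le zero_le_one]
        exact hgint)
    rwa [uIcc_of_le zero_le_one] at this
  have hLder : ∀ y ∈ Ioo (0:ℝ) 1, HasDerivAt L (g y) y := by
    intro y hy
    refine intervalIntegral.integral_hasDerivAt_right
      (hgint.mono_set (by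
        rw [uIcc_of_le hy.1.le, uIcc_of_le zero_le_one]; exact Icc_subset_Icc_right hy.2.le))
      (hgcont.stronglyMeasurableAtFilter isOpen_Ioo y hy)
      (hgcont.continuousAt (isOpen_Ioo.mem_nhds hy))
  have hgLint : IntervalIntegrable (fun y => g y * L y) volume 0 1 :=
    hgint.mul_continuousOn (by rw [uIcc_of_le zero_le_one]; exact hLcont)
  have hgL : ∫ y in (0:ℝ)..1, g y * L y = (∫ s in (0:ℝ)..1, g s) ^ 2 / 2 := by
    have h1 : ∀ y ∈ Ioo (0:ℝ) 1, HasDerivAt (fun y => L y ^ 2 / 2) (g y * L y) y := by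
      intro y hy
      have := ((hLder y hy).pow 2).div_const 2
      refine this.congr_deriv ?_
      simp only [Nat.cast_ofNat, Nat.add_one_sub_one, pow_one]
      ring
    rw [intervalIntegral.integral_eq_sub_of_hasDerivAt_of_le zero_le_one
      ((hLcont.pow 2).div_const 2) h1 hgLint]
    simp [hL]
  have hG : ∫ s in (0:ℝ)..1, g s = (∫ y in (0:ℝ)..1, p y) - π / 4 := by
    rw [hg, intervalIntegral.integral_sub hpint hsqint,
      integral_sqrt_one_sub_sq_zero 1 zero_le_one le_rfl]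
    simp only [arcsin_one, one_pow, sub_self, sqrt_zero, mul_zero, add_zero, sub_right_inj]
    ring
  have hyp2 : IntervalIntegrable (fun y => y ^ 2 * p y ^ 2) volume 0 1 :=
    (hpowint 2).continuousOn_mul (by fun_prop)
  have hq : IntervalIntegrable (fun y : ℝ => (3 * π ^ 2 / 16) * (1 - y ^ 2) - 1/5 * (1 - y ^ 2) ^ 2
      + 4/5 * (y ^ 2 * (1 - y ^ 2))) volume 0 1 := by
    have : Continuous (fun y : ℝ => (3 * π ^ 2 / 16) * (1 - y ^ 2) - 1/5 * (1 - y ^ 2) ^ 2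
      + 4/5 * (y ^ 2 * (1 - y ^ 2))) := by (clear * -; (clear * -; fun_prop))
    exact this.intervalIntegrable _ _
  have hqv : ∫ y in (0:ℝ)..1, ((3 * π ^ 2 / 16) * (1 - y ^ 2) - 1/5 * (1 - y ^ 2) ^ 2
      + 4/5 * (y ^ 2 * (1 - y ^ 2))) = π ^ 2 / 8 := by
    have h1 : ∀ y ∈ uIcc (0:ℝ) 1, HasDerivAt (fun y : ℝ => (3 * π ^ 2 / 16) * (y - y ^ 3 / 3)
        - 1/5 * (y - 2 * y ^ 3 / 3 + y ^ 5 / 5) + 4/5 * (y ^ 3 / 3 - y ^ 5 / 5))
        ((3 * π ^ 2 / 16) * (1 - y ^ 2) - 1/5 * (1 - y ^ 2) ^ 2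
      + 4/5 * (y ^ 2 * (1 - y ^ 2))) y := by
      intro y _
      have e1 := hasDerivAt_id y
      have e3 := hasDerivAt_pow 3 y
      have e5 := hasDerivAt_pow 5 y
      have := (((e1.sub (e3.div_const 3)).const_mul (3 * π ^ 2 / 16)).sub
        (((e1.sub ((e3.const_mul 2).div_const 3)).add (e5.div_const 5)).const_mul (1/5))).add
        (((e3.div_const 3).sub (e5.div_const 5)).const_mul (4/5))
      refine this.congr_deriv ?_
      simp only [Nat.cast_ofNat, Nat.add_one_sub_one, ne_eq, OfNat.ofNat_ne_zero, not_false_eq_true, mul_div_cancel_left₀, one_div]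
      ring
    rw [intervalIntegral.integral_eq_sub_of_hasDerivAt h1 hq]
    ring
  have hpt : ∀ y ∈ Icc (0:ℝ) 1, g y *
      (π + 4 * L y - (p y + √(1 - y ^ 2)) * (3 * π ^ 2 / 16 - 1/5 + y ^ 2 - (p y) ^ 2 / 5)) =
      (π * g y + 4 * (g y * L y)) + ((-(3 * π ^ 2 / 16)) * p y ^ 2 + 1/5 * p y ^ 4 -
        4/5 * (y ^ 2 * p y ^ 2)) + ((3 * π ^ 2 / 16) * (1 - y ^ 2) - 1/5 * (1 - y ^ 2) ^ 2
      + 4/5 * (y ^ 2 * (1 - y ^ 2))) := by
    intro y hy
    have hsq : √(1 - y ^ 2) ^ 2 = 1 - y ^ 2 := Real.sq_sqrt (by nlinarith only [hy.1, hy.2])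
    have h1 : g y * (p y + √(1 - y ^ 2)) = p y ^ 2 - (1 - y ^ 2) := by
      rw [hg]; simp only; linear_combination (-1) * hsq
    calc _ = π * g y + 4 * (g y * L y) - (g y * (p y + √(1 - y ^ 2))) *
          (3 * π ^ 2 / 16 - 1/5 + y ^ 2 - (p y) ^ 2 / 5) := by ring
      _ = _ := by rw [h1]; ring
  have hI1 : IntervalIntegrable (fun y => π * g y + 4 * (g y * L y)) volume 0 1 :=
    (hgint.const_mul _).add (hgLint.const_mul _)
  have hI2 : IntervalIntegrable (fun y => (-(3 * π ^ 2 / 16)) * p y ^ 2 + 1/5 * p y ^ 4 -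
        4/5 * (y ^ 2 * p y ^ 2)) volume 0 1 :=
    (((hpowint 2).const_mul _).add ((hpowint 4).const_mul _)).sub (hyp2.const_mul _)
  have heq : EqOn (fun y => g y *
      (π + 4 * L y - (p y + √(1 - y ^ 2)) * (3 * π ^ 2 / 16 - 1/5 + y ^ 2 - (p y) ^ 2 / 5)))
      (fun y => (π * g y + 4 * (g y * L y)) + ((-(3 * π ^ 2 / 16)) * p y ^ 2 + 1/5 * p y ^ 4 -
        4/5 * (y ^ 2 * p y ^ 2)) + ((3 * π ^ 2 / 16) * (1 - y ^ 2) - 1/5 * (1 - y ^ 2) ^ 2
      + 4/5 * (y ^ 2 * (1 - y ^ 2)))) (uIcc 0 1) := by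
    intro y hy
    rw [uIcc_of_le zero_le_one] at hy
    exact hpt y hy
  constructor
  · refine ((hI1.add hI2).add hq).congr_uIoo ?_
    intro y hy
    rw [uIoo_of_le zero_le_one] at hy
    exact (hpt y (Ioo_subset_Icc_self hy)).symm
  · rw [intervalIntegral.integral_congr heq, intervalIntegral.integral_add (hI1.add hI2) hq, hqv,
      intervalIntegral.integral_add hI1 hI2,
      intervalIntegral.integral_add (hgint.const_mul _) (hgLint.const_mul _),
      intervalIntegral.integral_sub (((hpowint 2).const_mul _).add ((hpowint 4).const_mul _))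
        (hyp2.const_mul _),
      intervalIntegral.integral_add ((hpowint 2).const_mul _) ((hpowint 4).const_mul _)]
    simp only [intervalIntegral.integral_const_mul]
    rw [hgL, hG]
    ring

/-- **One-dimensional lemma on `[0,1]`.** -/
theorem one_dim_S {p : ℝ → ℝ} (hc : ConcaveOn ℝ (Icc 0 1) p)
    (hp : ∀ y ∈ Icc (0:ℝ) 1, √(1 - y ^ 2) ≤ p y)
    (hS : ∫ y in (0:ℝ)..1, p y ^ 4 ≤ 4 * ∫ y in (0:ℝ)..1, y ^ 2 * p y ^ 2) :
    3 * π ^ 2 / 32 * (∫ y in (0:ℝ)..1, p y ^ 2) ≤ (∫ y in (0:ℝ)..1, p y) ^ 2 := by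
  obtain ⟨hint, hid⟩ := one_dim_identity hc hp
  have hpint : IntervalIntegrable p volume 0 1 := by
    refine intervalIntegrable_of_cont_bdd (C := 2 * p (1/2)) (concave_contOn hc) ?_
    intro y hy
    have hp0 : ∀ y ∈ Icc (0:ℝ) 1, 0 ≤ p y := fun y hy => (Real.sqrt_nonneg _).trans (hp y hy)
    rw [abs_of_nonneg (hp0 y (Ioo_subset_Icc_self hy))]
    exact concave_bdd hc hp0 y (Ioo_subset_Icc_self hy)
  have hnn : 0 ≤ ∫ y in (0:ℝ)..1, (p y - √(1 - y ^ 2)) *
      (π + 4 * (∫ s in (0:ℝ)..y, (p s - √(1 - s ^ 2))) -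
      (p y + √(1 - y ^ 2)) * (3 * π ^ 2 / 16 - 1/5 + y ^ 2 - (p y) ^ 2 / 5)) := by
    rw [intervalIntegral.integral_of_le zero_le_one, integral_Ioc_eq_integral_Ioo]
    apply setIntegral_nonneg measurableSet_Ioo
    intro y hy
    exact mul_nonneg (sub_nonneg.mpr (hp y (Ioo_subset_Icc_self hy)))
      (D_pos hc hp hpint y hy.1 hy.2.le).le
  rw [hid] at hnn
  linarith only [hS, hnn]

/-- **Strict form of the one-dimensional lemma on `[0,1]`.** -/
theorem one_dim_S_strict {p : ℝ → ℝ} (hc : ConcaveOn ℝ (Icc 0 1) p)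
    (hp : ∀ y ∈ Icc (0:ℝ) 1, √(1 - y ^ 2) ≤ p y)
    (hS : ∫ y in (0:ℝ)..1, p y ^ 4 ≤ 4 * ∫ y in (0:ℝ)..1, y ^ 2 * p y ^ 2)
    (hne : 2 / 3 < ∫ y in (0:ℝ)..1, p y ^ 2) :
    3 * π ^ 2 / 32 * (∫ y in (0:ℝ)..1, p y ^ 2) < (∫ y in (0:ℝ)..1, p y) ^ 2 := by
  obtain ⟨hint, hid⟩ := one_dim_identity hc hp
  have hp0 : ∀ y ∈ Icc (0:ℝ) 1, 0 ≤ p y := fun y hy => (Real.sqrt_nonneg _).trans (hp y hy)
  have hpint : IntervalIntegrable p volume 0 1 := by
    refine intervalIntegrable_of_cont_bdd (C := 2 * p (1/2)) (concave_contOn hc) ?_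
    intro y hy
    rw [abs_of_nonneg (hp0 y (Ioo_subset_Icc_self hy))]
    exact concave_bdd hc hp0 y (Ioo_subset_Icc_self hy)
  have hDpos : ∀ y ∈ Ioo (0:ℝ) 1, 0 < (π + 4 * (∫ s in (0:ℝ)..y, (p s - √(1 - s ^ 2))) -
      (p y + √(1 - y ^ 2)) * (3 * π ^ 2 / 16 - 1/5 + y ^ 2 - (p y) ^ 2 / 5)) :=
    fun y hy => D_pos hc hp hpint y hy.1 hy.2.le
  -- a point where `p` is strictly above the half circle
  obtain ⟨y₀, hy₀, hlt⟩ : ∃ y ∈ Ioo (0:ℝ) 1, √(1 - y ^ 2) < p y := by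
    by_contra hcon
    push Not at hcon
    have h1 : ∫ y in (0:ℝ)..1, p y ^ 2 = ∫ y in (0:ℝ)..1, (1 - y ^ 2) := by
      rw [intervalIntegral.integral_of_le zero_le_one, integral_Ioc_eq_integral_Ioo,
        intervalIntegral.integral_of_le zero_le_one, integral_Ioc_eq_integral_Ioo]
      refine setIntegral_congr_fun measurableSet_Ioo ?_
      intro y hy
      simp only
      rw [le_antisymm (hcon y hy) (hp y (Ioo_subset_Icc_self hy))]
      exact Real.sq_sqrt (by nlinarith only [hy.1, hy.2])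
    have h2 : ∫ y in (0:ℝ)..1, (1 - y ^ 2) = 2 / 3 := by
      rw [intervalIntegral.integral_sub (by simp) (by
        exact (continuous_pow 2).intervalIntegrable _ _)]
      simp
      (clear * -; norm_num)
    rw [h1, h2] at hne
    exact lt_irrefl _ hne
  have hpos : 0 < ∫ y in (0:ℝ)..1, (p y - √(1 - y ^ 2)) *
      (π + 4 * (∫ s in (0:ℝ)..y, (p s - √(1 - s ^ 2))) -
      (p y + √(1 - y ^ 2)) * (3 * π ^ 2 / 16 - 1/5 + y ^ 2 - (p y) ^ 2 / 5)) := by
    rw [intervalIntegral.integral_of_le zero_le_one, integral_Ioc_eq_integral_Ioo]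
    rw [setIntegral_pos_iff_support_of_nonneg_ae]
    · have hcont : ContinuousOn (fun y => p y - √(1 - y ^ 2)) (Ioo 0 1) :=
        (concave_contOn hc).sub (by fun_prop)
      have hopen : IsOpen (Ioo (0:ℝ) 1 ∩ (fun y => p y - √(1 - y ^ 2)) ⁻¹' (Ioi 0)) :=
        hcont.isOpen_inter_preimage isOpen_Ioo isOpen_Ioi
      refine lt_of_lt_of_le (hopen.measure_pos volume ⟨y₀, hy₀, ?_⟩) (measure_mono ?_)
      · simpa using hlt
      · intro y hy
        refine ⟨?_, hy.1⟩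
        rw [Function.mem_support]
        have h1 : 0 < p y - √(1 - y ^ 2) := hy.2
        exact (mul_pos h1 (hDpos y hy.1)).ne'
    · rw [Filter.EventuallyLE, ae_restrict_iff' measurableSet_Ioo]
      refine Filter.Eventually.of_forall fun y hy => ?_
      exact mul_nonneg (sub_nonneg.mpr (hp y (Ioo_subset_Icc_self hy))) (hDpos y hy).le
    · rw [intervalIntegrable_iff_integrableOn_Ioo_of_le zero_le_one] at hint
      exact hint
  rw [hid] at hpos
  linarith only [hS, hpos]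

end

section even

theorem integral_even_eq {f : ℝ → ℝ} (he : ∀ y, f (-y) = f y) (hf : IntervalIntegrable f volume 0 1) :
    ∫ y in (-1:ℝ)..1, f y = 2 * ∫ y in (0:ℝ)..1, f y := by
  have h1 : ∫ y in (-1:ℝ)..0, f y = ∫ y in (0:ℝ)..1, f y := by
    have := intervalIntegral.integral_comp_neg (a := (0:ℝ)) (b := 1) f
    simp only [he, neg_zero] at this
    exact this.symm
  have h2 : IntervalIntegrable f volume (-1) 0 := by
    have := (IntervalIntegrable.iff_comp_neg (f := f) (a := 0) (b := 1)).mp hf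
    simp only [he, neg_zero] at this
    exact this.symm
  rw [← intervalIntegral.integral_add_adjacent_intervals h2 hf, h1]
  ring

variable {p : ℝ → ℝ}

theorem pow_intervalIntegrable (hc : ConcaveOn ℝ (Icc 0 1) p)
    (hp0 : ∀ y ∈ Icc (0:ℝ) 1, 0 ≤ p y) (n : ℕ) : IntervalIntegrable (fun y => p y ^ n) volume 0 1 := by
  refine intervalIntegrable_of_cont_bdd (C := (2 * p (1/2)) ^ n) ((concave_contOn hc).pow n) ?_
  intro y hy
  have hy' := Ioo_subset_Icc_self hy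
  rw [abs_of_nonneg (pow_nonneg (hp0 y hy') n)]
  exact pow_le_pow_left₀ (hp0 y hy') (concave_bdd hc hp0 y hy') n

/-- **One-dimensional lemma for even functions on `[-1,1]`.** -/
theorem one_dim_even (hc : ConcaveOn ℝ (Icc (-1) 1) p) (he : ∀ y, p (-y) = p y)
    (hge : ∀ y ∈ Icc (-1 : ℝ) 1, √(1 - y ^ 2) ≤ p y)
    (hm : ∫ y in (-1 : ℝ)..1, p y ^ 4 ≤ 4 * ∫ y in (-1 : ℝ)..1, y ^ 2 * p y ^ 2) :
    3 * π ^ 2 / 16 * ∫ y in (-1 : ℝ)..1, p y ^ 2 ≤ (∫ y in (-1 : ℝ)..1, p y) ^ 2 := by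
  have hc' : ConcaveOn ℝ (Icc 0 1) p :=
    hc.subset (Icc_subset_Icc_left (by norm_num)) (convex_Icc 0 1)
  have hp' : ∀ y ∈ Icc (0 : ℝ) 1, √(1 - y ^ 2) ≤ p y :=
    fun y hy => hge y ⟨by linarith only [hy.1], hy.2⟩
  have hp0 : ∀ y ∈ Icc (0:ℝ) 1, 0 ≤ p y := fun y hy => (Real.sqrt_nonneg _).trans (hp' y hy)
  have hint := pow_intervalIntegrable hc' hp0
  have hint1 : IntervalIntegrable p volume 0 1 := by simpa using hint 1
  have hyp2 : IntervalIntegrable (fun y => y ^ 2 * p y ^ 2) volume 0 1 :=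
    (hint 2).continuousOn_mul (by fun_prop)
  rw [integral_even_eq (by intro y; simp [he]) (hint 4),
    integral_even_eq (by intro y; simp only [even_two, Even.neg_pow, he]) hyp2] at hm
  rw [integral_even_eq (by intro y; simp [he]) (hint 2), integral_even_eq he hint1]
  have := one_dim_S hc' hp' (by linarith only [hm])
  linarith

/-- **Strict form for even functions on `[-1,1]`.** -/
theorem one_dim_even_strict (hc : ConcaveOn ℝ (Icc (-1) 1) p) (he : ∀ y, p (-y) = p y)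
    (hge : ∀ y ∈ Icc (-1 : ℝ) 1, √(1 - y ^ 2) ≤ p y)
    (hm : ∫ y in (-1 : ℝ)..1, p y ^ 4 ≤ 4 * ∫ y in (-1 : ℝ)..1, y ^ 2 * p y ^ 2)
    (hs : 4 / 3 < ∫ y in (-1 : ℝ)..1, p y ^ 2) :
    3 * π ^ 2 / 16 * ∫ y in (-1 : ℝ)..1, p y ^ 2 < (∫ y in (-1 : ℝ)..1, p y) ^ 2 := by
  have hc' : ConcaveOn ℝ (Icc 0 1) p :=
    hc.subset (Icc_subset_Icc_left (by norm_num)) (convex_Icc 0 1)
  have hp' : ∀ y ∈ Icc (0 : ℝ) 1, √(1 - y ^ 2) ≤ p y :=
    fun y hy => hge y ⟨by linarith only [hy.1], hy.2⟩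
  have hp0 : ∀ y ∈ Icc (0:ℝ) 1, 0 ≤ p y := fun y hy => (Real.sqrt_nonneg _).trans (hp' y hy)
  have hint := pow_intervalIntegrable hc' hp0
  have hint1 : IntervalIntegrable p volume 0 1 := by simpa using hint 1
  have hyp2 : IntervalIntegrable (fun y => y ^ 2 * p y ^ 2) volume 0 1 :=
    (hint 2).continuousOn_mul (by fun_prop)
  rw [integral_even_eq (by intro y; simp [he]) (hint 4),
    integral_even_eq (by intro y; simp only [even_two, Even.neg_pow, he]) hyp2] at hm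
  rw [integral_even_eq (by intro y; simp [he]) (hint 2)] at hs
  rw [integral_even_eq (by intro y; simp [he]) (hint 2), integral_even_eq he hint1]
  have := one_dim_S_strict hc' hp' (by linarith only [hm]) (by linarith only [hs])
  linarith

end even

end Vale.Agent.P237
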