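import Vale.Agent.P237.Fubini
import Vale.Agent.P237.BM

/-!
# P237-F1: slices of convex bodies
-/

open MeasureTheory Metric Set Module
open scoped Pointwise

namespace Vale.Agent.P237

variable {V : Type*} [NormedAddCommGroup V] [InnerProductSpace ℝ V] [FiniteDimensional ℝ V]
  [MeasurableSpace V] [BorelSpace V]

omit [MeasurableSpace V] [BorelSpace V] in
theorem slice_isCompact {K : Set V} (hK : IsCompact K) (u : V) (y : ℝ) :
    IsCompact (slice K u y) := by
  have h1 : Topology.IsClosedEmbedding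
      (fun z : ((ℝ ∙ u)ᗮ : Submodule ℝ V) => (z : V) + y • u) := by
    have h2 : Topology.IsClosedEmbedding (Subtype.val : ((ℝ ∙ u)ᗮ : Submodule ℝ V) → V) :=
      (Submodule.closed_of_finiteDimensional _).isClosedEmbedding_subtypeVal
    exact (Homeomorph.addRight (y • u)).isClosedEmbedding.comp h2
  exact h1.isCompact_preimage hK

omit [FiniteDimensional ℝ V] [MeasurableSpace V] [BorelSpace V] in
theorem slice_combo_subset {K : Set V} (hK : Convex ℝ K) (u : V) (y z : ℝ) {a b : ℝ}
    (ha : 0 ≤ a) (hb : 0 ≤ b) (hab : a + b = 1) :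
    a • slice K u y + b • slice K u z ⊆ slice K u (a * y + b * z) := by
  rintro _ ⟨_, ⟨p, hp, rfl⟩, _, ⟨q, hq, rfl⟩, rfl⟩
  have h := hK hp hq ha hb hab
  show ((a • p + b • q : ((ℝ ∙ u)ᗮ : Submodule ℝ V)) : V) + (a * y + b * z) • u ∈ K
  have e : ((a • p + b • q : ((ℝ ∙ u)ᗮ : Submodule ℝ V)) : V) + (a * y + b * z) • u
      = a • ((p : V) + y • u) + b • ((q : V) + z • u) := by
    push_cast
    module
  rw [e]
  exact h

omit [FiniteDimensional ℝ V] [MeasurableSpace V] [BorelSpace V] in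
theorem slice_convex {K : Set V} (hK : Convex ℝ K) (u : V) (y : ℝ) :
    Convex ℝ (slice K u y) := by
  intro p hp q hq a b ha hb hab
  have h := slice_combo_subset hK u y y ha hb hab
  have e : a * y + b * y = y := by rw [← add_mul, hab, one_mul]
  rw [e] at h
  exact h (add_mem_add (smul_mem_smul_set hp) (smul_mem_smul_set hq))

omit [FiniteDimensional ℝ V] [MeasurableSpace V] [BorelSpace V] in
theorem slice_neg {K : Set V} (hs : ∀ x ∈ K, -x ∈ K) (u : V) (y : ℝ) :
    slice K u (-y) = -slice K u y := by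
  have key : ∀ (t : ℝ) (z : ((ℝ ∙ u)ᗮ : Submodule ℝ V)), z ∈ slice K u t → -z ∈ slice K u (-t) := by
    intro t z hz
    have h := hs _ hz
    show ((-z : ((ℝ ∙ u)ᗮ : Submodule ℝ V)) : V) + (-t) • u ∈ K
    have e : ((-z : ((ℝ ∙ u)ᗮ : Submodule ℝ V)) : V) + (-t) • u = -((z : V) + t • u) := by
      push_cast
      module
    rw [e]
    exact h
  ext z
  constructor
  · intro hz
    have := key _ _ hz
    rw [neg_neg] at this
    exact Set.mem_neg.2 this
  · intro hz
    have := key _ _ (Set.mem_neg.1 hz)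
    rwa [neg_neg] at this

theorem slice_vol_even {K : Set V} (hK : IsSymBody K) {u : V} (hu : ‖u‖ = 1) (y : ℝ) :
    vol (slice K u (-y)) = vol (slice K u y) := by
  rw [slice_neg hK.symm]
  unfold vol
  rw [Measure.measure_neg]

omit [MeasurableSpace V] [BorelSpace V] in
theorem finrank_perp (hd : finrank ℝ V = 3) {u : V} (hu : ‖u‖ = 1) :
    finrank ℝ ((ℝ ∙ u)ᗮ : Submodule ℝ V) = 2 := by
  have hu0 : u ≠ 0 := by
    rintro rfl
    simp at hu
  have : Fact (finrank ℝ V = 2 + 1) := ⟨hd⟩
  exact Submodule.finrank_orthogonal_span_singleton hu0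

omit [FiniteDimensional ℝ V] [MeasurableSpace V] [BorelSpace V] in
theorem closedBall_subset_slice {K : Set V} (hb : closedBall (0 : V) 1 ⊆ K) {u : V} (hu : ‖u‖ = 1)
    {y : ℝ} (hy : |y| ≤ 1) :
    closedBall (0 : ((ℝ ∙ u)ᗮ : Submodule ℝ V)) (Real.sqrt (1 - y ^ 2)) ⊆ slice K u y := by
  intro z hz
  apply hb
  rw [mem_closedBall_zero_iff] at hz ⊢
  have h0 : 0 ≤ 1 - y ^ 2 := by
    nlinarith [abs_nonneg y, sq_abs y]
  have h1 : ‖(z : V) + y • u‖ ^ 2 = ‖z‖ ^ 2 + y ^ 2 := by
    have horth : inner ℝ (z : V) (y • u) = 0 := by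
      rw [inner_smul_right, real_inner_comm,
        Submodule.mem_orthogonal_singleton_iff_inner_right.mp z.2, mul_zero]
    have := norm_add_sq_eq_norm_sq_add_norm_sq_real horth
    rw [norm_smul, hu, mul_one, Real.norm_eq_abs] at this
    rw [sq, this, Submodule.coe_norm, abs_mul_abs_self]
    ring
  have h2 : ‖z‖ ^ 2 ≤ 1 - y ^ 2 := by
    calc ‖z‖ ^ 2 ≤ (Real.sqrt (1 - y ^ 2)) ^ 2 := by (clear * - hz; gcongr)
      _ = _ := Real.sq_sqrt h0
  have h3 : ‖(z : V) + y • u‖ ^ 2 ≤ 1 := by rw [h1]; linarith only [h2]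
  exact abs_le_one_iff_mul_self_le_one.2 (by linarith) |>.trans' (le_abs_self _)

theorem slice_sqrt_concave (hd : finrank ℝ V = 3) {K : Set V} (hK : IsBody K)
    (hb : closedBall (0 : V) 1 ⊆ K) {u : V} (hu : ‖u‖ = 1) :
    ConcaveOn ℝ (Icc (-1) 1) (fun y => Real.sqrt (vol (slice K u y))) := by
  have hne : ∀ y ∈ Icc (-1 : ℝ) 1, (slice K u y).Nonempty := by
    intro y hy
    refine ⟨0, closedBall_subset_slice hb hu (abs_le.2 hy) ?_⟩
    rw [mem_closedBall_zero_iff, norm_zero]
    exact Real.sqrt_nonneg _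
  have h2 := finrank_perp hd hu
  refine ⟨convex_Icc _ _, ?_⟩
  intro y hy z hz a b ha hb' hab
  have hKc := hK.compact
  have bm := brunn_minkowski (V := ((ℝ ∙ u)ᗮ : Submodule ℝ V))
    ((slice_isCompact hKc u y).smul a) ((slice_isCompact hKc u z).smul b)
    ((hne y hy).smul_set) ((hne z hz).smul_set) (by omega)
  rw [h2, vol_smul_set, vol_smul_set, h2] at bm
  simp only [Nat.cast_ofNat] at bm
  rw [← Real.sqrt_eq_rpow, ← Real.sqrt_eq_rpow, ← Real.sqrt_eq_rpow,
    Real.sqrt_mul (by positivity), Real.sqrt_mul (by (clear * -; positivity)), Real.sqrt_sq (abs_nonneg _),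
    Real.sqrt_sq (abs_nonneg _), abs_of_nonneg ha, abs_of_nonneg hb'] at bm
  simp only [smul_eq_mul]
  refine bm.trans (Real.sqrt_le_sqrt ?_)
  exact vol_mono (slice_isCompact hKc u _) (slice_combo_subset hK.convex u y z ha hb' hab)

theorem slice_ge (hd : finrank ℝ V = 3) {K : Set V} (hK : IsBody K)
    (hb : closedBall (0 : V) 1 ⊆ K) {u : V} (hu : ‖u‖ = 1) {y : ℝ} (hy : |y| ≤ 1) :
    Real.pi * (1 - y ^ 2) ≤ vol (slice K u y) := by
  have h2 := finrank_perp hd hu
  have h0 : 0 ≤ 1 - y ^ 2 := by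
    (clear * - hy; nlinarith [abs_nonneg y, sq_abs y])
  have h := vol_mono (slice_isCompact hK.compact u y) (closedBall_subset_slice hb hu hy)
  refine le_trans (le_of_eq ?_) h
  have : Nontrivial ((ℝ ∙ u)ᗮ : Submodule ℝ V) :=
    Module.nontrivial_of_finrank_pos (R := ℝ) (by omega)
  unfold vol
  rw [InnerProductSpace.volume_closedBall_of_dim_even (k := 1) (by omega), h2]
  rw [ENNReal.toReal_mul, ENNReal.toReal_pow, ENNReal.toReal_ofReal (Real.sqrt_nonneg _),
    Real.sq_sqrt h0, ENNReal.toReal_ofReal (by positivity)]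
  simp only [pow_one, Nat.factorial_one, Nat.cast_one, div_one]
  ring

theorem integral_slice {K : Set V} (hK : IsCompact K) {u : V} (hu : ‖u‖ = 1) (g : ℝ → ℝ)
    (hg : Continuous g) :
    ∫ x in K, g (inner ℝ x u) = ∫ y : ℝ, g y * vol (slice K u y) := by
  have hm : MeasurableSet K := hK.measurableSet
  rw [← integral_indicator hm, integral_eq_integral_prod u hu]
  have hint : Integrable (fun x : V => K.indicator (fun x => g (inner ℝ x u)) x) := by
    rw [integrable_indicator_iff hm]
    exact (hg.comp (continuous_id.inner continuous_const)).continuousOn.integrableOn_compact hK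
  have hint2 : Integrable (fun p : ℝ × ((ℝ ∙ u)ᗮ : Submodule ℝ V) =>
      K.indicator (fun x => g (inner ℝ x u)) ((p.2 : V) + p.1 • u)) := by
    have := ((prodEquiv_measurePreserving u hu).integrable_comp_emb
      (prodEquiv u hu).measurableEmbedding).2 hint
    refine this.congr (Filter.Eventually.of_forall fun p => ?_)
    simp only [Function.comp, prodEquiv_apply]
  rw [Measure.volume_eq_prod] at hint2 ⊢
  rw [integral_prod _ hint2]
  refine integral_congr_ae (Filter.Eventually.of_forall fun y => ?_)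
  show ∫ z : ((ℝ ∙ u)ᗮ : Submodule ℝ V), K.indicator (fun x => g (inner ℝ x u)) ((z : V) + y • u)
    = g y * vol (slice K u y)
  have e : (fun z : ((ℝ ∙ u)ᗮ : Submodule ℝ V) =>
      K.indicator (fun x => g (inner ℝ x u)) ((z : V) + y • u)) =
      (slice K u y).indicator (fun _ => g y) := by
    funext z
    by_cases hz : (z : V) + y • u ∈ K
    · rw [indicator_of_mem hz, indicator_of_mem (show z ∈ slice K u y from hz),
        inner_prod_point hu]
    · rw [indicator_of_notMem hz, indicator_of_notMem (show z ∉ slice K u y from hz)]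
  rw [e, integral_indicator (slice_isCompact hK u y).measurableSet, setIntegral_const,
    smul_eq_mul, mul_comm]
  rfl

end Vale.Agent.P237
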