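import Vale.Agent.P237.Seg
import Vale.Agent.P237.Slices

/-!
# P237-F2, part 1: the planar formula for `beta`, slices of `K + [0,w]`, Riemann sums
-/

open MeasureTheory Metric Set Module
open scoped Pointwise

namespace Vale.Agent.P237

section General

variable {V : Type*} [NormedAddCommGroup V] [InnerProductSpace ℝ V] [FiniteDimensional ℝ V]
  [MeasurableSpace V] [BorelSpace V]

omit [FiniteDimensional ℝ V] [MeasurableSpace V] [BorelSpace V] in
theorem le_supp {K : Set V} (hK : IsCompact K) (v : V) {x : V} (hx : x ∈ K) :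
    inner ℝ x v ≤ supp K v := by
  have hc : Continuous (fun x : V => inner ℝ x v) := continuous_id.inner continuous_const
  exact le_csSup (hK.image hc).bddAbove (mem_image_of_mem _ hx)

omit [FiniteDimensional ℝ V] [MeasurableSpace V] [BorelSpace V] in
theorem exists_supp {K : Set V} (hK : IsCompact K) (hne : K.Nonempty) (v : V) :
    ∃ x ∈ K, inner ℝ x v = supp K v := by
  have hc : Continuous (fun x : V => inner ℝ x v) := continuous_id.inner continuous_const
  have h := (hK.image hc).sSup_mem (hne.image _)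
  exact h

/-- the width of a compact interval -/
theorem volume_compact_convex {S : Set ℝ} (hS : IsCompact S) (hc : Convex ℝ S)
    (hne : S.Nonempty) : volume S = ENNReal.ofReal (sSup S - sInf S) := by
  have h1 : S = Icc (sInf S) (sSup S) := by
    apply Subset.antisymm
    · intro x hx
      exact ⟨csInf_le hS.bddBelow hx, le_csSup hS.bddAbove hx⟩
    · exact hc.ordConnected.out (hS.sInf_mem hne) (hS.sSup_mem hne)
  conv_lhs => rw [h1]
  rw [Real.volume_Icc]

omit [FiniteDimensional ℝ V] [MeasurableSpace V] [BorelSpace V] in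
theorem sInf_image_inner {K : Set V} (v : V) :
    sInf ((fun x => inner ℝ x v) '' K) = - supp K (-v) := by
  unfold supp
  have : (fun x : V => inner ℝ x (-v)) '' K = -((fun x : V => inner ℝ x v) '' K) := by
    rw [← Set.image_neg_eq_neg, image_image]
    simp only [inner_neg_right]
  rw [this, Real.sInf_def]

/-- The planar formula: the shadow of a compact convex set along a unit vector `e` is its width
in the orthogonal direction. -/
theorem shadow_plane (h2 : finrank ℝ V = 2) {C : Set V} (hC : IsCompact C) (hc : Convex ℝ C)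
    (hne : C.Nonempty) {e f : V} (he : ‖e‖ = 1) (hf : ‖f‖ = 1) (hef : inner ℝ e f = 0) :
    shadow C e = supp C f + supp C (-f) := by
  have he0 : e ≠ 0 := by
    rintro rfl
    simp at he
  have : Fact (finrank ℝ V = 1 + 1) := ⟨h2⟩
  have h1 : finrank ℝ ((ℝ ∙ e)ᗮ : Submodule ℝ V) = 1 :=
    Submodule.finrank_orthogonal_span_singleton he0
  have hfm : f ∈ ((ℝ ∙ e)ᗮ : Submodule ℝ V) :=
    Submodule.mem_orthogonal_singleton_iff_inner_right.mpr hef
  set f' : ((ℝ ∙ e)ᗮ : Submodule ℝ V) := ⟨f, hfm⟩ with hf'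
  have hf'1 : ‖f'‖ = 1 := hf
  set φ : ℝ ≃ₗᵢ[ℝ] ((ℝ ∙ e)ᗮ : Submodule ℝ V) :=
    (LinearIsometry.toSpanSingleton ℝ ((ℝ ∙ e)ᗮ : Submodule ℝ V) hf'1).toLinearIsometryEquiv
      (by rw [h1, finrank_self]) with hφ
  have hφa : ∀ t : ℝ, φ t = t • f' := by
    intro t
    simp [hφ]
  have hproj : ∀ x : V, (ℝ ∙ e)ᗮ.orthogonalProjectionOnto x = (inner ℝ x f : ℝ) • f' := by
    intro x
    obtain ⟨t, ht⟩ := φ.surjective ((ℝ ∙ e)ᗮ.orthogonalProjectionOnto x)
    rw [← ht, hφa]
    congr 1
    have e1 := eq_prod_point he x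
    rw [← ht, hφa] at e1
    rw [e1, inner_add_left, inner_smul_left (𝕜 := ℝ) e, hef, mul_zero, add_zero]
    show t = inner ℝ (t • f) f
    rw [inner_smul_left, real_inner_self_eq_norm_sq, hf]
    simp
  have himg : (ℝ ∙ e)ᗮ.orthogonalProjectionOnto '' C = φ '' ((fun x => inner ℝ x f) '' C) := by
    rw [image_image]
    refine image_congr fun x _ => ?_
    rw [hproj, hφa]
  have hcont : Continuous (fun x : V => inner ℝ x f) := continuous_id.inner continuous_const
  have hcomp : IsCompact ((fun x : V => inner ℝ x f) '' C) := hC.image hcont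
  have hconv : Convex ℝ ((fun x : V => inner ℝ x f) '' C) :=
    hc.is_linear_image ⟨fun x y => inner_add_left _ _ _, fun r x => by
      simp [inner_smul_left]⟩
  have hvol : volume ((ℝ ∙ e)ᗮ.orthogonalProjectionOnto '' C) =
      volume ((fun x : V => inner ℝ x f) '' C) := by
    rw [himg, ← (φ.measurePreserving).measure_preimage
      (hcomp.image φ.continuous).measurableSet.nullMeasurableSet,
      preimage_image_eq _ φ.injective]
  unfold shadow
  have hsup : sSup ((fun x : V => inner ℝ x f) '' C) = supp C f := rfl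
  rw [hvol, volume_compact_convex hcomp hconv (hne.image _), sInf_image_inner, hsup,
    sub_neg_eq_add, ENNReal.toReal_ofReal]
  obtain ⟨x, hx⟩ := hne
  have := le_supp hC f hx
  have := le_supp hC (-f) hx
  rw [inner_neg_right] at this
  (clear hc e he hf hef he0 h1 hfm f' hf' hf'1 φ hφ hφa hproj himg hcont hcomp hconv hvol hsup; linarith)

omit [FiniteDimensional ℝ V] [MeasurableSpace V] [BorelSpace V] in
theorem supp_smul_nonneg {K : Set V} {t : ℝ} (ht : 0 ≤ t) (v : V) :
    supp K (t • v) = t * supp K v := by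
  unfold supp
  have : (fun x : V => inner ℝ x (t • v)) '' K = t • ((fun x : V => inner ℝ x v) '' K) := by
    rw [← Set.image_smul, image_image]
    simp only [inner_smul_right, smul_eq_mul]
  rw [this, Real.sSup_smul_of_nonneg ht, smul_eq_mul]

/-- Planar formula for `beta`. -/
theorem beta_plane (h2 : finrank ℝ V = 2) (J : V ≃ₗᵢ[ℝ] V) (hJ : ∀ w, inner ℝ w (J w) = 0)
    {C : Set V} (hC : IsCompact C) (hc : Convex ℝ C) (hne : C.Nonempty) (w : V) :
    beta C w = supp C (J w) + supp C (-(J w)) := by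
  by_cases hw : w = 0
  · subst hw
    rw [beta_zero, map_zero, neg_zero]
    have : supp C (0 : V) = 0 := by
      have := supp_smul_nonneg (K := C) (le_refl (0 : ℝ)) (0 : V)
      simpa using this
    rw [this, add_zero]
  · have hn : 0 < ‖w‖ := norm_pos_iff.2 hw
    have hu : ‖(‖w‖⁻¹ • w)‖ = 1 := norm_unit hw
    have hJu : J (‖w‖⁻¹ • w) = ‖w‖⁻¹ • J w := by simp
    have key := shadow_plane h2 hC hc hne hu (by rw [LinearIsometryEquiv.norm_map, hu])
      (hJ (‖w‖⁻¹ • w))
    have e1 : beta C w = ‖w‖ * shadow C (‖w‖⁻¹ • w) := by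
      have := beta_smul hC hc ‖w‖ (‖w‖⁻¹ • w)
      rw [norm_smul_unit hw, abs_of_pos hn, beta_unit hC hc hu] at this
      exact this
    rw [e1, key, hJu, ← smul_neg, supp_smul_nonneg (by (clear * - hw; positivity)),
      supp_smul_nonneg (by positivity)]
    field_simp

/-- The volumes of the slices are integrable. -/
theorem integrable_vol_slice {K : Set V} (hK : IsCompact K) {u : V} (hu : ‖u‖ = 1) :
    Integrable (fun y : ℝ => vol (slice K u y)) := by
  have hm : MeasurableSet (prodEquiv u hu ⁻¹' K) := (prodEquiv u hu).measurable hK.measurableSet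
  have hfin : (volume.prod volume : Measure (ℝ × ((ℝ ∙ u)ᗮ : Submodule ℝ V)))
      (prodEquiv u hu ⁻¹' K) ≠ ⊤ := by
    rw [← Measure.volume_eq_prod, (prodEquiv_measurePreserving u hu).measure_preimage
      hK.measurableSet.nullMeasurableSet]
    exact hK.measure_lt_top.ne
  have h := Measure.integrable_measure_prodMk_left hm hfin
  refine h.congr (Filter.Eventually.of_forall fun y => ?_)
  show (volume (Prod.mk y ⁻¹' (prodEquiv u hu ⁻¹' K))).toReal = vol (slice K u y)
  unfold vol
  congr 2
  ext z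
  simp only [mem_preimage, prodEquiv_apply, slice, mem_ofPred_eq]

theorem vol_eq_integral_slice {K : Set V} (hK : IsCompact K) {u : V} (hu : ‖u‖ = 1) :
    vol K = ∫ y : ℝ, vol (slice K u y) := by
  have h := integral_slice hK hu (fun _ => 1) continuous_const
  simp only [setIntegral_const, smul_eq_mul, mul_one, one_mul] at h
  exact h

omit [FiniteDimensional ℝ V] [MeasurableSpace V] [BorelSpace V] in
/-- slices of `K + [0,w]` for `w ⟂ u` -/
theorem slice_add_segment (K : Set V) (u : V) (y : ℝ) (w : ((ℝ ∙ u)ᗮ : Submodule ℝ V)) :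
    slice (K + segment ℝ 0 (w : V)) u y = slice K u y + segment ℝ 0 w := by
  ext z
  constructor
  · rintro ⟨a, ha, b, hb, hab⟩
    rw [segment_eq_image_smul] at hb
    obtain ⟨r, hr, rfl⟩ := hb
    refine ⟨z - r • w, ?_, r • w, ?_, by simp⟩
    · show ((z - r • w : ((ℝ ∙ u)ᗮ : Submodule ℝ V)) : V) + y • u ∈ K
      have : ((z - r • w : ((ℝ ∙ u)ᗮ : Submodule ℝ V)) : V) + y • u = a := by
        have hab' : a + r • (w : V) = (z : V) + y • u := hab
        push_cast
        rw [sub_add_eq_add_sub, ← hab']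
        simp only [add_sub_cancel_right]
      rw [this]
      exact ha
    · rw [segment_eq_image_smul]
      exact ⟨r, hr, rfl⟩
  · rintro ⟨a, ha, b, hb, rfl⟩
    rw [segment_eq_image_smul] at hb
    obtain ⟨r, hr, rfl⟩ := hb
    refine ⟨(a : V) + y • u, ha, r • (w : V), ?_, ?_⟩
    · rw [segment_eq_image_smul]
      exact ⟨r, hr, rfl⟩
    · push_cast
      abel

/-- `beta K w` is the integral of the `beta` of the slices. -/
theorem beta_eq_integral_slice {K : Set V} (hK : IsCompact K) {u : V} (hu : ‖u‖ = 1)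
    (w : ((ℝ ∙ u)ᗮ : Submodule ℝ V)) :
    beta K (w : V) = ∫ y : ℝ, beta (slice K u y) w := by
  have hKs : IsCompact (K + segment ℝ 0 (w : V)) := hK.add (isCompact_segment' _ _)
  unfold beta
  rw [vol_eq_integral_slice hKs hu, vol_eq_integral_slice hK hu,
    ← integral_sub (integrable_vol_slice hKs hu) (integrable_vol_slice hK hu)]
  simp only [slice_add_segment]

end General

section Riemann

theorem integral_eq_two_mul {f : ℝ → ℝ} {h : ℝ} (hh : 0 < h)
    (h0 : ∀ y, h < y → f y = 0) (he : ∀ y, f (-y) = f y) :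
    ∫ y : ℝ, f y = 2 * ∫ y in (0 : ℝ)..h, f y := by
  have h1 : (∫ y : ℝ, f y) = ∫ y : ℝ, f |y| := by
    refine integral_congr_ae (Filter.Eventually.of_forall fun y => ?_)
    rcases abs_choice y with h | h
    · simp only [h]
    · simp only [h, he]
  rw [h1, integral_comp_abs, intervalIntegral.integral_of_le hh.le]
  congr 1
  refine (setIntegral_eq_of_subset_of_forall_sdiff_eq_zero measurableSet_Ioi ?_ ?_)
  · exact Ioc_subset_Ioi_self
  · intro y hy
    refine h0 y ?_
    by_contra hcon
    exact hy.2 ⟨hy.1, not_lt.1 hcon⟩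

theorem antitone_scaled {f : ℝ → ℝ} {h : ℝ} (hh : 0 < h) (hf : AntitoneOn f (Icc 0 h))
    {m : ℕ} (hm : 0 < m) :
    AntitoneOn (fun s : ℝ => f (h / m * s)) (Icc (0 : ℝ) (0 + (m : ℝ))) := by
  have hm' : (0 : ℝ) < m := by exact_mod_cast hm
  have hc : 0 < h / m := by positivity
  have hmem : ∀ s ∈ Icc (0 : ℝ) (0 + (m : ℝ)), h / m * s ∈ Icc 0 h := by
    intro s hs
    refine ⟨mul_nonneg hc.le hs.1, ?_⟩
    have h2 : s ≤ m := by simpa only [zero_add] using hs.2
    calc h / m * s ≤ h / m * m := by gcongr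
      _ = h := by field_simp
  intro s hs t ht hst
  exact hf (hmem s hs) (hmem t ht) (by gcongr)

theorem integral_scaled {f : ℝ → ℝ} {h : ℝ} (hh : 0 < h) {m : ℕ} (hm : 0 < m) :
    ∫ y in (0 : ℝ)..h, f y = (h / m) * ∫ s in (0 : ℝ)..(0 + (m : ℝ)), f (h / m * s) := by
  have hm' : (0 : ℝ) < m := by exact_mod_cast hm
  have hc : 0 < h / m := by positivity
  rw [intervalIntegral.integral_comp_mul_left f hc.ne', smul_eq_mul, ← mul_assoc,
    mul_inv_cancel₀ hc.ne', one_mul, mul_zero, zero_add]
  congr 1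
  field_simp

/-- Lower Riemann sums for even functions, antitone on `[0,h]`. -/
theorem riemann_lower {f : ℝ → ℝ} {h : ℝ} (hh : 0 < h) (hf : AntitoneOn f (Icc 0 h))
    (h0 : ∀ y, h < y → f y = 0) (he : ∀ y, f (-y) = f y) {m : ℕ} (hm : 0 < m) :
    2 * (h / m) * ∑ j : Fin m, f (h / m * ((j : ℕ) + 1)) ≤ ∫ y : ℝ, f y := by
  have hm' : (0 : ℝ) < m := by exact_mod_cast hm
  have hc : 0 < h / m := by positivity
  rw [integral_eq_two_mul hh h0 he, integral_scaled hh hm, mul_assoc]
  have h1 := (antitone_scaled hh hf hm).sum_le_integral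
  rw [Finset.sum_range] at h1
  have h2 : ∑ j : Fin m, f (h / m * ((j : ℕ) + 1)) ≤
      ∫ s in (0 : ℝ)..(0 + (m : ℝ)), f (h / m * s) := by
    refine le_trans (le_of_eq ?_) h1
    refine Finset.sum_congr rfl fun j _ => ?_
    push_cast
    rw [zero_add]
  gcongr

theorem riemann_upper {f : ℝ → ℝ} {h : ℝ} (hh : 0 < h) (hf : AntitoneOn f (Icc 0 h))
    (hnn : 0 ≤ f h)
    (h0 : ∀ y, h < y → f y = 0) (he : ∀ y, f (-y) = f y) {m : ℕ} (hm : 0 < m) :
    ∫ y : ℝ, f y ≤ 2 * (h / m) * (f 0 + ∑ j : Fin m, f (h / m * ((j : ℕ) + 1))) := by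
  have hm' : (0 : ℝ) < m := by exact_mod_cast hm
  have hc : 0 < h / m := by positivity
  rw [integral_eq_two_mul hh h0 he, integral_scaled hh hm, mul_assoc]
  have h1 := (antitone_scaled hh hf hm).integral_le_sum
  have h2 : ∑ i ∈ Finset.range m, f (h / m * (0 + (i : ℝ))) ≤
      f 0 + ∑ j : Fin m, f (h / m * ((j : ℕ) + 1)) := by
    have e1 := Finset.sum_range_succ (fun i : ℕ => f (h / m * (0 + (i : ℝ)))) m
    have e2 := Finset.sum_range_succ' (fun i : ℕ => f (h / m * (0 + (i : ℝ)))) m
    have e3 : f (h / m * (0 + (m : ℝ))) = f h := by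
      congr 1
      field_simp
      ring
    have e4 : ∑ i ∈ Finset.range m, f (h / m * (0 + ((i + 1 : ℕ) : ℝ))) =
        ∑ j : Fin m, f (h / m * ((j : ℕ) + 1)) := by
      rw [Finset.sum_range]
      refine Finset.sum_congr rfl fun j _ => ?_
      push_cast
      rw [zero_add]
    have e5 : f (h / m * (0 + ((0 : ℕ) : ℝ))) = f 0 := by simp
    rw [e4, e5] at e2
    rw [e3, e2] at e1
    linarith only [hnn, e1]
  have h3 := h1.trans h2
  gcongr

end Riemann

end Vale.Agent.P237
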