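import Vale.Agent.P237.Fubini

/-!
Volume of `K + [0, t u]`, and the basic properties of `beta`.
-/

open MeasureTheory Metric Set Module
open scoped Pointwise

namespace Vale.Agent.P237

variable {V : Type*} [NormedAddCommGroup V] [InnerProductSpace ℝ V] [FiniteDimensional ℝ V]
  [MeasurableSpace V] [BorelSpace V]

/-! ### fibres -/

omit [FiniteDimensional ℝ V] [MeasurableSpace V] [BorelSpace V] in
theorem fibre_isCompact {K : Set V} (hK : IsCompact K) {u : V} (hu : ‖u‖ = 1)
    (z : ((ℝ ∙ u)ᗮ : Submodule ℝ V)) : IsCompact {y : ℝ | (z : V) + y • u ∈ K} := by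
  refine Metric.isCompact_of_isClosed_isBounded ?_ ?_
  · exact hK.isClosed.preimage (by fun_prop)
  · refine (hK.image (f := fun x : V => (inner ℝ x u : ℝ)) (by (clear * -; fun_prop))).isBounded.subset ?_
    intro y hy
    exact ⟨_, hy, inner_prod_point hu z y⟩

omit [FiniteDimensional ℝ V] [MeasurableSpace V] [BorelSpace V] in
theorem fibre_convex {K : Set V} (hc : Convex ℝ K) {u : V}
    (z : ((ℝ ∙ u)ᗮ : Submodule ℝ V)) : Convex ℝ {y : ℝ | (z : V) + y • u ∈ K} := by
  intro x hx y hy a b ha hb hab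
  have h := hc hx hy ha hb hab
  have h2 : a • ((z : V) + x • u) + b • ((z : V) + y • u) = (z : V) + (a • x + b • y) • u := by
    have : (z : V) = (a + b) • (z : V) := by rw [hab, one_smul]
    rw [smul_add, smul_add, smul_smul, smul_smul, add_smul, smul_eq_mul, smul_eq_mul]
    nth_rewrite 3 [this]
    rw [add_smul]
    abel
  rw [h2] at h
  exact h

omit [FiniteDimensional ℝ V] [MeasurableSpace V] [BorelSpace V] in
theorem segment_eq_image_smul (v : V) : segment ℝ 0 v = (fun r : ℝ => r • v) '' Icc 0 1 := by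
  rw [segment_eq_image']
  simp only [sub_zero, zero_add]

omit [FiniteDimensional ℝ V] [MeasurableSpace V] [BorelSpace V] in
theorem segment_smul_eq_image {t : ℝ} (ht : 0 ≤ t) (v : V) :
    segment ℝ 0 (t • v) = (fun r : ℝ => r • v) '' Icc 0 t := by
  rw [segment_eq_image_smul]
  ext x
  constructor
  · rintro ⟨r, hr, rfl⟩
    refine ⟨r * t, ⟨mul_nonneg hr.1 ht, ?_⟩, ?_⟩
    · exact mul_le_of_le_one_left ht hr.2
    · simp only [smul_smul]
  · rintro ⟨r, hr, rfl⟩
    rcases ht.eq_or_lt with h | h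
    · have hr0 : r = 0 := le_antisymm (by rw [h]; exact hr.2) hr.1
      exact ⟨0, ⟨le_rfl, zero_le_one⟩, by simp [hr0]⟩
    · refine ⟨r / t, ⟨div_nonneg hr.1 ht, (div_le_one h).mpr hr.2⟩, ?_⟩
      show (r / t) • t • v = r • v
      rw [smul_smul, div_mul_cancel₀ _ h.ne']

omit [FiniteDimensional ℝ V] [MeasurableSpace V] [BorelSpace V] in
theorem isCompact_segment' (v w : V) : IsCompact (segment ℝ v w) := by
  rw [segment_eq_image]
  exact isCompact_Icc.image (by (clear * -; (clear * -; fun_prop)))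

omit [FiniteDimensional ℝ V] [MeasurableSpace V] [BorelSpace V] in
theorem fibre_add_segment (K : Set V) {u : V} {t : ℝ} (ht : 0 ≤ t)
    (z : ((ℝ ∙ u)ᗮ : Submodule ℝ V)) :
    {y : ℝ | (z : V) + y • u ∈ K + segment ℝ 0 (t • u)}
      = {y : ℝ | (z : V) + y • u ∈ K} + Icc 0 t := by
  ext y
  show (z : V) + y • u ∈ K + segment ℝ 0 (t • u) ↔ _
  rw [segment_smul_eq_image ht, Set.mem_add, Set.mem_add]
  constructor
  · rintro ⟨a, ha, b, ⟨r, hr, rfl⟩, hab⟩
    refine ⟨y - r, ?_, r, hr, by ring⟩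
    show (z : V) + (y - r) • u ∈ K
    have : (z : V) + (y - r) • u = a := by
      rw [sub_smul]
      have h2 : a + r • u = (z : V) + y • u := hab
      rw [← add_sub_assoc, ← h2]
      abel
    rw [this]
    exact ha
  · rintro ⟨x, hx, r, hr, rfl⟩
    refine ⟨(z : V) + x • u, hx, r • u, ⟨r, hr, rfl⟩, ?_⟩
    rw [add_smul]
    abel

theorem fibre_nonempty_iff (K : Set V) {u : V} (hu : ‖u‖ = 1)
    (z : ((ℝ ∙ u)ᗮ : Submodule ℝ V)) :
    {y : ℝ | (z : V) + y • u ∈ K}.Nonempty ↔
      z ∈ (ℝ ∙ u)ᗮ.orthogonalProjectionOnto '' K := by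
  constructor
  · rintro ⟨y, hy⟩
    exact ⟨_, hy, proj_prod_point z y⟩
  · rintro ⟨x, hx, rfl⟩
    refine ⟨inner ℝ x u, ?_⟩
    show _ ∈ K
    rw [← eq_prod_point hu x]
    exact hx

theorem volume_interval_add {F : Set ℝ} (hF : IsCompact F) (hc : Convex ℝ F) (hne : F.Nonempty)
    {t : ℝ} (ht : 0 ≤ t) : volume (F + Icc 0 t) = volume F + ENNReal.ofReal t := by
  have hconn : IsConnected F := ⟨hne, hc.isPreconnected⟩
  rw [eq_Icc_of_connected_compact hconn hF]
  have hle : sInf F ≤ sSup F := by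
    obtain ⟨x, hx⟩ := hne
    exact (csInf_le hF.bddBelow hx).trans (le_csSup hF.bddAbove hx)
  rw [Set.Icc_add_Icc hle ht, Real.volume_Icc, Real.volume_Icc, ← ENNReal.ofReal_add (by linarith only [hle]) ht]
  congr 1
  ring

/-! ### the main formula -/

theorem volume_add_segment {K : Set V} (hK : IsCompact K) (hc : Convex ℝ K) {u : V}
    (hu : ‖u‖ = 1) {t : ℝ} (ht : 0 ≤ t) :
    volume (K + segment ℝ 0 (t • u)) = volume K +
      ENNReal.ofReal t * volume ((ℝ ∙ u)ᗮ.orthogonalProjectionOnto '' K) := by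
  have hP : MeasurableSet ((ℝ ∙ u)ᗮ.orthogonalProjectionOnto '' K) :=
    (hK.image (by (clear * -; fun_prop))).isClosed.measurableSet
  have h1 : ∀ z : ((ℝ ∙ u)ᗮ : Submodule ℝ V),
      volume {y : ℝ | (z : V) + y • u ∈ K + segment ℝ 0 (t • u)}
        = volume {y : ℝ | (z : V) + y • u ∈ K}
          + ((ℝ ∙ u)ᗮ.orthogonalProjectionOnto '' K).indicator (fun _ => ENNReal.ofReal t) z := by
    intro z
    rw [fibre_add_segment K ht z]
    by_cases hz : z ∈ (ℝ ∙ u)ᗮ.orthogonalProjectionOnto '' K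
    · rw [indicator_of_mem hz]
      exact volume_interval_add (fibre_isCompact hK hu z) (fibre_convex hc z)
        ((fibre_nonempty_iff K hu z).mpr hz) ht
    · rw [indicator_of_notMem hz]
      have h2 : {y : ℝ | (z : V) + y • u ∈ K} = ∅ := by
        rw [← Set.not_nonempty_iff_eq_empty, fibre_nonempty_iff K hu z]
        exact hz
      rw [h2]
      simp only [empty_add, measure_empty, add_zero]
  rw [volume_eq_lintegral_fibre u hu (hK.add (isCompact_segment' _ _)).isClosed.measurableSet,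
    volume_eq_lintegral_fibre u hu hK.isClosed.measurableSet]
  simp_rw [h1]
  rw [lintegral_add_right _ (measurable_const.indicator hP), lintegral_indicator_const hP]

theorem shadow_nonneg (K : Set V) (u : V) : 0 ≤ shadow K u := ENNReal.toReal_nonneg

theorem volume_proj_ne_top {K : Set V} (hK : IsCompact K) (u : V) :
    volume ((ℝ ∙ u)ᗮ.orthogonalProjectionOnto '' K) ≠ ⊤ :=
  (hK.image (by (clear * -; fun_prop))).measure_lt_top.ne

theorem vol_add_segment {K : Set V} (hK : IsCompact K) (hc : Convex ℝ K) {u : V} (hu : ‖u‖ = 1)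
    {t : ℝ} (ht : 0 ≤ t) : vol (K + segment ℝ 0 (t • u)) = vol K + t * shadow K u := by
  unfold vol shadow
  rw [volume_add_segment hK hc hu ht, ENNReal.toReal_add hK.measure_lt_top.ne
    (ENNReal.mul_ne_top ENNReal.ofReal_ne_top (volume_proj_ne_top hK u)), ENNReal.toReal_mul,
    ENNReal.toReal_ofReal ht]

theorem beta_smul_unit {K : Set V} (hK : IsCompact K) (hc : Convex ℝ K) {u : V} (hu : ‖u‖ = 1)
    {t : ℝ} (ht : 0 ≤ t) : beta K (t • u) = t * shadow K u := by
  unfold beta
  rw [vol_add_segment hK hc hu ht]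
  ring

theorem beta_unit {K : Set V} (hK : IsCompact K) (hc : Convex ℝ K) {u : V} (hu : ‖u‖ = 1) :
    beta K u = shadow K u := by
  have h := beta_smul_unit hK hc hu zero_le_one
  rwa [one_smul, one_mul] at h

theorem beta_zero (K : Set V) : beta K 0 = 0 := by
  unfold beta
  rw [segment_same, Set.singleton_zero, add_zero, sub_self]

omit [FiniteDimensional ℝ V] [MeasurableSpace V] [BorelSpace V] in
theorem norm_smul_unit {v : V} (hv : v ≠ 0) : ‖v‖ • (‖v‖⁻¹ • v) = v := by
  rw [smul_smul, mul_inv_cancel₀ (norm_ne_zero_iff.mpr hv), one_smul]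

omit [FiniteDimensional ℝ V] [MeasurableSpace V] [BorelSpace V] in
theorem norm_unit {v : V} (hv : v ≠ 0) : ‖(‖v‖⁻¹ • v)‖ = 1 := by
  rw [norm_smul, norm_inv, norm_norm, inv_mul_cancel₀ (norm_ne_zero_iff.mpr hv)]

theorem beta_eq_norm_mul {K : Set V} (hK : IsCompact K) (hc : Convex ℝ K) {v : V} (hv : v ≠ 0) :
    beta K v = ‖v‖ * shadow K (‖v‖⁻¹ • v) := by
  conv_lhs => rw [← norm_smul_unit hv]
  exact beta_smul_unit hK hc (norm_unit hv) (norm_nonneg v)

theorem volume_image_add_left (a : V) (s : Set V) : volume ((fun x => a + x) '' s) = volume s := by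
  rw [image_add_left]
  exact measure_preimage_add _ _ _

theorem vol_image_add_left (a : V) (s : Set V) : vol ((fun x => a + x) '' s) = vol s := by
  unfold vol
  rw [volume_image_add_left]

theorem beta_neg (K : Set V) (v : V) : beta K (-v) = beta K v := by
  unfold beta
  have h : K + segment ℝ 0 (-v) = (fun x => -v + x) '' (K + segment ℝ 0 v) := by
    ext x
    rw [segment_symm ℝ 0 v]
    constructor
    · rintro ⟨k, hk, s, hs, rfl⟩
      refine ⟨k + (v + s), ⟨k, hk, v + s, ?_, rfl⟩, ?_⟩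
      · have h2 := (segment_translate_image ℝ v 0 (-v))
        have h3 : v + s ∈ (fun x => v + x) '' segment ℝ 0 (-v) := ⟨s, hs, rfl⟩
        rw [h2] at h3
        simpa using h3
      · show -v + (k + (v + s)) = k + s
        module
    · rintro ⟨y, ⟨k, hk, s, hs, rfl⟩, rfl⟩
      refine ⟨k, hk, -v + s, ?_, ?_⟩
      · have h2 := (segment_translate_image ℝ (-v) v 0)
        have h3 : -v + s ∈ (fun x => -v + x) '' segment ℝ v 0 := ⟨s, hs, rfl⟩
        rw [h2] at h3
        simpa only [neg_add_cancel, add_zero] using h3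
      · show k + (-v + s) = -v + (k + s)
        module
  rw [h, vol_image_add_left]

theorem beta_smul_of_nonneg {K : Set V} (hK : IsCompact K) (hc : Convex ℝ K) {t : ℝ}
    (ht : 0 ≤ t) (v : V) : beta K (t • v) = t * beta K v := by
  by_cases hv : v = 0
  · rw [hv, smul_zero, beta_zero, mul_zero]
  · rw [beta_eq_norm_mul hK hc hv]
    conv_lhs => rw [← norm_smul_unit hv, smul_smul]
    rw [beta_smul_unit hK hc (norm_unit hv) (mul_nonneg ht (norm_nonneg v)), mul_assoc]

theorem beta_smul {K : Set V} (hK : IsCompact K) (hc : Convex ℝ K) (t : ℝ) (v : V) :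
    beta K (t • v) = |t| * beta K v := by
  rcases le_total 0 t with ht | ht
  · rw [abs_of_nonneg ht, beta_smul_of_nonneg hK hc ht]
  · rw [abs_of_nonpos ht, ← beta_neg K (t • v), ← neg_smul,
      beta_smul_of_nonneg hK hc (neg_nonneg.mpr ht)]

theorem beta_nonneg {K : Set V} (hK : IsCompact K) (hc : Convex ℝ K) (v : V) :
    0 ≤ beta K v := by
  by_cases hv : v = 0
  · rw [hv, beta_zero]
  · rw [beta_eq_norm_mul hK hc hv]
    exact mul_nonneg (norm_nonneg _) (shadow_nonneg _ _)

theorem shadow_mono {K L : Set V} (hL : IsCompact L) (h : K ⊆ L) (u : V) :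
    shadow K u ≤ shadow L u := by
  unfold shadow
  exact ENNReal.toReal_mono (volume_proj_ne_top hL u) (measure_mono (image_mono h))

theorem beta_mono {K L : Set V} (hK : IsCompact K) (hc : Convex ℝ K) (hL : IsCompact L)
    (hcL : Convex ℝ L) (h : K ⊆ L) (v : V) : beta K v ≤ beta L v := by
  by_cases hv : v = 0
  · rw [hv, beta_zero, beta_zero]
  · rw [beta_eq_norm_mul hK hc hv, beta_eq_norm_mul hL hcL hv]
    exact mul_le_mul_of_nonneg_left (shadow_mono hL h _) (norm_nonneg _)

omit [FiniteDimensional ℝ V] [MeasurableSpace V] [BorelSpace V] in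
theorem image_segment_zero {W : Type*} [NormedAddCommGroup W] [InnerProductSpace ℝ W]
    (f : V →ₗ[ℝ] W) (v : V) : f '' segment ℝ 0 v = segment ℝ 0 (f v) := by
  have h := image_segment ℝ f.toAffineMap 0 v
  simpa using h

omit [FiniteDimensional ℝ V] [MeasurableSpace V] [BorelSpace V] in
theorem image_add_segment {W : Type*} [NormedAddCommGroup W] [InnerProductSpace ℝ W]
    (f : V →ₗ[ℝ] W) (K : Set V) (v : V) :
    f '' (K + segment ℝ 0 v) = f '' K + segment ℝ 0 (f v) := by
  rw [Set.image_add, image_segment_zero]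

theorem shadow_add_segment {K : Set V} (hK : IsCompact K) (hc : Convex ℝ K) (u v : V) {s : ℝ}
    (hs : 0 ≤ s) : shadow (K + segment ℝ 0 (s • v)) u = shadow K u +
      s * beta ((ℝ ∙ u)ᗮ.orthogonalProjectionOnto '' K) ((ℝ ∙ u)ᗮ.orthogonalProjectionOnto v) := by
  have hcP : Convex ℝ ((ℝ ∙ u)ᗮ.orthogonalProjectionOnto '' K) :=
    hc.linear_image ((ℝ ∙ u)ᗮ.orthogonalProjectionOnto : V →ₗ[ℝ] ((ℝ ∙ u)ᗮ : Submodule ℝ V))
  have hKP : IsCompact ((ℝ ∙ u)ᗮ.orthogonalProjectionOnto '' K) := hK.image (by (clear * -; (clear * -; fun_prop)))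
  rw [← beta_smul_of_nonneg hKP hcP hs]
  unfold shadow beta vol
  have h := image_add_segment
    ((ℝ ∙ u)ᗮ.orthogonalProjectionOnto : V →ₗ[ℝ] ((ℝ ∙ u)ᗮ : Submodule ℝ V)) K (s • v)
  rw [map_smul] at h
  have h' : (ℝ ∙ u)ᗮ.orthogonalProjectionOnto '' (K + segment ℝ 0 (s • v))
    = (ℝ ∙ u)ᗮ.orthogonalProjectionOnto '' K
      + segment ℝ 0 (s • (ℝ ∙ u)ᗮ.orthogonalProjectionOnto v) := h
  rw [h']
  ring

theorem beta_add_le {K : Set V} (hK : IsCompact K) (hc : Convex ℝ K) (v w : V) :
    beta K (v + w) ≤ beta K v + beta K w := by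
  by_cases hw : w = 0
  · rw [hw, add_zero, beta_zero, add_zero]
  set u : V := ‖w‖⁻¹ • w with hu
  set β : ℝ := beta ((ℝ ∙ u)ᗮ.orthogonalProjectionOnto '' K)
    ((ℝ ∙ u)ᗮ.orthogonalProjectionOnto v) with hβ
  have hcP : Convex ℝ ((ℝ ∙ u)ᗮ.orthogonalProjectionOnto '' K) :=
    hc.linear_image ((ℝ ∙ u)ᗮ.orthogonalProjectionOnto : V →ₗ[ℝ] ((ℝ ∙ u)ᗮ : Submodule ℝ V))
  have hKP : IsCompact ((ℝ ∙ u)ᗮ.orthogonalProjectionOnto '' K) := hK.image (by (clear * -; fun_prop))
  have hβ0 : 0 ≤ β := beta_nonneg hKP hcP _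
  have key : ∀ s : ℝ, 0 < s → beta K (v + w) ≤ beta K v + beta K w + s * (‖w‖ * β) := by
    intro s hs
    have hK' : IsCompact (K + segment ℝ 0 (s • v)) := hK.add (isCompact_segment' _ _)
    have hc' : Convex ℝ (K + segment ℝ 0 (s • v)) := hc.add (convex_segment _ _)
    have h1 : s * beta K (v + w) ≤ s * (beta K v + beta K w + s * (‖w‖ * β)) := by
      have hsub : K + segment ℝ 0 (s • (v + w)) ⊆
          (K + segment ℝ 0 (s • v)) + segment ℝ 0 (s • w) := by
        rw [add_assoc]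
        refine Set.add_subset_add_left ?_
        rw [smul_add]
        intro x hx
        rw [segment_eq_image_smul] at hx
        obtain ⟨r, hr, rfl⟩ := hx
        refine ⟨r • (s • v), ?_, r • (s • w), ?_, ?_⟩
        · rw [segment_eq_image_smul]; exact ⟨r, hr, rfl⟩
        · rw [segment_eq_image_smul]; exact ⟨r, hr, rfl⟩
        · show r • s • v + r • s • w = r • (s • v + s • w)
          rw [smul_add]
      have h2 : vol (K + segment ℝ 0 (s • (v + w))) ≤
          vol ((K + segment ℝ 0 (s • v)) + segment ℝ 0 (s • w)) := by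
        unfold vol
        exact ENNReal.toReal_mono (hK'.add (isCompact_segment' _ _)).measure_lt_top.ne
          (measure_mono hsub)
      have h3 : beta K (s • (v + w)) = s * beta K (v + w) := beta_smul_of_nonneg hK hc hs.le _
      have h4 : beta K (s • v) = s * beta K v := beta_smul_of_nonneg hK hc hs.le _
      have h5 : beta (K + segment ℝ 0 (s • v)) (s • w)
          = s * beta (K + segment ℝ 0 (s • v)) w := beta_smul_of_nonneg hK' hc' hs.le _
      have h6 : beta (K + segment ℝ 0 (s • v)) w = beta K w + s * (‖w‖ * β) := by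
        rw [beta_eq_norm_mul hK' hc' hw, beta_eq_norm_mul hK hc hw, ← hu,
          shadow_add_segment hK hc u v hs.le]
        ring
      rw [← h3]
      rw [h6] at h5
      have h7 : beta K (s • (v + w)) = vol (K + segment ℝ 0 (s • (v + w))) - vol K := rfl
      have h8 : beta K (s • v) = vol (K + segment ℝ 0 (s • v)) - vol K := rfl
      have h9 : beta (K + segment ℝ 0 (s • v)) (s • w) =
        vol ((K + segment ℝ 0 (s • v)) + segment ℝ 0 (s • w))
          - vol (K + segment ℝ 0 (s • v)) := rfl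
      (clear hw hu hβ hcP hKP hβ0 hc' h3 h6; nlinarith [h2, h4, h5, h7, h8, h9])
    exact le_of_mul_le_mul_left h1 hs
  refine le_of_forall_pos_le_add fun ε hε => ?_
  have hc0 : 0 ≤ ‖w‖ * β := mul_nonneg (norm_nonneg _) hβ0
  have h1 := key (ε / (‖w‖ * β + 1)) (by (clear * - hε hw hβ0; (clear * - hε hw hβ0; positivity)))
  have h2 : ε / (‖w‖ * β + 1) * (‖w‖ * β) ≤ ε := by
    rw [div_mul_eq_mul_div, div_le_iff₀ (by (clear * - hw hβ0; positivity))]
    nlinarith only [hε]
  linarith

theorem vol_image_linearEquiv (T : V ≃ₗ[ℝ] V) (K : Set V) :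
    vol (T '' K) = |LinearMap.det (T : V →ₗ[ℝ] V)| * vol K := by
  unfold vol
  have h := Measure.addHaar_image_linearMap (volume : Measure V) (T : V →ₗ[ℝ] V) K
  have h' : volume (T '' K) = ENNReal.ofReal |LinearMap.det (T : V →ₗ[ℝ] V)| * volume K := h
  rw [h', ENNReal.toReal_mul, ENNReal.toReal_ofReal (abs_nonneg _)]

theorem beta_image (T : V ≃ₗ[ℝ] V) (K : Set V) (v : V) :
    beta (T '' K) (T v) = |LinearMap.det (T : V →ₗ[ℝ] V)| * beta K v := by
  unfold beta
  have h : T '' (K + segment ℝ 0 v) = T '' K + segment ℝ 0 (T v) :=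
    image_add_segment (T : V →ₗ[ℝ] V) K v
  rw [← h, vol_image_linearEquiv, vol_image_linearEquiv]
  ring

theorem beta_translate (K : Set V) (a v : V) : beta ((fun x => a + x) '' K) v = beta K v := by
  unfold beta
  have h : (fun x => a + x) '' K + segment ℝ 0 v = (fun x => a + x) '' (K + segment ℝ 0 v) := by
    ext x
    constructor
    · rintro ⟨_, ⟨k, hk, rfl⟩, s, hs, rfl⟩
      exact ⟨k + s, ⟨k, hk, s, hs, rfl⟩, by simp only [add_assoc]⟩
    · rintro ⟨_, ⟨k, hk, s, hs, rfl⟩, rfl⟩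
      exact ⟨a + k, ⟨k, hk, rfl⟩, s, hs, by simp only [add_assoc]⟩
  rw [h, vol_image_add_left, vol_image_add_left]

theorem vol_smul_set_of_nonneg {r : ℝ} (hr : 0 ≤ r) (S : Set V) :
    vol (r • S) = r ^ finrank ℝ V * vol S := by
  unfold vol
  rw [Measure.addHaar_smul_of_nonneg _ hr, ENNReal.toReal_mul,
    ENNReal.toReal_ofReal (by positivity)]

theorem beta_smul_set {K : Set V} (hK : IsCompact K) (hc : Convex ℝ K) {r : ℝ} (hr : 0 < r)
    (v : V) : beta (r • K) v = r ^ (finrank ℝ V - 1) * beta K v := by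
  by_cases hd : finrank ℝ V = 0
  · have : Subsingleton V := finrank_zero_iff.mp hd
    rw [Subsingleton.elim v 0, beta_zero, beta_zero, mul_zero]
  · have h1 : r • K + segment ℝ 0 v = r • (K + segment ℝ 0 (r⁻¹ • v)) := by
      have h2 : segment ℝ 0 v = r • segment ℝ 0 (r⁻¹ • v) := by
        have h3 := image_segment_zero (LinearMap.lsmul ℝ V r) (r⁻¹ • v)
        simp only [LinearMap.lsmul_apply] at h3
        rw [smul_smul, mul_inv_cancel₀ hr.ne', one_smul] at h3
        rw [← h3]
        rfl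
      rw [smul_add, ← h2]
    have h4 : vol (K + segment ℝ 0 (r⁻¹ • v)) = vol K + r⁻¹ * beta K v := by
      have h5 := beta_smul_of_nonneg hK hc (inv_nonneg.mpr hr.le) v
      have h6 : beta K (r⁻¹ • v) = vol (K + segment ℝ 0 (r⁻¹ • v)) - vol K := rfl
      linarith
    show vol (r • K + segment ℝ 0 v) - vol (r • K) = _
    rw [h1, vol_smul_set_of_nonneg hr.le, vol_smul_set_of_nonneg hr.le, h4]
    obtain ⟨n, hn⟩ : ∃ n, finrank ℝ V = n + 1 := Nat.exists_eq_succ_of_ne_zero hd
    rw [hn, Nat.add_sub_cancel, pow_succ]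
    field_simp
    ring

theorem shadow_pos {K : Set V} (hK : IsBody K) (u : V) : 0 < shadow K u := by
  unfold shadow
  refine ENNReal.toReal_pos ?_ (volume_proj_ne_top hK.compact u)
  have hsurj : Function.Surjective (ℝ ∙ u)ᗮ.orthogonalProjectionOnto := fun z =>
    ⟨z, Submodule.orthogonalProjectionOnto_mem_subspace_eq_self z⟩
  have hopen : IsOpen ((ℝ ∙ u)ᗮ.orthogonalProjectionOnto '' interior K) :=
    ((ℝ ∙ u)ᗮ.orthogonalProjectionOnto).isOpenMap hsurj _ isOpen_interior
  have h1 := hopen.measure_pos volume (hK.int.image _)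
  exact (lt_of_lt_of_le h1 (measure_mono (image_mono interior_subset))).ne'

theorem beta_pos {K : Set V} (hK : IsBody K) {v : V} (hv : v ≠ 0) : 0 < beta K v := by
  rw [beta_eq_norm_mul hK.compact hK.convex hv]
  exact mul_pos (norm_pos_iff.mpr hv) (shadow_pos hK _)

end Vale.Agent.P237
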