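import Vale.Agent.P237.PlaneBeta
import Vale.Agent.P237.Pi

/-!
# P237-F2: a lower bound for the shadows of the projection body (dimension 3)
-/

open MeasureTheory Metric Set Module
open scoped Pointwise

namespace Vale.Agent.P237

variable {V : Type*} [NormedAddCommGroup V] [InnerProductSpace ℝ V] [FiniteDimensional ℝ V]
  [MeasurableSpace V] [BorelSpace V]

omit [FiniteDimensional ℝ V] [MeasurableSpace V] [BorelSpace V] in
theorem supp_pos {K : Set V} (hK : IsSymBody K) {u : V} (hu : ‖u‖ = 1) : 0 < supp K u := by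
  obtain ⟨x, hx⟩ := hK.int
  obtain ⟨ε, hε, hb⟩ := Metric.mem_nhds_iff.1 (mem_interior_iff_mem_nhds.1 hx)
  have h1 : x + (ε / 2) • u ∈ K := by
    apply hb
    rw [mem_ball, dist_eq_norm, add_sub_cancel_left, norm_smul, hu, mul_one, Real.norm_eq_abs,
      abs_of_pos (by positivity)]
    linarith only [hε]
  have h2 : x - (ε / 2) • u ∈ K := by
    apply hb
    rw [mem_ball, dist_eq_norm, sub_sub_cancel_left, norm_neg, norm_smul, hu, mul_one,
      Real.norm_eq_abs, abs_of_pos (by positivity)]
    linarith only [hε]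
  have h3 := hK.symm _ h2
  have h4 := hK.convex h1 h3 (by norm_num : (0 : ℝ) ≤ 1 / 2) (by norm_num : (0 : ℝ) ≤ 1 / 2)
    (by norm_num)
  have h5 := le_supp hK.compact u h4
  have e : (1 / 2 : ℝ) • (x + (ε / 2) • u) + (1 / 2 : ℝ) • (-(x - (ε / 2) • u)) =
      (ε / 2) • u := by
    module
  rw [e, inner_smul_left, real_inner_self_eq_norm_sq, hu] at h5
  simp only [conj_trivial, one_pow, mul_one] at h5
  linarith only [hε, h5]

theorem slice_nonempty {K : Set V} (hK : IsSymBody K) {u : V} (hu : ‖u‖ = 1) {y : ℝ}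
    (hy : y ∈ Icc (-supp K u) (supp K u)) : (slice K u y).Nonempty := by
  have hpos := supp_pos hK hu
  obtain ⟨x, hx, hxu⟩ := exists_supp hK.compact (hK.int.mono interior_subset) u
  have h1 : (slice K u (supp K u)).Nonempty := by
    refine ⟨(ℝ ∙ u)ᗮ.orthogonalProjectionOnto x, ?_⟩
    have := eq_prod_point hu x
    rw [hxu] at this
    show _ ∈ K
    rw [← this]
    exact hx
  have h2 : (slice K u (-supp K u)).Nonempty := by
    rw [slice_neg hK.symm]
    exact h1.neg
  set h := supp K u with hh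
  have ha : 0 ≤ (h + y) / (2 * h) := div_nonneg (by linarith [hy.1]) (by (clear * - hpos; positivity))
  have hb : 0 ≤ (h - y) / (2 * h) := div_nonneg (by linarith only [hy.2]) (by positivity)
  have hab : (h + y) / (2 * h) + (h - y) / (2 * h) = 1 := by field_simp; ring
  have hs := slice_combo_subset hK.convex u h (-h) ha hb hab
  have e : (h + y) / (2 * h) * h + (h - y) / (2 * h) * (-h) = y := by field_simp; ring
  rw [e] at hs
  exact ((h1.smul_set).add h2.smul_set).mono hs

omit [FiniteDimensional ℝ V] [MeasurableSpace V] [BorelSpace V] in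
theorem slice_eq_empty {K : Set V} (hK : IsCompact K) {u : V} (hu : ‖u‖ = 1) {y : ℝ}
    (hy : supp K u < y) : slice K u y = ∅ := by
  rw [eq_empty_iff_forall_notMem]
  intro z hz
  have h := le_supp hK u hz
  rw [inner_prod_point hu] at h
  linarith only [hy, h]

theorem beta_empty (w : V) : beta (∅ : Set V) w = 0 := by
  unfold beta vol
  simp only [empty_add, measure_empty, ENNReal.toReal_zero, sub_self]

theorem beta_neg_set (S : Set V) (w : V) : beta (-S) w = beta S w := by
  have h1 : -S + segment ℝ 0 w = -(S + segment ℝ 0 (-w)) := by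
    rw [neg_add]
    congr 1
    rw [segment_eq_image_smul, segment_eq_image_smul, ← Set.image_neg_eq_neg, image_image]
    simp only [smul_neg, neg_neg]
  rw [← beta_neg S w]
  unfold beta vol
  rw [h1, Measure.measure_neg, Measure.measure_neg]

theorem antitone_of_combo {g : ℝ → ℝ} {h : ℝ}
    (hg : ∀ y ∈ Icc 0 h, ∀ a b : ℝ, 0 ≤ a → 0 ≤ b → a + b = 1 → g y ≤ g (a * y + b * (-y))) :
    AntitoneOn g (Icc 0 h) := by
  intro y hy z hz hyz
  rcases hz.1.eq_or_lt with h0 | h0
  · have : y = z := le_antisymm hyz (h0 ▸ hy.1)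
    rw [this]
  · have h1 := hg z hz ((z + y) / (2 * z)) ((z - y) / (2 * z))
      (div_nonneg (by linarith [hy.1]) (by positivity))
      (div_nonneg (by linarith only [hyz]) (by positivity)) (by field_simp; ring)
    have e : (z + y) / (2 * z) * z + (z - y) / (2 * z) * (-z) = y := by field_simp; ring
    rwa [e] at h1

theorem sqrt_slice_antitone (hd : finrank ℝ V = 3) {K : Set V} (hK : IsSymBody K) {u : V}
    (hu : ‖u‖ = 1) :
    AntitoneOn (fun y => Real.sqrt (vol (slice K u y))) (Icc 0 (supp K u)) := by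
  apply antitone_of_combo
  intro y hy a b ha hb hab
  have h2 := finrank_perp hd hu
  have hKc := hK.compact
  have hpos := supp_pos hK hu
  have hne1 : (slice K u y).Nonempty := slice_nonempty hK hu ⟨by linarith only [hpos, hy.1], hy.2⟩
  have hne2 : (slice K u (-y)).Nonempty :=
    slice_nonempty hK hu ⟨by linarith only [hy.2], by linarith only [hpos, hy.1]⟩
  have bm := brunn_minkowski (V := ((ℝ ∙ u)ᗮ : Submodule ℝ V))
    ((slice_isCompact hKc u y).smul a) ((slice_isCompact hKc u (-y)).smul b)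
    (hne1.smul_set) (hne2.smul_set) (by omega)
  rw [h2, vol_smul_set, vol_smul_set, h2] at bm
  simp only [Nat.cast_ofNat] at bm
  rw [← Real.sqrt_eq_rpow, ← Real.sqrt_eq_rpow, ← Real.sqrt_eq_rpow,
    Real.sqrt_mul (by (clear * -; positivity)), Real.sqrt_mul (by (clear * -; positivity)), Real.sqrt_sq (abs_nonneg _),
    Real.sqrt_sq (abs_nonneg _), abs_of_nonneg ha, abs_of_nonneg hb, slice_vol_even hK hu,
    ← add_mul, hab, one_mul] at bm
  refine bm.trans (Real.sqrt_le_sqrt ?_)
  exact vol_mono (slice_isCompact hKc u _) (slice_combo_subset hK.convex u y (-y) ha hb hab)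

/-- rotation by a right angle in a Euclidean plane -/
theorem exists_rotation {W : Type*} [NormedAddCommGroup W] [InnerProductSpace ℝ W]
    (h2 : finrank ℝ W = 2) : ∃ J : W ≃ₗᵢ[ℝ] W, ∀ w, inner ℝ w (J w) = 0 := by
  have : Fact (finrank ℝ W = 2) := ⟨h2⟩
  have : FiniteDimensional ℝ W := Module.finite_of_finrank_pos (by omega)
  let o : Orientation ℝ W (Fin 2) :=
    ((stdOrthonormalBasis ℝ W).reindex (finCongr h2)).toBasis.orientation
  refine ⟨o.rightAngleRotation, fun w => ?_⟩
  rw [real_inner_comm]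
  exact o.inner_rightAngleRotation_self w

theorem beta_slice_antitone (hd : finrank ℝ V = 3) {K : Set V} (hK : IsSymBody K) {u : V}
    (hu : ‖u‖ = 1) (w : ((ℝ ∙ u)ᗮ : Submodule ℝ V)) :
    AntitoneOn (fun y => beta (slice K u y) w) (Icc 0 (supp K u)) := by
  apply antitone_of_combo
  intro y hy a b ha hb hab
  have h2 := finrank_perp hd hu
  obtain ⟨J, hJ⟩ := exists_rotation h2
  have hKc := hK.compact
  have hpos := supp_pos hK hu
  have hne1 : (slice K u y).Nonempty := slice_nonempty hK hu ⟨by linarith only [hpos, hy.1], hy.2⟩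
  have hne2 : (slice K u (-y)).Nonempty :=
    slice_nonempty hK hu ⟨by linarith only [hy.2], by linarith only [hpos, hy.1]⟩
  have hsub := slice_combo_subset hK.convex u y (-y) ha hb hab
  have hne3 : (slice K u (a * y + b * (-y))).Nonempty :=
    ((hne1.smul_set).add hne2.smul_set).mono hsub
  have hc1 := slice_isCompact hKc u y
  have hc3 := slice_isCompact hKc u (a * y + b * (-y))
  rw [beta_plane h2 J hJ hc1 (slice_convex hK.convex u y) hne1,
    beta_plane h2 J hJ hc3 (slice_convex hK.convex u _) hne3]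
  obtain ⟨p, hp, hpe⟩ := exists_supp hc1 hne1 (J w)
  obtain ⟨q, hq, hqe⟩ := exists_supp hc1 hne1 (-(J w))
  have hp' : -p ∈ slice K u (-y) := by
    rw [slice_neg hK.symm]
    exact Set.neg_mem_neg.2 hp
  have hq' : -q ∈ slice K u (-y) := by
    rw [slice_neg hK.symm]
    exact Set.neg_mem_neg.2 hq
  have m1 : a • p + b • (-q) ∈ slice K u (a * y + b * (-y)) :=
    hsub (add_mem_add (smul_mem_smul_set hp) (smul_mem_smul_set hq'))
  have m2 : a • q + b • (-p) ∈ slice K u (a * y + b * (-y)) :=
    hsub (add_mem_add (smul_mem_smul_set hq) (smul_mem_smul_set hp'))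
  have i1 := le_supp hc3 (J w) m1
  have i2 := le_supp hc3 (-(J w)) m2
  have hbe : b = 1 - a := by linarith only [hab]
  have e1 : inner ℝ (a • p + b • (-q)) (J w) =
      a * inner ℝ p (J w) + b * inner ℝ q (-(J w)) := by
    rw [inner_add_left, inner_smul_left, inner_smul_left, inner_neg_left, inner_neg_right]
    simp only [Real.ringHom_apply, Submodule.coe_inner, mul_neg]
  have e2 : inner ℝ (a • q + b • (-p)) (-(J w)) =
      a * inner ℝ q (-(J w)) + b * inner ℝ p (J w) := by
    rw [inner_add_left, inner_smul_left, inner_smul_left, inner_neg_left, inner_neg_right,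
      inner_neg_right]
    simp only [Real.ringHom_apply, Submodule.coe_inner, mul_neg, neg_neg]
  rw [e1, hpe, hqe] at i1
  rw [e2, hpe, hqe] at i2
  rw [hbe] at i1 i2 ⊢
  linarith only [i1, i2]

/-- The key inequality at level `m`. -/
theorem sqrt_vol_ge (hd : finrank ℝ V = 3) {K : Set V} (hK : IsSymBody K) {u : V}
    (hu : ‖u‖ = 1) {D : Set ((ℝ ∙ u)ᗮ : Submodule ℝ V)} (hDc : IsCompact D)
    (hD : D = {z | ∀ w : ((ℝ ∙ u)ᗮ : Submodule ℝ V), inner ℝ z w ≤ beta K (w : V)})
    {m : ℕ} (hm : 0 < m) :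
    2 * ∫ y : ℝ, Real.sqrt (vol (slice K u y)) ≤
      Real.sqrt (vol D) + 4 * (supp K u / m) * Real.sqrt (vol (slice K u 0)) := by
  have h2 := finrank_perp hd hu
  obtain ⟨J, hJ⟩ := exists_rotation h2
  have hKc := hK.compact
  have hpos := supp_pos hK hu
  set h := supp K u with hh
  have hm' : (0 : ℝ) < m := by exact_mod_cast hm
  set c : ℝ := h / m with hc
  have hcpos : 0 < c := by (clear * - hpos hm; positivity)
  set S : Fin m → Set ((ℝ ∙ u)ᗮ : Submodule ℝ V) := fun j => slice K u (c * ((j : ℕ) + 1)) with hS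
  have hmem : ∀ j : Fin m, c * ((j : ℕ) + 1) ∈ Icc 0 h := by
    intro j
    refine ⟨by (clear * - hpos hm; positivity), ?_⟩
    have h1 : ((j : ℕ) : ℝ) + 1 ≤ m := by exact_mod_cast j.2
    calc c * ((j : ℕ) + 1) ≤ c * m := by (clear * - h1 hpos hm; gcongr)
      _ = h := by rw [hc]; field_simp
  have hSne : ∀ j, (S j).Nonempty := fun j =>
    slice_nonempty hK hu ⟨by linarith only [hpos, (hmem j).1], (hmem j).2⟩
  have hSc : ∀ j, IsCompact (S j) := fun j => slice_isCompact hKc u _
  have hSconv : ∀ j, Convex ℝ (S j) := fun j => slice_convex hK.convex u _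
  -- the difference bodies
  set T : Fin m → Set ((ℝ ∙ u)ᗮ : Submodule ℝ V) := fun j => S j + -S j with hT
  have hTc : ∀ j, IsCompact (T j) := fun j => (hSc j).add (hSc j).neg
  have hTne : ∀ j, (T j).Nonempty := fun j => (hSne j).add (hSne j).neg
  have hTvol : ∀ j, 2 * Real.sqrt (vol (S j)) ≤ Real.sqrt (vol (T j)) := by
    intro j
    have bm := brunn_minkowski (V := ((ℝ ∙ u)ᗮ : Submodule ℝ V)) (hSc j) (hSc j).neg (hSne j)
      (hSne j).neg (by omega)
    rw [h2] at bm
    simp only [Nat.cast_ofNat] at bm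
    rw [← Real.sqrt_eq_rpow, ← Real.sqrt_eq_rpow, ← Real.sqrt_eq_rpow] at bm
    have e : vol (-S j) = vol (S j) := by
      unfold vol
      rw [Measure.measure_neg]
    rw [e] at bm
    (clear hd hK hu D hDc hD hm h2 J hJ hKc hpos hh hm' hc hcpos hS hmem hSne hSc hSconv hT hTc hTne e; linarith)
  -- D contains the rotated Minkowski sum
  have hsub : J.symm '' ((2 * c) • ∑ j, T j) ⊆ D := by
    rintro _ ⟨_, ⟨z, hz, rfl⟩, rfl⟩
    rw [hD]
    intro w
    obtain ⟨g, hg, rfl⟩ := (Set.mem_fintype_sum _ _).1 hz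
    have e1 : inner ℝ (J.symm ((2 * c) • ∑ j, g j)) w = 2 * c * ∑ j, inner ℝ (g j) (J w) := by
      have : inner ℝ (J.symm ((2 * c) • ∑ j, g j)) w =
          inner ℝ ((2 * c) • ∑ j, g j) (J w) := by
        rw [← J.inner_map_map (J.symm ((2 * c) • ∑ j, g j)) w, J.apply_symm_apply]
      rw [this, inner_smul_left, sum_inner]
      simp only [Real.ringHom_apply, Submodule.coe_inner]
    show inner ℝ (J.symm ((2 * c) • ∑ j, g j)) w ≤ beta K (w : V)
    rw [e1, beta_eq_integral_slice hKc hu w]
    have hR := riemann_lower (f := fun y => beta (slice K u y) w) hpos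
      (beta_slice_antitone hd hK hu w)
      (fun y hy => by
        show beta (slice K u y) w = 0
        rw [slice_eq_empty hKc hu hy, beta_empty])
      (fun y => by
        show beta (slice K u (-y)) w = beta (slice K u y) w
        rw [slice_neg hK.symm, beta_neg_set]) hm
    refine le_trans ?_ hR
    have hj : ∀ j : Fin m, inner ℝ (g j) (J w) ≤ beta (slice K u (c * ((j : ℕ) + 1))) w := by
      intro j
      obtain ⟨a, ha, b, hb, hab⟩ := hg j
      rw [beta_plane h2 J hJ (hSc j) (hSconv j) (hSne j), ← hab, inner_add_left]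
      have i1 := le_supp (hSc j) (J w) ha
      have i2 := le_supp (hSc j) (-(J w)) (Set.mem_neg.1 hb)
      rw [inner_neg_left, inner_neg_right, neg_neg] at i2
      linarith only [i1, i2]
    have : ∑ j : Fin m, inner ℝ (g j) (J w) ≤
        ∑ j : Fin m, beta (slice K u (c * ((j : ℕ) + 1))) w :=
      Finset.sum_le_sum fun j _ => hj j
    have h2c : 0 ≤ 2 * c := by positivity
    exact mul_le_mul_of_nonneg_left this h2c
  have hsumc : IsCompact (∑ j, T j) := isCompact_sum hTc
  have hvol1 : (2 * c) ^ 2 * vol (∑ j, T j) ≤ vol D := by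
    have h3 := vol_mono hDc hsub
    have e : vol (J.symm '' ((2 * c) • ∑ j, T j)) = vol ((2 * c) • ∑ j, T j) := by
      unfold vol
      rw [← (J.symm.measurePreserving).measure_preimage
        (((hsumc.smul (2 * c)).image J.symm.continuous).measurableSet.nullMeasurableSet),
        preimage_image_eq _ J.symm.injective]
    rw [e, vol_smul_set, h2, abs_of_nonneg (by positivity)] at h3
    exact h3
  have hvol2 : 2 * c * Real.sqrt (vol (∑ j, T j)) ≤ Real.sqrt (vol D) := by
    calc 2 * c * Real.sqrt (vol (∑ j, T j)) =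
        Real.sqrt ((2 * c) ^ 2 * vol (∑ j, T j)) := by
          rw [Real.sqrt_mul (by (clear * - hpos hm; positivity)), Real.sqrt_sq (by positivity)]
      _ ≤ _ := Real.sqrt_le_sqrt hvol1
  have hbm := bm_sum (V := ((ℝ ∙ u)ᗮ : Submodule ℝ V)) hTc hTne (by omega)
  rw [h2] at hbm
  simp only [Nat.cast_ofNat] at hbm
  simp only [← Real.sqrt_eq_rpow] at hbm
  have hs1 : ∑ j, 2 * Real.sqrt (vol (S j)) ≤ Real.sqrt (vol (∑ j, T j)) :=
    (Finset.sum_le_sum fun j _ => hTvol j).trans hbm
  have hU := riemann_upper (f := fun y => Real.sqrt (vol (slice K u y))) hpos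
      (sqrt_slice_antitone hd hK hu) (Real.sqrt_nonneg _)
      (fun y hy => by
        show Real.sqrt (vol (slice K u y)) = 0
        rw [slice_eq_empty hKc hu hy]
        simp only [vol, measure_empty, ENNReal.toReal_zero, Real.sqrt_zero])
      (fun y => by
        show Real.sqrt (vol (slice K u (-y))) = Real.sqrt (vol (slice K u y))
        rw [slice_vol_even hK hu]) hm
  rw [← Finset.mul_sum] at hs1
  have hs2 : 2 * c * (2 * ∑ j, Real.sqrt (vol (S j))) ≤ 2 * c * Real.sqrt (vol (∑ j, T j)) :=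
    mul_le_mul_of_nonneg_left hs1 (by (clear * - hpos hm; positivity))
  have hU' : ∫ y : ℝ, Real.sqrt (vol (slice K u y)) ≤ 2 * c * (Real.sqrt (vol (slice K u 0)) +
      ∑ j, Real.sqrt (vol (S j))) := hU
  nlinarith [hs2, hU', hvol2]

theorem shadow_projBody_ge (hd : finrank ℝ V = 3) {K : Set V} (hK : IsSymBody K) {u : V}
    (hu : ‖u‖ = 1) :
    4 * (∫ y : ℝ, Real.sqrt (vol (slice K u y))) ^ 2 ≤ shadow (projBody K) u := by
  have hKc := hK.compact
  have hPi := projBody_isSymBody hK.toIsBody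
  have hD : (ℝ ∙ u)ᗮ.orthogonalProjectionOnto '' (projBody K) =
      {z | ∀ w : ((ℝ ∙ u)ᗮ : Submodule ℝ V), inner ℝ z w ≤ beta K (w : V)} := by
    rw [projBody_eq_wulff hKc hK.convex]
    refine wulff_proj (fun t v ht => ?_) (beta_add_le hKc hK.convex) _
    rw [beta_smul hKc hK.convex, abs_of_nonneg ht]
  have hDc : IsCompact ((ℝ ∙ u)ᗮ.orthogonalProjectionOnto '' (projBody K)) :=
    hPi.compact.image (ContinuousLinearMap.continuous _)
  have key : 2 * ∫ y : ℝ, Real.sqrt (vol (slice K u y)) ≤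
      Real.sqrt (shadow (projBody K) u) := by
    refine le_of_forall_pos_le_add fun ε hε => ?_
    obtain ⟨m, hm⟩ := exists_nat_gt (4 * supp K u * Real.sqrt (vol (slice K u 0)) / ε)
    have hnn : 0 ≤ 4 * supp K u * Real.sqrt (vol (slice K u 0)) / ε := by
      have := supp_pos hK hu
      (clear hd hKc hPi hD hDc m hm; positivity)
    have hm' : (0 : ℝ) < m := hnn.trans_lt hm
    have hm0 : 0 < m := by exact_mod_cast hm'
    have h1 := sqrt_vol_ge hd hK hu hDc hD hm0
    have h3 : 4 * (supp K u / m) * Real.sqrt (vol (slice K u 0)) ≤ ε := by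
      rw [div_lt_iff₀ hε] at hm
      have : 4 * (supp K u / m) * Real.sqrt (vol (slice K u 0)) =
          4 * supp K u * Real.sqrt (vol (slice K u 0)) / m := by ring
      rw [this, div_le_iff₀ hm']
      (clear hd hK hu hKc hPi hD hDc hε hnn hm' hm0 h1 this; linarith)
    have e : vol ((ℝ ∙ u)ᗮ.orthogonalProjectionOnto '' (projBody K)) = shadow (projBody K) u := rfl
    rw [e] at h1
    (clear hd hK hu hKc hPi hD hDc hε hm hnn hm' hm0 e; linarith)
  have hI : 0 ≤ ∫ y : ℝ, Real.sqrt (vol (slice K u y)) :=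
    integral_nonneg fun y => Real.sqrt_nonneg _
  have hsh : 0 ≤ shadow (projBody K) u := shadow_nonneg _ _
  calc 4 * (∫ y : ℝ, Real.sqrt (vol (slice K u y))) ^ 2 =
      (2 * ∫ y : ℝ, Real.sqrt (vol (slice K u y))) ^ 2 := by ring
    _ ≤ (Real.sqrt (shadow (projBody K) u)) ^ 2 := by (clear hI hsh; gcongr)
    _ = shadow (projBody K) u := Real.sq_sqrt hsh

end Vale.Agent.P237
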