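import Vale.Agent.P237.Defs
import Vale.Agent.P237.Fubini
import Vale.Agent.P237.Seg
import Vale.Agent.P237.BM
import Vale.Agent.P237.BMEq
import Vale.Agent.P237.Mixed
import Vale.Agent.P237.ZonoApprox
import Vale.Agent.P237.Pi
import Vale.Agent.P237.Slices
import Vale.Agent.P237.PlaneBeta
import Vale.Agent.P237.ShadowPi
import Vale.Agent.P237.John1
import Vale.Agent.P237.John2
import Vale.Agent.P237.Exist
import Vale.Agent.P237.OneD
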