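import Vale.Agent.P237.MathlibUsed

/-!
# P237: definitions used by the statements

`V` is an `n`-dimensional real inner product space (`n = finrank ℝ V`) with its Lebesgue
measure `volume`.
-/

open MeasureTheory Metric Set Module

namespace Vale.Agent.P237.Statement

variable {V : Type} [NormedAddCommGroup V] [InnerProductSpace ℝ V] [FiniteDimensional ℝ V]
  [MeasurableSpace V] [BorelSpace V]

/-- A convex body: compact, convex, with nonempty interior. -/
def IsConvexBody (K : Set V) : Prop := Convex ℝ K ∧ IsCompact K ∧ (interior K).Nonempty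

/-- The `n`-dimensional volume. -/
noncomputable def vol (K : Set V) : ℝ := (volume K).toReal

/-- The support function `h_L(x) = max_{y ∈ L} ⟨x, y⟩`. -/
noncomputable def supportFun (L : Set V) (x : V) : ℝ := sSup ((fun y => inner ℝ x y) '' L)

/-- The hyperplane `u^⊥`. -/
noncomputable def perp (u : V) : Submodule ℝ V := (ℝ ∙ u)ᗮ

/-- The image of `K` under the orthogonal projection onto the hyperplane `u^⊥`. -/
noncomputable def projSet (K : Set V) (u : V) : Set (perp u) :=
  (fun x => (perp u).orthogonalProjectionOnto x) '' K

/-- The `(n-1)`-dimensional volume of the orthogonal projection of `K` onto `u^⊥`. -/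
noncomputable def projVol (K : Set V) (u : V) : ℝ := vol (projSet K u)

/-- `L` is the projection body of `K`: the convex body with support function
`h_L(u) = vol_{n-1}(proj_{u^⊥} K)` for all unit vectors `u`. -/
def IsProjectionBody (K L : Set V) : Prop :=
  IsConvexBody L ∧ ∀ u : V, ‖u‖ = 1 → supportFun L u = projVol K u

/-- The volume of the Euclidean unit ball of `ℝᵐ`. -/
noncomputable def kappa (m : ℕ) : ℝ := vol (closedBall (0 : EuclideanSpace ℝ (Fin m)) 1)

/-- An ellipsoid: a set `a + T B` with `B` the unit ball and `T` an invertible linear map. -/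
def IsEllipsoid (E : Set V) : Prop :=
  ∃ (a : V) (T : V → V), IsLinearMap ℝ T ∧ Function.Bijective T ∧
    E = (fun x => a + T x) '' closedBall 0 1

/-- Petty's conjecture for the convex bodies of the space `V`, of dimension `n`. -/
def PettyIn (V : Type) [NormedAddCommGroup V] [InnerProductSpace ℝ V] [FiniteDimensional ℝ V]
    [MeasurableSpace V] [BorelSpace V] (n : ℕ) : Prop :=
  ∀ K L : Set V, IsConvexBody K → IsProjectionBody K L →
    kappa (n - 1) ^ n * kappa n ^ (2 - (n : ℤ)) * vol K ^ (n - 1) ≤ vol L ∧
      (vol L = kappa (n - 1) ^ n * kappa n ^ (2 - (n : ℤ)) * vol K ^ (n - 1) ↔ IsEllipsoid K)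

end Vale.Agent.P237.Statement
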