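import Vale.Agent.P237.Main
import Vale.Agent.P237.Statement
import Vale.Agent.P237.ZonoApprox

/-!
# P237: proof of the dimension three statement
-/

open MeasureTheory Metric Set Module

namespace Vale.Agent.P237.Statement

variable {V : Type} [NormedAddCommGroup V] [InnerProductSpace ℝ V] [FiniteDimensional ℝ V]
  [MeasurableSpace V] [BorelSpace V]

theorem projVol_eq (K : Set V) (u : V) : projVol K u = shadow K u := by
  have h : projVol K u = (volume (projSet K u)).toReal := rfl
  rw [h]
  rfl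

theorem isProjectionBody_iff {K L : Set V} (hK : IsConvexBody K) :
    IsProjectionBody K L ↔ L = projBody K := by
  have hK' : IsBody K := ⟨hK.1, hK.2.1, hK.2.2⟩
  have hs : ∀ (L : Set V) x, supportFun L x = supp L x := by
    intro L x
    unfold supportFun supp
    simp_rw [real_inner_comm]
  constructor
  · rintro ⟨hL, hu⟩
    apply Subset.antisymm
    · intro y hy u hu1
      have h1 : inner ℝ y u ≤ supp L u := ZA.le_supp hL.2.1 hy u
      rw [← hs, hu u hu1, projVol_eq K] at h1
      exact h1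
    · intro y hy
      refine ZA.mem_of_supp hL.2.1 hL.1 (hL.2.2.mono interior_subset) ?_
      intro v
      by_cases hv : v = 0
      · subst hv
        have hne : L.Nonempty := hL.2.2.mono interior_subset
        obtain ⟨z, hz⟩ := hne
        have := ZA.le_supp hL.2.1 hz (0 : V)
        simpa using this
      · have hn : 0 < ‖v‖ := norm_pos_iff.2 hv
        have h1 : inner ℝ y (‖v‖⁻¹ • v) ≤ shadow K (‖v‖⁻¹ • v) := hy _ (norm_unit hv)
        have h2 : supp L (‖v‖⁻¹ • v) = shadow K (‖v‖⁻¹ • v) := by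
          rw [← hs, hu _ (norm_unit hv), projVol_eq K]
        rw [← h2] at h1
        have h3 : supp L v = ‖v‖ * supp L (‖v‖⁻¹ • v) := by
          have h4 := ZA.supp_smul hL.2.1 (hL.2.2.mono interior_subset) hn.le (‖v‖⁻¹ • v)
          rw [smul_smul, mul_inv_cancel₀ hn.ne', one_smul] at h4
          exact h4
        rw [h3]
        rw [inner_smul_right] at h1
        calc inner ℝ y v = ‖v‖ * (‖v‖⁻¹ * inner ℝ y v) := by field_simp
          _ ≤ _ := mul_le_mul_of_nonneg_left h1 hn.le
  · rintro rfl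
    have hb := projBody_isSymBody hK'
    refine ⟨⟨hb.convex, hb.compact, hb.int⟩, ?_⟩
    intro u hu
    rw [hs, supp_projBody hK', beta_unit hK'.compact hK'.convex hu, projVol_eq K]

theorem existsUnique_projectionBody {K : Set V} (hK : IsConvexBody K) :
    ∃! L, IsProjectionBody K L :=
  ⟨projBody K, (isProjectionBody_iff hK).2 rfl, fun _ hL => (isProjectionBody_iff hK).1 hL⟩

theorem kappa_two : kappa 2 = Real.pi := vol_ball2 (by simp)

theorem kappa_three : kappa 3 = 4 * Real.pi / 3 := vol_ball3 (by simp)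

omit [FiniteDimensional ℝ V] [MeasurableSpace V] [BorelSpace V] in
theorem isEllipsoid_iff (E : Set V) : IsEllipsoid E ↔
    ∃ (a : V) (T : V ≃ₗ[ℝ] V), E = (fun x => a + T x) '' closedBall 0 1 := by
  constructor
  · rintro ⟨a, T, hl, hb, rfl⟩
    exact ⟨a, LinearEquiv.ofBijective (IsLinearMap.mk' T hl) hb, rfl⟩
  · rintro ⟨a, T, rfl⟩
    exact ⟨a, T, ⟨T.map_add, T.map_smul⟩, T.bijective, rfl⟩

theorem petty_dim_three (hd : finrank ℝ V = 3) : PettyIn V 3 := by
  intro K L hK hL
  have hK' : IsBody K := ⟨hK.1, hK.2.1, hK.2.2⟩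
  obtain rfl := (isProjectionBody_iff hK).1 hL
  have hc : kappa (3 - 1) ^ 3 * kappa 3 ^ (2 - ((3 : ℕ) : ℤ)) * vol K ^ (3 - 1) =
      3 * Real.pi ^ 2 / 4 * P237.vol K ^ 2 := by
    have h1 : vol K = P237.vol K := rfl
    have h2 : (2 - ((3 : ℕ) : ℤ)) = -1 := by norm_num
    rw [h1, h2, kappa_three, zpow_neg_one]
    norm_num
    rw [kappa_two]
    have := Real.pi_pos
    field_simp
    norm_num
  rw [hc, isEllipsoid_iff]
  refine ⟨Main.petty3 hd hK', ?_, ?_⟩
  · intro h
    exact Main.petty3_eq hd hK' h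
  · rintro ⟨a, T, rfl⟩
    exact Main.petty3_ellipsoid hd a T

end Vale.Agent.P237.Statement
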