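import Vale.Agent.P237.Ratio
import Vale.Agent.P237.Slices
import Vale.Agent.P237.Seg

/-!
# P237: the Euclidean ball
-/

open MeasureTheory Metric Set Module
open scoped Pointwise

namespace Vale.Agent.P237

variable {V : Type*} [NormedAddCommGroup V] [InnerProductSpace ℝ V] [FiniteDimensional ℝ V]
  [MeasurableSpace V] [BorelSpace V]

theorem vol_ball3 (hd : finrank ℝ V = 3) : vol (closedBall (0 : V) 1) = 4 * Real.pi / 3 := by
  unfold vol
  rw [InnerProductSpace.volume_closedBall_of_dim_odd (k := 1) (by omega) (0 : V) 1, hd]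
  have h0 : (0 : ℝ) ≤ Real.pi ^ 1 * 2 ^ (1 + 1) / ((Nat.doubleFactorial 3 : ℕ) : ℝ) := by positivity
  simp only [ENNReal.ofReal_one, one_pow, one_mul]
  rw [ENNReal.toReal_ofReal h0]
  norm_num [Nat.doubleFactorial]
  ring

theorem vol_ball2 (hd : finrank ℝ V = 2) : vol (closedBall (0 : V) 1) = Real.pi := by
  haveI : Nontrivial V := Module.nontrivial_of_finrank_pos (R := ℝ) (by omega)
  unfold vol
  rw [InnerProductSpace.volume_closedBall_of_dim_even (k := 1) (by omega) (0 : V) 1, hd]
  have h0 : (0 : ℝ) ≤ Real.pi ^ 1 / ((Nat.factorial 1 : ℕ) : ℝ) := by positivity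
  simp only [ENNReal.ofReal_one, one_pow, one_mul]
  rw [ENNReal.toReal_ofReal h0]
  simp

omit [MeasurableSpace V] [BorelSpace V] in
theorem isSymBody_ball : IsSymBody (closedBall (0 : V) 1) where
  convex := convex_closedBall _ _
  compact := isCompact_closedBall _ _
  int := ⟨0, mem_interior.2 ⟨ball 0 1, ball_subset_closedBall, isOpen_ball, mem_ball_self one_pos⟩⟩
  symm := fun x hx => by simpa using hx

omit [MeasurableSpace V] [BorelSpace V] in
theorem proj_ball (u : V) :
    ((ℝ ∙ u)ᗮ : Submodule ℝ V).orthogonalProjectionOnto '' closedBall (0 : V) 1 =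
      closedBall (0 : ((ℝ ∙ u)ᗮ : Submodule ℝ V)) 1 := by
  apply Subset.antisymm
  · rintro _ ⟨x, hx, rfl⟩
    rw [mem_closedBall_zero_iff] at hx ⊢
    exact (Submodule.norm_orthogonalProjectionOnto_apply_le _ x).trans hx
  · intro z hz
    refine ⟨(z : V), ?_, ?_⟩
    · rw [mem_closedBall_zero_iff] at hz ⊢
      exact hz
    · simp

theorem shadow_ball (u : V) :
    shadow (closedBall (0 : V) 1) u = vol (closedBall (0 : ((ℝ ∙ u)ᗮ : Submodule ℝ V)) 1) := by
  unfold shadow vol
  rw [proj_ball]

theorem projBody_ball_of {c : ℝ} (hc : 0 ≤ c)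
    (h : ∀ u : V, ‖u‖ = 1 → shadow (closedBall (0 : V) 1) u = c) :
    projBody (closedBall (0 : V) 1) = closedBall 0 c := by
  ext y
  rw [mem_closedBall_zero_iff]
  constructor
  · intro hy
    by_cases h0 : y = 0
    · rw [h0, norm_zero]; exact hc
    · have h1 := hy (‖y‖⁻¹ • y) (norm_unit h0)
      rw [h _ (norm_unit h0), inner_smul_right, real_inner_self_eq_norm_sq] at h1
      have hn : ‖y‖ ≠ 0 := norm_ne_zero_iff.2 h0
      calc ‖y‖ = ‖y‖⁻¹ * ‖y‖ ^ 2 := by field_simp
        _ ≤ c := h1
  · intro hy u hu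
    rw [h u hu]
    calc inner ℝ y u ≤ ‖y‖ * ‖u‖ := real_inner_le_norm _ _
      _ = ‖y‖ := by rw [hu, mul_one]
      _ ≤ c := hy

theorem projBody_ball3 (hd : finrank ℝ V = 3) :
    projBody (closedBall (0 : V) 1) = closedBall 0 Real.pi := by
  refine projBody_ball_of Real.pi_pos.le fun u hu => ?_
  rw [shadow_ball, vol_ball2 (finrank_perp hd hu)]

theorem ratio_ball3 (hd : finrank ℝ V = 3) :
    ratio (closedBall (0 : V) 1) = 3 * Real.pi ^ 2 / 4 := by
  unfold ratio
  have h1 : (closedBall (0 : V) Real.pi) = Real.pi • closedBall (0 : V) 1 := by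
    rw [_root_.smul_closedBall _ _ zero_le_one, smul_zero, Real.norm_eq_abs, abs_of_pos Real.pi_pos,
      mul_one]
  rw [projBody_ball3 hd, h1, vol_smul_set, hd, vol_ball3 hd, abs_of_pos Real.pi_pos]
  have := Real.pi_pos
  norm_num
  field_simp

/-- A body containing the unit ball with at most the volume of the unit ball is the unit ball. -/
theorem eq_ball_of_vol {K : Set V} (hK : IsBody K) (h1 : closedBall (0 : V) 1 ⊆ K)
    (h : vol K ≤ vol (closedBall (0 : V) 1)) : K = closedBall (0 : V) 1 := by
  have hfin : volume K ≠ ⊤ := hK.compact.measure_lt_top.ne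
  have hfinB : volume (closedBall (0 : V) 1) ≠ ⊤ := measure_closedBall_lt_top.ne
  have hle : volume K ≤ volume (closedBall (0 : V) 1) := (ENNReal.toReal_le_toReal hfin hfinB).1 h
  -- the open set `interior K \ B` is null
  have hnull : volume (interior K \ closedBall (0 : V) 1) = 0 := by
    have h2 : volume (K \ closedBall (0 : V) 1) = 0 := by
      rw [measure_sdiff h1 measurableSet_closedBall.nullMeasurableSet hfinB]
      exact tsub_eq_zero_of_le hle
    exact measure_mono_null (sdiff_subset_sdiff_left interior_subset) h2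
  have hopen : IsOpen (interior K \ closedBall (0 : V) 1) :=
    isOpen_interior.sdiff isClosed_closedBall
  have hempty : interior K \ closedBall (0 : V) 1 = ∅ := by
    by_contra hne
    exact (hopen.measure_pos _ (nonempty_iff_ne_empty.2 hne)).ne' hnull
  have hint : interior K ⊆ closedBall (0 : V) 1 := sdiff_eq_empty.1 hempty
  apply Subset.antisymm _ h1
  have hcl : closure (interior K) = closure K := hK.convex.closure_interior_eq_closure_of_nonempty_interior hK.int
  calc K ⊆ closure K := subset_closure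
    _ = closure (interior K) := hcl.symm
    _ ⊆ closedBall (0 : V) 1 := closure_minimal hint isClosed_closedBall

end Vale.Agent.P237
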