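import Vale.Agent.P237.Defs

/-!
# P237: the affine invariant functional of the projection-volume problem
-/

open MeasureTheory Metric Set Module

namespace Vale.Agent.P237

variable {V : Type*} [NormedAddCommGroup V] [InnerProductSpace ℝ V] [FiniteDimensional ℝ V]
  [MeasurableSpace V] [BorelSpace V]

/-- The affine invariant functional `|Π K| / |K|^(n-1)`. -/
noncomputable def ratio (K : Set V) : ℝ := vol (projBody K) / vol K ^ (finrank ℝ V - 1)

end Vale.Agent.P237
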