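import Vale.Agent.P237.All
import Vale.Agent.P237.Ratio

/-!
# P237: invariance of the functional, existence of a global minimizer
-/

open MeasureTheory Metric Set Module
open scoped Pointwise

namespace Vale.Agent.P237

variable {V : Type*} [NormedAddCommGroup V] [InnerProductSpace ℝ V] [FiniteDimensional ℝ V]
  [MeasurableSpace V] [BorelSpace V]

omit [MeasurableSpace V] [BorelSpace V] in
theorem IsSymBody.image (T : V ≃ₗ[ℝ] V) {K : Set V} (hK : IsSymBody K) : IsSymBody (T '' K) := by
  refine ⟨hK.toIsBody.image T, ?_⟩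
  rintro _ ⟨x, hx, rfl⟩
  exact ⟨-x, hK.symm x hx, map_neg T x⟩

omit [FiniteDimensional ℝ V] [MeasurableSpace V] [BorelSpace V] in
theorem IsBody.translate {K : Set V} (hK : IsBody K) (c : V) :
    IsBody ((fun x => c + x) '' K) := by
  refine ⟨?_, hK.compact.image (by fun_prop), ?_⟩
  · exact hK.convex.translate c
  · obtain ⟨x, hx⟩ := hK.int
    refine ⟨c + x, ?_⟩
    have h1 := (Homeomorph.addLeft c).image_interior K
    have h2 : (fun x => c + x) '' interior K = interior ((fun x => c + x) '' K) := h1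
    rw [← h2]
    exact ⟨x, hx, rfl⟩

theorem shadow_translate (K : Set V) (c u : V) :
    shadow ((fun x => c + x) '' K) u = shadow K u := by
  unfold shadow
  have h1 : (ℝ ∙ u)ᗮ.orthogonalProjectionOnto '' ((fun x => c + x) '' K) =
      (fun x => (ℝ ∙ u)ᗮ.orthogonalProjectionOnto c + x) ''
        ((ℝ ∙ u)ᗮ.orthogonalProjectionOnto '' K) := by
    rw [image_image, image_image]
    apply image_congr
    intro x _
    rw [map_add]
  rw [h1, volume_image_add_left]

theorem projBody_translate (K : Set V) (c : V) :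
    projBody ((fun x => c + x) '' K) = projBody K := by
  unfold projBody
  simp only [shadow_translate]

theorem ratio_image (T : V ≃ₗ[ℝ] V) {K : Set V} (hK : IsBody K) (_hd : 0 < finrank ℝ V) :
    ratio (T '' K) = ratio K := by
  unfold ratio
  have hdet : LinearMap.det (T : V →ₗ[ℝ] V) ≠ 0 := (LinearEquiv.isUnit_det' T).ne_zero
  have hD : 0 < |LinearMap.det (T : V →ₗ[ℝ] V)| := abs_pos.mpr hdet
  rw [vol_projBody_image T hK, vol_image_linearEquiv, mul_pow]
  exact mul_div_mul_left _ _ (pow_pos hD _).ne'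

theorem ratio_translate (K : Set V) (c : V) : ratio ((fun x => c + x) '' K) = ratio K := by
  unfold ratio
  rw [projBody_translate, vol_image_add_left]

theorem exists_global_min (hd : 0 < finrank ℝ V) :
    ∃ K₀ : Set V, IsSymBody K₀ ∧ ∀ K : Set V, IsSymBody K → ratio K₀ ≤ ratio K := by
  obtain ⟨K₀, hK₀, -, -, hmin⟩ := exists_minimizer (V := V) hd (2 ^ finrank ℝ V)
    (one_le_pow₀ (by norm_num))
  refine ⟨K₀, hK₀, fun K hK => ?_⟩
  obtain ⟨T, hT⟩ := exists_johnPos hK
  have hTK := hK.image T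
  rw [← ratio_image T hK.toIsBody hd]
  exact hmin _ hTK hT.1 (johnPos_bounded hTK hT)

omit [FiniteDimensional ℝ V] [MeasurableSpace V] [BorelSpace V] in
theorem center_zero {K M : Set V} (hK : IsSymBody K) (hM : IsSymBody M) {c : V} {r : ℝ}
    (_hr : 0 < r) (h : M = (fun x => c + x) '' (r • K)) : c = 0 := by
  have hne : M.Nonempty := hM.int.mono interior_subset
  obtain ⟨x, hx, hmax⟩ := hM.compact.exists_isMaxOn hne
    (f := fun y => inner ℝ y c) (by fun_prop)
  -- `M` is invariant under the translation by `2c`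
  have h1 : c + (c + x) ∈ M := by
    have h2 : -x ∈ M := hM.symm x hx
    rw [h] at h2
    obtain ⟨_, ⟨k, hk, rfl⟩, h3⟩ := h2
    rw [h]
    refine ⟨r • (-k), smul_mem_smul_set (hK.symm k hk), ?_⟩
    simp only at h3 ⊢
    rw [smul_neg]
    have h4 : x = -(c + r • k) := by rw [h3, neg_neg]
    rw [h4]
    abel
  have h2 := hmax h1
  simp only [mem_ofPred_eq, inner_add_left] at h2
  have h3 : inner ℝ c c = ‖c‖ ^ 2 := real_inner_self_eq_norm_sq c
  have h4 : ‖c‖ ^ 2 ≤ 0 := by
    rw [h3] at h2
    linarith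
  have h5 : ‖c‖ = 0 := by
    have := sq_nonneg ‖c‖
    exact pow_eq_zero_iff (two_ne_zero) |>.1 (le_antisymm h4 this)
  exact norm_eq_zero.1 h5

end Vale.Agent.P237
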