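import Vale.Agent.P237.Moment
import Vale.Agent.P237.ShadowPi
import Vale.Agent.P237.John2

/-!
# P237: the fixed point bound in dimension three
-/

open MeasureTheory Metric Set Module
open scoped Pointwise

namespace Vale.Agent.P237

variable {V : Type*} [NormedAddCommGroup V] [InnerProductSpace ℝ V] [FiniteDimensional ℝ V]
  [MeasurableSpace V] [BorelSpace V]

namespace Glue3

/-- In a contact direction of the John ellipsoid the second projection body is as large as
the factor `μ`. -/
theorem mu_eq_shadow {K : Set V} (hK : IsSymBody K) (hb : closedBall (0 : V) 1 ⊆ K) {μ : ℝ}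
    (hμ0 : 0 < μ) (hμ : projBody (projBody K) = μ • K) {u : V} (hu : ‖u‖ = 1)
    (hc : ∀ x ∈ K, inner ℝ x u ≤ 1) : shadow (projBody K) u = μ := by
  have hPi := projBody_isSymBody hK.toIsBody
  have h1 : supp (projBody (projBody K)) u = beta (projBody K) u :=
    supp_projBody hPi.toIsBody u
  rw [beta_unit hPi.compact hPi.convex hu] at h1
  have h2 : supp K u = 1 := by
    have huK : u ∈ K := hb (by rw [mem_closedBall, dist_zero_right, hu])
    apply le_antisymm
    · obtain ⟨x, hx, hxe⟩ := exists_supp hK.compact ⟨u, huK⟩ u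
      rw [← hxe]
      exact hc x hx
    · have h3 := le_supp hK.compact u huK
      rwa [real_inner_self_eq_norm_sq, hu, one_pow] at h3
  have h3 : supp (μ • K) u = μ * supp K u := by
    unfold supp
    have h4 : (fun x : V => inner ℝ x u) '' (μ • K) = μ • ((fun x : V => inner ℝ x u) '' K) := by
      rw [← Set.image_smul, ← Set.image_smul, image_image, image_image]
      simp only [real_inner_smul_left, smul_eq_mul]
    rw [h4, Real.sSup_smul_of_nonneg hμ0.le, smul_eq_mul]
  rw [← h1, hμ, h3, h2, mul_one]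

theorem main (hd : finrank ℝ V = 3) {K : Set V} (hK : IsSymBody K)
    (hJ : JohnPos K) {μ : ℝ} (hμ0 : 0 < μ) (hμ : projBody (projBody K) = μ • K) :
    3 * Real.pi ^ 2 / 4 * vol K ≤ μ ∧
      (4 * Real.pi / 3 < vol K → 3 * Real.pi ^ 2 / 4 * vol K < μ) := by
  obtain ⟨u, hu, hc, hm⟩ := john_contact hK hJ (by rw [hd]; norm_num)
  rw [hd] at hm
  have hS := sqrt_slice_bound hd hK hJ.1 hu hc (by exact_mod_cast hm)
  have hG := shadow_projBody_ge hd hK hu
  rw [mu_eq_shadow hK hJ.1 hμ0 hμ hu hc] at hG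
  refine ⟨by linarith [hS.1], fun h => by linarith [hS.2 h]⟩

end Glue3

theorem fixed_point_bound (hd : finrank ℝ V = 3) {K : Set V} (hK : IsSymBody K)
    (hJ : JohnPos K) {μ : ℝ} (hμ0 : 0 < μ) (hμ : projBody (projBody K) = μ • K) :
    3 * Real.pi ^ 2 / 4 * vol K ≤ μ :=
  (Glue3.main hd hK hJ hμ0 hμ).1

theorem fixed_point_eq (hd : finrank ℝ V = 3) {K : Set V} (hK : IsSymBody K)
    (hJ : JohnPos K) {μ : ℝ} (hμ0 : 0 < μ) (hμ : projBody (projBody K) = μ • K)
    (h : μ ≤ 3 * Real.pi ^ 2 / 4 * vol K) :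
    vol K ≤ 4 * Real.pi / 3 := by
  by_contra hcon
  push Not at hcon
  exact absurd h (not_le.mpr ((Glue3.main hd hK hJ hμ0 hμ).2 hcon))

end Vale.Agent.P237
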