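import Vale.Agent.P237.MathlibUsed

open MeasureTheory Set Filter Topology
open scoped Pointwise ENNReal NNReal

namespace Vale.Agent.P237
namespace BMEq

/-- quantile function -/
theorem exists_quantile {a : ℝ → ℝ} {α α' V : ℝ} (hα : α < α')
    (hc : ContinuousOn a (Ioo α α')) (hp : ∀ y ∈ Ioo α α', 0 < a y)
    (hi : IntervalIntegrable a volume α α') (hV : ∫ y in α..α', a y = V) :
    ∃ P : ℝ → ℝ, (∀ l ∈ Ioo 0 V, P l ∈ Ioo α α' ∧ ∫ y in α..(P l), a y = l) ∧
      (∀ y ∈ Ioo α α', (∫ t in α..y, a t) ∈ Ioo 0 V ∧ P (∫ t in α..y, a t) = y) ∧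
      (∀ l ∈ Ioo 0 V, HasDerivAt P (a (P l))⁻¹ l) ∧ StrictMonoOn P (Ioo 0 V) := by
  set F : ℝ → ℝ := fun y => ∫ t in α..y, a t with hF
  have hii : ∀ y ∈ Icc α α', ∀ z ∈ Icc α α', IntervalIntegrable a volume y z := by
    intro y hy z hz
    apply hi.mono_set
    rw [uIcc_of_le hα.le]
    exact uIcc_subset_Icc hy hz
  have hFmono : StrictMonoOn F (Icc α α') := by
    intro y hy z hz hyz
    have h1 : F z = F y + ∫ t in y..z, a t :=
      (intervalIntegral.integral_add_adjacent_intervals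
        (hii α (left_mem_Icc.mpr hα.le) y hy) (hii y hy z hz)).symm
    have h2 : 0 < ∫ t in y..z, a t :=
      intervalIntegral.intervalIntegral_pos_of_pos_on (hii y hy z hz)
        (fun x hx => hp x ⟨lt_of_le_of_lt hy.1 hx.1, lt_of_lt_of_le hx.2 hz.2⟩) hyz
    rw [h1]; linarith only [h2]
  have hFα : F α = 0 := intervalIntegral.integral_same
  have hFα' : F α' = V := hV
  have hV0 : 0 < V := by
    rw [← hFα, ← hFα']
    exact hFmono (left_mem_Icc.mpr hα.le) (right_mem_Icc.mpr hα.le) hα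
  have hFc : ContinuousOn F (Icc α α') := by
    have := intervalIntegral.continuousOn_primitive_interval' (μ := volume) (f := a)
      (b₁ := α) (b₂ := α') (a := α) hi left_mem_uIcc
    rwa [uIcc_of_le hα.le] at this
  have hFd : ∀ y ∈ Ioo α α', HasDerivAt F (a y) y := by
    intro y hy
    exact intervalIntegral.integral_hasDerivAt_right
      (hii α (left_mem_Icc.mpr hα.le) y (Ioo_subset_Icc_self hy))
      (hc.stronglyMeasurableAtFilter isOpen_Ioo y hy)
      (hc.continuousAt (isOpen_Ioo.mem_nhds hy))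
  have hFm : ∀ y ∈ Ioo α α', F y ∈ Ioo 0 V := by
    intro y hy
    constructor
    · rw [← hFα]; exact hFmono (left_mem_Icc.mpr hα.le) (Ioo_subset_Icc_self hy) hy.1
    · rw [← hFα']; exact hFmono (Ioo_subset_Icc_self hy) (right_mem_Icc.mpr hα.le) hy.2
  have hsurj : ∀ l, ∃ y, l ∈ Ioo 0 V → y ∈ Ioo α α' ∧ F y = l := by
    intro l
    by_cases hl : l ∈ Ioo 0 V
    · rw [← hFα, ← hFα'] at hl
      obtain ⟨y, hy, hy2⟩ := intermediate_value_Ioo hα.le hFc hl
      exact ⟨y, fun _ => ⟨hy, hy2⟩⟩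
    · exact ⟨0, fun h => absurd h hl⟩
  choose P hP using hsurj
  have hPinv : ∀ y ∈ Ioo α α', P (F y) = y := by
    intro y hy
    have h1 := hP (F y) (hFm y hy)
    exact hFmono.injOn (Ioo_subset_Icc_self h1.1) (Ioo_subset_Icc_self hy) h1.2
  have hPmono : StrictMonoOn P (Ioo 0 V) := by
    intro l hl m hm hlm
    by_contra hcon
    push Not at hcon
    have h1 := hFmono.monotoneOn (Ioo_subset_Icc_self (hP m hm).1)
      (Ioo_subset_Icc_self (hP l hl).1) hcon
    rw [(hP m hm).2, (hP l hl).2] at h1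
    linarith
  have hPc : ∀ l ∈ Ioo 0 V, ContinuousAt P l := by
    intro l hl
    apply hPmono.continuousAt_of_image_mem_nhds (isOpen_Ioo.mem_nhds hl)
    apply mem_of_superset (isOpen_Ioo.mem_nhds (hP l hl).1)
    intro y hy
    exact ⟨F y, hFm y hy, hPinv y hy⟩
  refine ⟨P, fun l hl => hP l hl, fun y hy => ⟨hFm y hy, hPinv y hy⟩, fun l hl => ?_, hPmono⟩
  apply HasDerivAt.of_local_left_inverse (hPc l hl) (hFd _ (hP l hl).1) (hp _ (hP l hl).1).ne'
  filter_upwards [isOpen_Ioo.mem_nhds hl] with m hm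
  exact (hP m hm).2

theorem amgm_eq {x y : ℝ} (hx : 0 < x) (hy : 0 < y) :
    1 ≤ (x⁻¹ + y⁻¹) / 2 * Real.sqrt (x * y) ∧
      ((x⁻¹ + y⁻¹) / 2 * Real.sqrt (x * y) = 1 → x = y) := by
  have hs : Real.sqrt (x * y) = Real.sqrt x * Real.sqrt y := Real.sqrt_mul hx.le y
  have hp : 0 < Real.sqrt x := Real.sqrt_pos.mpr hx
  have hq : 0 < Real.sqrt y := Real.sqrt_pos.mpr hy
  have hx2 : x = Real.sqrt x ^ 2 := (Real.sq_sqrt hx.le).symm
  have hy2 : y = Real.sqrt y ^ 2 := (Real.sq_sqrt hy.le).symm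
  rw [hs]
  generalize Real.sqrt x = p at *
  generalize Real.sqrt y = q at *
  subst hx2
  subst hy2
  have key : ((p ^ 2)⁻¹ + (q ^ 2)⁻¹) / 2 * (p * q) = 1 + (p - q) ^ 2 / (2 * p * q) := by
    field_simp
    ring
  rw [key]
  constructor
  · have : 0 ≤ (p - q) ^ 2 / (2 * p * q) := by (clear * - hp hq; positivity)
    linarith only [this]
  · intro h
    have h1 : (p - q) ^ 2 / (2 * p * q) = 0 := by linarith only [h]
    rw [div_eq_zero_iff] at h1
    rcases h1 with h1 | h1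
    · have : p - q = 0 := by simpa using h1
      have : p = q := by linarith only [this]
      rw [this]
    · have : 0 < 2 * p * q := by positivity
      linarith only [h1, this]

/-- Equality case of the one-dimensional Prekopa-Leindler inequality. -/
theorem oneD {a b : ℝ → ℝ} {e : ℝ → ℝ≥0∞} {α α' β β' V : ℝ} (hα : α < α') (hβ : β < β')
    (hac : ContinuousOn a (Ioo α α')) (hap : ∀ y ∈ Ioo α α', 0 < a y)
    (hai : IntervalIntegrable a volume α α') (haV : ∫ y in α..α', a y = V)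
    (hbc : ContinuousOn b (Ioo β β')) (hbp : ∀ y ∈ Ioo β β', 0 < b y)
    (hbi : IntervalIntegrable b volume β β') (hbV : ∫ y in β..β', b y = V)
    (he : ∀ y ∈ Ioo α α', ∀ z ∈ Ioo β β', ENNReal.ofReal (Real.sqrt (a y * b z)) ≤ e ((y + z) / 2))
    (heV : ∫⁻ s, e s ≤ ENNReal.ofReal V) :
    ∃ k : ℝ, ∀ y ∈ Ioo α α', y + k ∈ Ioo β β' ∧ ∫ t in β..(y + k), b t = ∫ t in α..y, a t := by
  obtain ⟨P, hP1, hP2, hP3, hP4⟩ := exists_quantile hα hac hap hai haV
  obtain ⟨Q, hQ1, hQ2, hQ3, hQ4⟩ := exists_quantile hβ hbc hbp hbi hbV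
  have hPc : ContinuousOn P (Ioo 0 V) := fun l hl => (hP3 l hl).continuousAt.continuousWithinAt
  have hQc : ContinuousOn Q (Ioo 0 V) := fun l hl => (hQ3 l hl).continuousAt.continuousWithinAt
  set s : ℝ → ℝ := fun l => (P l + Q l) / 2 with hs
  set s' : ℝ → ℝ := fun l => ((a (P l))⁻¹ + (b (Q l))⁻¹) / 2 with hs'
  have hsd : ∀ l ∈ Ioo 0 V, HasDerivAt s (s' l) l := fun l hl =>
    ((hP3 l hl).add (hQ3 l hl)).div_const 2
  have hsm : StrictMonoOn s (Ioo 0 V) := by
    intro l hl m hm hlm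
    have h1 := hP4 hl hm hlm
    have h2 := hQ4 hl hm hlm
    simp only [hs]
    linarith
  have h1 : ∫⁻ x in s '' (Ioo 0 V), e x = ∫⁻ l in Ioo 0 V, ENNReal.ofReal |s' l| * e (s l) :=
    lintegral_image_eq_lintegral_abs_deriv_mul measurableSet_Ioo
      (fun l hl => (hsd l hl).hasDerivWithinAt) hsm.injOn e
  set φ : ℝ → ℝ := fun l => s' l * Real.sqrt (a (P l) * b (Q l)) with hφ
  have hac' : ContinuousOn (fun l => a (P l)) (Ioo 0 V) :=
    hac.comp hPc fun l hl => (hP1 l hl).1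
  have hbc' : ContinuousOn (fun l => b (Q l)) (Ioo 0 V) :=
    hbc.comp hQc fun l hl => (hQ1 l hl).1
  have hφc : ContinuousOn φ (Ioo 0 V) := by
    apply ContinuousOn.mul
    · exact ((hac'.inv₀ fun l hl => (hap _ (hP1 l hl).1).ne').add
        (hbc'.inv₀ fun l hl => (hbp _ (hQ1 l hl).1).ne')).div_const 2
    · exact (hac'.mul hbc').sqrt
  have h2 : ∫⁻ l in Ioo 0 V, ENNReal.ofReal (φ l) ≤ ENNReal.ofReal V := by
    calc ∫⁻ l in Ioo 0 V, ENNReal.ofReal (φ l)
        ≤ ∫⁻ l in Ioo 0 V, ENNReal.ofReal |s' l| * e (s l) := by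
          apply setLIntegral_mono' measurableSet_Ioo
          intro l hl
          have h0 : 0 < s' l := by
            have h1 := hap _ (hP1 l hl).1
            have h2 := hbp _ (hQ1 l hl).1
            simp only [hs']
            (clear * - h1 h2; positivity)
          rw [hφ, ENNReal.ofReal_mul h0.le, abs_of_pos h0]
          exact mul_le_mul' le_rfl (he _ (hP1 l hl).1 _ (hQ1 l hl).1)
      _ = ∫⁻ x in s '' (Ioo 0 V), e x := h1.symm
      _ ≤ ∫⁻ x, e x := setLIntegral_le_lintegral _ _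
      _ ≤ _ := heV
  have hφ1 : ∀ l ∈ Ioo 0 V, 1 ≤ φ l := fun l hl =>
    (amgm_eq (hap _ (hP1 l hl).1) (hbp _ (hQ1 l hl).1)).1
  have h3 : (fun _ => (1 : ℝ≥0∞)) =ᵐ[volume.restrict (Ioo 0 V)] fun l => ENNReal.ofReal (φ l) := by
    apply ae_eq_of_ae_le_of_lintegral_le
    · filter_upwards [ae_restrict_mem measurableSet_Ioo] with l hl
      rw [← ENNReal.ofReal_one]
      exact ENNReal.ofReal_le_ofReal (hφ1 l hl)
    · simp only [lintegral_const, MeasurableSet.univ, Measure.restrict_apply, univ_inter, Real.volume_Ioo, sub_zero, one_mul, ne_eq, ENNReal.ofReal_ne_top, not_false_eq_true]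
    · exact (hφc.aemeasurable measurableSet_Ioo).ennreal_ofReal
    · refine h2.trans (le_of_eq ?_)
      simp only [lintegral_const, MeasurableSet.univ, Measure.restrict_apply, univ_inter, Real.volume_Ioo, sub_zero, one_mul]
  have h4 : (fun _ => (1 : ℝ)) =ᵐ[volume.restrict (Ioo 0 V)] φ := by
    filter_upwards [h3, ae_restrict_mem measurableSet_Ioo] with l hl hl2
    have h5 : (0 : ℝ) ≤ φ l := zero_le_one.trans (hφ1 l hl2)
    have h6 := congrArg ENNReal.toReal hl
    rwa [ENNReal.toReal_ofReal h5, ENNReal.toReal_one] at h6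
  have h5 : EqOn (fun _ => (1 : ℝ)) φ (Ioo 0 V) :=
    Measure.eqOn_open_of_ae_eq h4 isOpen_Ioo continuousOn_const hφc
  have h6 : ∀ l ∈ Ioo 0 V, a (P l) = b (Q l) := fun l hl =>
    (amgm_eq (hap _ (hP1 l hl).1) (hbp _ (hQ1 l hl).1)).2 (h5 hl).symm
  have h7 : ∀ l ∈ Ioo 0 V, HasDerivAt (fun l => Q l - P l) 0 l := by
    intro l hl
    have := (hQ3 l hl).sub (hP3 l hl)
    rwa [h6 l hl, sub_self] at this
  obtain ⟨k, hk⟩ := isOpen_Ioo.exists_is_const_of_deriv_eq_zero (s := Ioo 0 V)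
    (f := fun l => Q l - P l) isPreconnected_Ioo
    (fun l hl => (h7 l hl).differentiableAt.differentiableWithinAt)
    (fun l hl => (h7 l hl).deriv)
  refine ⟨k, fun y hy => ?_⟩
  have h8 := hP2 y hy
  have h9 : Q _ - P _ = k := hk _ h8.1
  rw [h8.2] at h9
  have h10 : Q (∫ t in α..y, a t) = y + k := by linarith only [h9]
  rw [← h10]
  exact hQ1 _ h8.1

end BMEq
end Vale.Agent.P237
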