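import Vale.Agent.P237.MathlibUsed

/-!
# P237: basic definitions

`V` is a finite-dimensional real inner product space with its Lebesgue measure `volume`.
-/

open MeasureTheory Metric Set
open scoped Pointwise

namespace Vale.Agent.P237

variable {V : Type*} [NormedAddCommGroup V] [InnerProductSpace ℝ V] [FiniteDimensional ℝ V]
  [MeasurableSpace V] [BorelSpace V]

/-- Convex body: compact, convex, with nonempty interior. -/
structure IsBody (K : Set V) : Prop where
  convex : Convex ℝ K
  compact : IsCompact K
  int : (interior K).Nonempty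

/-- Origin-symmetric convex body. -/
structure IsSymBody (K : Set V) : Prop extends IsBody K where
  symm : ∀ x ∈ K, -x ∈ K

/-- real-valued volume -/
noncomputable def vol (K : Set V) : ℝ := (volume K).toReal

/-- Support function. -/
noncomputable def supp (K : Set V) (v : V) : ℝ := sSup ((fun x => inner ℝ x v) '' K)

/-- Volume (of one dimension less) of the orthogonal projection of `K` onto the hyperplane
`u^⊥`. -/
noncomputable def shadow (K : Set V) (u : V) : ℝ :=
  (volume ((ℝ ∙ u)ᗮ.orthogonalProjectionOnto '' K)).toReal

/-- The projection body. -/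
def projBody (K : Set V) : Set V := {y | ∀ u : V, ‖u‖ = 1 → inner ℝ y u ≤ shadow K u}

/-- Intrinsic version of the shadow: `β_K(v) = |K + [0,v]| - |K|`. -/
noncomputable def beta (K : Set V) (v : V) : ℝ := vol (K + segment ℝ 0 v) - vol K

/-- Wulff shape of `h`. -/
def wulff (h : V → ℝ) : Set V := {y | ∀ v : V, inner ℝ y v ≤ h v}

/-- The unit ball lies in `K` and has maximal volume among the linear images of the unit ball
contained in `K`. -/
def JohnPos (K : Set V) : Prop :=
  closedBall (0 : V) 1 ⊆ K ∧
    ∀ T : V →ₗ[ℝ] V, T '' closedBall (0 : V) 1 ⊆ K → |LinearMap.det T| ≤ 1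

/-- Area of the slice `{z ∈ u^⊥ : z + y u ∈ K}`. -/
def slice (K : Set V) (u : V) (y : ℝ) : Set ((ℝ ∙ u)ᗮ : Submodule ℝ V) :=
  {z | (z : V) + y • u ∈ K}

end Vale.Agent.P237
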