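import Vale.Agent.P237.MathlibUsed

/-!
# P237: polar coordinates and the divergence identities on the unit sphere of a normed space
-/

open MeasureTheory Metric Set Module
open scoped NNReal

namespace Vale.Agent.P237.Exch

variable {E : Type*} [NormedAddCommGroup E] [NormedSpace ℝ E] [FiniteDimensional ℝ E]
  [MeasurableSpace E] [BorelSpace E] [Nontrivial E] (μ : Measure E) [μ.IsAddHaarMeasure]

theorem integral_polar (F : E → ℝ) (hF : Integrable F μ) :
    ∫ x, F x ∂μ = ∫ z : sphere (0 : E) 1, (∫ r in Ioi (0 : ℝ),
      r ^ (finrank ℝ E - 1) * F (r • (z : E))) ∂μ.toSphere := by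
  have hmp := μ.measurePreserving_homeomorphUnitSphereProd
  have hemb : MeasurableEmbedding (homeomorphUnitSphereProd E) := Homeomorph.measurableEmbedding _
  set g : sphere (0 : E) 1 × Ioi (0 : ℝ) → ℝ := fun p => F (p.2.1 • p.1.1) with hg
  have hgc : ∀ x : ({(0)}ᶜ : Set E), g (homeomorphUnitSphereProd E x) = F x.1 := by
    intro x
    have hx : (x.1 : E) ≠ 0 := x.2
    have hn : ‖(x.1 : E)‖ ≠ 0 := norm_ne_zero_iff.2 hx
    simp only [hg, homeomorphUnitSphereProd_apply_fst_coe, homeomorphUnitSphereProd_apply_snd_coe]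
    rw [smul_smul, mul_inv_cancel₀ hn, one_smul]
  have hint : Integrable g (μ.toSphere.prod (Measure.volumeIoiPow (finrank ℝ E - 1))) := by
    rw [← hmp.integrable_comp_emb hemb]
    have h1 : g ∘ (homeomorphUnitSphereProd E) = fun x : ({(0)}ᶜ : Set E) => F x.1 := funext hgc
    rw [h1]
    have h2 : IntegrableOn F ({(0)}ᶜ : Set E) μ := hF.integrableOn
    exact (integrableOn_iff_comap_subtypeVal (measurableSet_singleton _).compl).1 h2
  calc ∫ x, F x ∂μ = ∫ x : ({(0)}ᶜ : Set E), F x.1 ∂(μ.comap (↑)) := by
        rw [integral_subtype_comap (measurableSet_singleton _).compl F, restrict_compl_singleton]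
    _ = ∫ p, g p ∂μ.toSphere.prod (Measure.volumeIoiPow (finrank ℝ E - 1)) := by
        rw [← hmp.integral_comp hemb g]
        exact integral_congr_ae (Filter.Eventually.of_forall fun x => (hgc x).symm)
    _ = ∫ z, ∫ r, g (z, r) ∂(Measure.volumeIoiPow (finrank ℝ E - 1)) ∂μ.toSphere :=
        integral_prod g hint
    _ = _ := by
        refine integral_congr_ae (Filter.Eventually.of_forall fun z => ?_)
        simp only [Measure.volumeIoiPow, ENNReal.ofReal]
        rw [integral_withDensity_eq_integral_smul,
          integral_subtype_comap measurableSet_Ioi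
            fun a => Real.toNNReal (a ^ (finrank ℝ E - 1)) • F (a • (z : E)),
          setIntegral_congr_fun measurableSet_Ioi fun x hx => ?_]
        · rw [NNReal.smul_def, Real.coe_toNNReal _ (pow_nonneg hx.out.le _), smul_eq_mul]
        · exact (measurable_subtype_coe.pow_const _).real_toNNReal

end Vale.Agent.P237.Exch
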