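import Vale.Agent.P237.Exch1

/-!
# P237: the divergence identities on the unit sphere of a normed space
-/

open MeasureTheory Metric Set Module
open scoped NNReal

namespace Vale.Agent.P237.Exch

variable {E : Type*} [NormedAddCommGroup E] [NormedSpace ℝ E] [FiniteDimensional ℝ E]
  [MeasurableSpace E] [BorelSpace E] [Nontrivial E] (μ : Measure E) [μ.IsAddHaarMeasure]

/-- polar coordinates on the unit ball -/
theorem integral_ball_polar (F : E → ℝ) (hF : IntegrableOn F (ball 0 1) μ) :
    ∫ x in ball (0 : E) 1, F x ∂μ = ∫ z : sphere (0 : E) 1, (∫ r in Ioo (0 : ℝ) 1,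
      r ^ (finrank ℝ E - 1) * F (r • (z : E))) ∂μ.toSphere := by
  rw [← integral_indicator measurableSet_ball,
    integral_polar μ _ ((integrable_indicator_iff measurableSet_ball).2 hF)]
  refine integral_congr_ae (Filter.Eventually.of_forall fun z => ?_)
  simp only
  have h1 : (fun r : ℝ => r ^ (finrank ℝ E - 1) * (ball (0 : E) 1).indicator F (r • (z : E))) =ᵐ[
      volume.restrict (Ioi 0)] (Ioo (0:ℝ) 1).indicator
        (fun r : ℝ => r ^ (finrank ℝ E - 1) * F (r • (z : E))) := by
    filter_upwards [ae_restrict_mem measurableSet_Ioi] with r hr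
    have hr0 : (0 : ℝ) < r := hr
    have hz : ‖(z : E)‖ = 1 := norm_eq_of_mem_sphere z
    have hn : ‖r • (z : E)‖ = r := by rw [norm_smul, hz, mul_one, Real.norm_eq_abs, abs_of_pos hr0]
    by_cases h : r < 1
    · rw [indicator_of_mem (show r • (z : E) ∈ ball (0 : E) 1 by
        rw [mem_ball, dist_zero_right, hn]; exact h), indicator_of_mem (show r ∈ Ioo (0:ℝ) 1 from
        ⟨hr0, h⟩)]
    · rw [indicator_of_notMem (show r • (z : E) ∉ ball (0 : E) 1 by
        rw [mem_ball, dist_zero_right, hn]; exact h), indicator_of_notMem (show r ∉ Ioo (0:ℝ) 1 from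
        fun h' => h h'.2), mul_zero]
  rw [integral_congr_ae h1, integral_indicator measurableSet_Ioo, Measure.restrict_restrict
    measurableSet_Ioo]
  congr 2
  ext r
  simp only [mem_inter_iff, mem_Ioo, mem_Ioi]
  tauto

/-- The gradient of the norm, evaluated at `v`. -/
noncomputable def gr (v x : E) : ℝ := fderiv ℝ (fun y : E => ‖y‖) x v

omit [FiniteDimensional ℝ E] [MeasurableSpace E] [BorelSpace E] [Nontrivial E] in
theorem abs_gr_le (v x : E) : |gr v x| ≤ ‖v‖ := by
  have h1 : ‖fderiv ℝ (fun y : E => ‖y‖) x‖ ≤ ((1 : ℝ≥0) : ℝ) :=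
    norm_fderiv_le_of_lipschitz ℝ lipschitzWith_one_norm
  have h2 := (fderiv ℝ (fun y : E => ‖y‖) x).le_opNorm v
  rw [Real.norm_eq_abs] at h2
  unfold gr
  calc |(fderiv ℝ (fun y : E => ‖y‖) x) v| ≤ ‖fderiv ℝ (fun y : E => ‖y‖) x‖ * ‖v‖ := h2
    _ ≤ 1 * ‖v‖ := by
        refine mul_le_mul_of_nonneg_right ?_ (norm_nonneg v)
        simpa using h1
    _ = ‖v‖ := one_mul _

omit [FiniteDimensional ℝ E] [MeasurableSpace E] [BorelSpace E] [Nontrivial E] in
theorem gr_smul {r : ℝ} (hr : 0 < r) (v x : E) : gr v (r • x) = gr v x := by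
  unfold gr
  rw [show fderiv ℝ (fun y : E => ‖y‖) (r • x) = fderiv ℝ (fun y : E => ‖y‖) x from
    fderiv_norm_smul_pos hr]

omit [FiniteDimensional ℝ E] [Nontrivial E] in
theorem measurable_gr [FiniteDimensional ℝ E] (v : E) : Measurable (gr v) :=
  measurable_fderiv_apply_const ℝ (fun y : E => ‖y‖) v

/-- radial integration of `0`-homogeneous functions -/
theorem integral_radial (H : E → ℝ) (κ : ℝ → ℝ) (hH : Measurable H) {C : ℝ} (hC : ∀ x, |H x| ≤ C)
    (hh : ∀ (r : ℝ) (x : E), 0 < r → H (r • x) = H x) (hκ : Continuous κ) :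
    ∫ x in ball (0 : E) 1, H x * κ ‖x‖ ∂μ =
      (∫ r in Ioo (0 : ℝ) 1, r ^ (finrank ℝ E - 1) * κ r) *
        ∫ z : sphere (0 : E) 1, H z ∂μ.toSphere := by
  have hint : IntegrableOn (fun x => H x * κ ‖x‖) (ball (0 : E) 1) μ := by
    obtain ⟨D, hD⟩ := (isCompact_Icc (a := (0:ℝ)) (b := 1)).exists_bound_of_continuousOn
      hκ.continuousOn
    refine Measure.integrableOn_of_bounded (M := |C| * |D|) measure_ball_lt_top.ne ?_ ?_
    · exact (hH.mul (hκ.measurable.comp measurable_norm)).aestronglyMeasurable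
    · filter_upwards [ae_restrict_mem measurableSet_ball] with x hx
      rw [norm_mul, Real.norm_eq_abs]
      have h1 : ‖x‖ < 1 := mem_ball_zero_iff.1 hx
      refine mul_le_mul ((hC x).trans (le_abs_self C)) ((hD ‖x‖ ⟨norm_nonneg x, h1.le⟩).trans
        (le_abs_self D)) (norm_nonneg _) (abs_nonneg _)
  rw [integral_ball_polar μ _ hint, ← integral_const_mul]
  refine integral_congr_ae (Filter.Eventually.of_forall fun z => ?_)
  beta_reduce
  rw [← integral_mul_const]
  refine setIntegral_congr_fun measurableSet_Ioo fun r hr => ?_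
  have hz : ‖(z : E)‖ = 1 := norm_eq_of_mem_sphere z
  rw [hh r z hr.1, norm_smul, hz, mul_one, Real.norm_eq_abs, abs_of_pos hr.1]
  ring

end Vale.Agent.P237.Exch
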