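import Vale.Agent.P237.Exch2

/-!
# P237: integration by parts on the unit sphere of a normed space
-/

open MeasureTheory Metric Set Module
open scoped NNReal

namespace Vale.Agent.P237.Exch

section lip

variable {E : Type*} [NormedAddCommGroup E] [NormedSpace ℝ E]

/-- the `1`-homogeneous test function -/
noncomputable def tf (l : E →L[ℝ] ℝ) (q : ℝ → ℝ) (x : E) : ℝ := ‖x‖ * q (l x / ‖x‖)

/-- the cut-off function -/
noncomputable def cut (x : E) : ℝ := max 0 (1 - ‖x‖)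

theorem abs_ratio_le {l : E →L[ℝ] ℝ} (hl : ‖l‖ ≤ 1) (x : E) : |l x / ‖x‖| ≤ 1 := by
  have h1 : |l x| ≤ ‖x‖ := by
    have h2 := l.le_opNorm x
    rw [Real.norm_eq_abs] at h2
    exact h2.trans (mul_le_of_le_one_left (norm_nonneg x) hl)
  rw [abs_div, abs_of_nonneg (norm_nonneg x)]
  exact div_le_one_of_le₀ h1 (norm_nonneg x)

theorem mem_Icc_ratio {l : E →L[ℝ] ℝ} (hl : ‖l‖ ≤ 1) (x : E) : l x / ‖x‖ ∈ Icc (-1 : ℝ) 1 :=
  abs_le.1 (abs_ratio_le hl x)

theorem lipschitz_of_bound {f : E → ℝ} {C : ℝ} (hC : 0 ≤ C)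
    (h : ∀ x y, |f x - f y| ≤ C * ‖x - y‖) : LipschitzWith ⟨C, hC⟩ f := by
  apply LipschitzWith.of_dist_le_mul
  intro x y
  rw [Real.dist_eq, dist_eq_norm]
  exact h x y

theorem tf_bound {l : E →L[ℝ] ℝ} (hl : ‖l‖ ≤ 1) {q : ℝ → ℝ} {M D : ℝ}
    (hM : ∀ a ∈ Icc (-1 : ℝ) 1, |q a| ≤ M)
    (hD : ∀ a ∈ Icc (-1 : ℝ) 1, ∀ b ∈ Icc (-1 : ℝ) 1, |q a - q b| ≤ D * |a - b|) (hD0 : 0 ≤ D)
    (x y : E) : |tf l q x - tf l q y| ≤ (M + 2 * D) * ‖x - y‖ := by
  have hM0 : 0 ≤ M := (abs_nonneg _).trans (hM 0 (by norm_num))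
  unfold tf
  by_cases hx : x = 0
  · subst hx
    simp only [norm_zero, zero_mul, zero_sub, abs_neg, norm_neg]
    rw [abs_mul, abs_of_nonneg (norm_nonneg y)]
    have h1 := hM _ (mem_Icc_ratio hl y)
    nlinarith [norm_nonneg y, mul_nonneg hD0 (norm_nonneg y),
      mul_le_mul_of_nonneg_left h1 (norm_nonneg y)]
  by_cases hy : y = 0
  · subst hy
    simp only [norm_zero, zero_mul, sub_zero]
    rw [abs_mul, abs_of_nonneg (norm_nonneg x)]
    have h1 := hM _ (mem_Icc_ratio hl x)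
    nlinarith [norm_nonneg x, mul_nonneg hD0 (norm_nonneg x),
      mul_le_mul_of_nonneg_left h1 (norm_nonneg x)]
  have px : 0 < ‖x‖ := norm_pos_iff.2 hx
  have py : 0 < ‖y‖ := norm_pos_iff.2 hy
  set a := l x / ‖x‖ with ha
  set b := l y / ‖y‖ with hb
  have haI := mem_Icc_ratio hl x
  have hbI := mem_Icc_ratio hl y
  have e : ‖x‖ * q a - ‖y‖ * q b = (‖x‖ - ‖y‖) * q a + ‖y‖ * (q a - q b) := by ring
  have h1 : |‖x‖ - ‖y‖| ≤ ‖x - y‖ := abs_norm_sub_norm_le x y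
  have h2 : ‖y‖ * |a - b| ≤ 2 * ‖x - y‖ := by
    have e2 : ‖y‖ * (a - b) = a * (‖y‖ - ‖x‖) + (l x - l y) := by
      have e3 : a * ‖x‖ = l x := by rw [ha]; field_simp
      have e4 : b * ‖y‖ = l y := by rw [hb]; field_simp
      linear_combination -e4 + e3
    have h3 : ‖y‖ * |a - b| = |‖y‖ * (a - b)| := by rw [abs_mul, abs_of_pos py]
    rw [h3, e2]
    have h4 : |l x - l y| ≤ ‖x - y‖ := by
      rw [← map_sub]
      have h5 := l.le_opNorm (x - y)
      rw [Real.norm_eq_abs] at h5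
      exact h5.trans (mul_le_of_le_one_left (norm_nonneg _) hl)
    have h6 : |a * (‖y‖ - ‖x‖)| ≤ ‖x - y‖ := by
      rw [abs_mul, abs_sub_comm]
      calc |a| * |‖x‖ - ‖y‖| ≤ 1 * ‖x - y‖ :=
            mul_le_mul (abs_ratio_le hl x) h1 (abs_nonneg _) zero_le_one
        _ = _ := one_mul _
    calc |a * (‖y‖ - ‖x‖) + (l x - l y)| ≤ _ := abs_add_le _ _
      _ ≤ 2 * ‖x - y‖ := by linarith
  rw [e]
  calc |(‖x‖ - ‖y‖) * q a + ‖y‖ * (q a - q b)| ≤ |(‖x‖ - ‖y‖) * q a| + |‖y‖ * (q a - q b)| :=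
        abs_add_le _ _
    _ ≤ ‖x - y‖ * M + ‖y‖ * (D * |a - b|) := by
        rw [abs_mul, abs_mul, abs_of_pos py]
        have h7 := mul_le_mul h1 (hM a haI) (abs_nonneg _) (norm_nonneg _)
        have h8 := mul_le_mul_of_nonneg_left (hD a haI b hbI) py.le
        linarith
    _ = ‖x - y‖ * M + D * (‖y‖ * |a - b|) := by ring
    _ ≤ ‖x - y‖ * M + D * (2 * ‖x - y‖) := by
        have := mul_le_mul_of_nonneg_left h2 hD0
        linarith
    _ = (M + 2 * D) * ‖x - y‖ := by ring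

theorem cut_lip : LipschitzWith 1 (cut (E := E)) := by
  have h1 : LipschitzWith 1 (fun x : E => 1 - ‖x‖) := by
    apply LipschitzWith.of_dist_le_mul
    intro x y
    rw [Real.dist_eq, dist_eq_norm]
    have e : (1 - ‖x‖) - (1 - ‖y‖) = -(‖x‖ - ‖y‖) := by ring
    rw [e, abs_neg]
    simpa using abs_norm_sub_norm_le x y
  exact h1.const_max 0

theorem cut_compact [FiniteDimensional ℝ E] : HasCompactSupport (cut (E := E)) := by
  have : ProperSpace E := FiniteDimensional.proper ℝ E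
  apply HasCompactSupport.intro (isCompact_closedBall (0 : E) 1)
  intro x hx
  rw [mem_closedBall, dist_zero_right, not_le] at hx
  unfold cut
  exact max_eq_left (by linarith)

theorem hasDerivAt_norm_line {x : E} (hd : DifferentiableAt ℝ (fun y : E => ‖y‖) x) (v : E) :
    HasDerivAt (fun t : ℝ => ‖x + t • v‖) (gr v x) 0 := by
  have h1 : HasFDerivAt (fun y : E => ‖y‖) (fderiv ℝ (fun y : E => ‖y‖) x) (x + (0 : ℝ) • v) := by
    rw [zero_smul, add_zero]; exact hd.hasFDerivAt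
  have h2 : HasDerivAt (fun t : ℝ => x + t • v) v 0 := by
    simpa using ((hasDerivAt_id (0 : ℝ)).smul_const v).const_add x
  exact h1.comp_hasDerivAt (0 : ℝ) h2

theorem lineDeriv_tf (l : E →L[ℝ] ℝ) {q q' : ℝ → ℝ} (hq : ∀ y, HasDerivAt q (q' y) y)
    {x : E} (hx : x ≠ 0) (hd : DifferentiableAt ℝ (fun y : E => ‖y‖) x) (v : E) :
    lineDeriv ℝ (tf l q) x v =
      gr v x * q (l x / ‖x‖) + q' (l x / ‖x‖) * (l v - l x / ‖x‖ * gr v x) := by
  have hn := hasDerivAt_norm_line hd v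
  have h0 : (fun t : ℝ => ‖x + t • v‖) 0 = ‖x‖ := by simp
  have hx' : ‖x‖ ≠ 0 := norm_ne_zero_iff.2 hx
  have hl : HasDerivAt (fun t : ℝ => l (x + t • v)) (l v) 0 := by
    have h2 : HasDerivAt (fun t : ℝ => x + t • v) v 0 := by
      simpa using ((hasDerivAt_id (0 : ℝ)).smul_const v).const_add x
    exact l.hasFDerivAt.comp_hasDerivAt (0 : ℝ) h2
  have hdiv := hl.div hn (by simpa using hx')
  have e0 : l (x + (0 : ℝ) • v) / ‖x + (0 : ℝ) • v‖ = l x / ‖x‖ := by simp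
  have hq0 : HasDerivAt q (q' (l x / ‖x‖))
      (((fun t : ℝ => l (x + t • v)) / fun t : ℝ => ‖x + t • v‖) 0) := by
    have : ((fun t : ℝ => l (x + t • v)) / fun t : ℝ => ‖x + t • v‖) 0 = l x / ‖x‖ := by simp
    rw [this]; exact hq _
  have hcomp := hq0.comp (0 : ℝ) hdiv
  have hmul := hn.mul hcomp
  unfold lineDeriv
  have e1 : (fun t : ℝ => tf l q (x + t • v)) =
      (fun t : ℝ => ‖x + t • v‖) * (q ∘ ((fun t : ℝ => l (x + t • v)) / fun t : ℝ => ‖x + t • v‖))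
      := by
    funext t
    simp [tf]
  rw [e1, hmul.deriv]
  simp only [zero_smul, add_zero, Function.comp, Pi.div_apply]
  field_simp

theorem lineDeriv_cut_lt {x : E} (h1 : ‖x‖ < 1)
    (hd : DifferentiableAt ℝ (fun y : E => ‖y‖) x) (v : E) :
    lineDeriv ℝ (cut (E := E)) x (-v) = gr v x := by
  have hn := hasDerivAt_norm_line hd (-v)
  have h2 : HasDerivAt (fun t : ℝ => 1 - ‖x + t • (-v)‖) (-(gr (-v) x)) 0 := by
    simpa using hn.const_sub 1
  have h3 : (fun t : ℝ => cut (x + t • (-v))) =ᶠ[nhds 0] fun t : ℝ => 1 - ‖x + t • (-v)‖ := by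
    have hc : ContinuousAt (fun t : ℝ => ‖x + t • (-v)‖) 0 := by fun_prop
    have h4 : ∀ᶠ t : ℝ in nhds 0, ‖x + t • (-v)‖ < 1 :=
      hc.eventually_lt continuousAt_const (by simpa using h1)
    filter_upwards [h4] with t ht
    unfold cut
    exact max_eq_right (by linarith)
  unfold lineDeriv
  rw [h3.deriv_eq, h2.deriv]
  unfold gr
  rw [map_neg, neg_neg]

theorem lineDeriv_cut_gt {x : E} (h1 : 1 < ‖x‖) (v : E) :
    lineDeriv ℝ (cut (E := E)) x (-v) = 0 := by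
  have h3 : (fun t : ℝ => cut (x + t • (-v))) =ᶠ[nhds 0] fun _ : ℝ => (0 : ℝ) := by
    have hc : ContinuousAt (fun t : ℝ => ‖x + t • (-v)‖) 0 := by fun_prop
    have h4 : ∀ᶠ t : ℝ in nhds 0, 1 < ‖x + t • (-v)‖ :=
      continuousAt_const.eventually_lt hc (by simpa using h1)
    filter_upwards [h4] with t ht
    unfold cut
    exact max_eq_left (by linarith)
  unfold lineDeriv
  rw [h3.deriv_eq]
  simp

end lip

end Vale.Agent.P237.Exch
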