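import Vale.Agent.P237.Exch3

/-!
# P237: integration by parts on the unit sphere of a normed space
-/

open MeasureTheory Metric Set Module
open scoped NNReal

namespace Vale.Agent.P237.Exch

variable {E : Type*} [NormedAddCommGroup E] [NormedSpace ℝ E] [FiniteDimensional ℝ E]
  [MeasurableSpace E] [BorelSpace E] [Nontrivial E] (μ : Measure E) [μ.IsAddHaarMeasure]

theorem integral_pow_one_sub (n : ℕ) (hn : 0 < n) :
    ∫ r in Ioo (0 : ℝ) 1, r ^ (n - 1) * (1 - r) = 1 / (n * (n + 1)) := by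
  obtain ⟨k, rfl⟩ : ∃ k, n = k + 1 := ⟨n - 1, by omega⟩
  rw [← integral_Ioc_eq_integral_Ioo, ← intervalIntegral.integral_of_le zero_le_one]
  simp only [Nat.add_sub_cancel]
  have e : (fun r : ℝ => r ^ k * (1 - r)) = fun r => r ^ k - r ^ (k + 1) := by
    funext r; ring
  rw [e, intervalIntegral.integral_sub (by simp) (by simp), integral_pow, integral_pow]
  push_cast
  simp only [one_pow, ne_eq, Nat.add_eq_zero_iff, one_ne_zero, and_false, not_false_eq_true, zero_pow, sub_zero]
  field_simp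
  ring

theorem integral_pow_mul (n : ℕ) (hn : 0 < n) :
    ∫ r in Ioo (0 : ℝ) 1, r ^ (n - 1) * r = 1 / (n + 1) := by
  obtain ⟨k, rfl⟩ : ∃ k, n = k + 1 := ⟨n - 1, by omega⟩
  rw [← integral_Ioc_eq_integral_Ioo, ← intervalIntegral.integral_of_le zero_le_one]
  simp only [Nat.add_sub_cancel]
  have e : (fun r : ℝ => r ^ k * r) = fun r => r ^ (k + 1) := by
    funext r; ring
  rw [e, integral_pow]
  push_cast
  simp only [one_pow, ne_eq, Nat.add_eq_zero_iff, one_ne_zero, and_false, and_self, not_false_eq_true, zero_pow, sub_zero, one_div]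

theorem ae_good : ∀ᵐ x : E ∂μ, DifferentiableAt ℝ (fun y : E => ‖y‖) x ∧ x ≠ 0 ∧ ‖x‖ ≠ 1 := by
  have h1 : ∀ᵐ x : E ∂μ, DifferentiableAt ℝ (fun y : E => ‖y‖) x :=
    lipschitzWith_one_norm.ae_differentiableAt
  have h2 : ∀ᵐ x : E ∂μ, x ≠ 0 := by
    have : μ {(0 : E)} = 0 := measure_singleton _
    exact (measure_eq_zero_iff_ae_notMem.1 this)
  have h3 : ∀ᵐ x : E ∂μ, ‖x‖ ≠ 1 := by
    have h4 : μ (sphere (0 : E) 1) = 0 := Measure.addHaar_sphere μ 0 1
    filter_upwards [measure_eq_zero_iff_ae_notMem.1 h4] with x hx h5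
    exact hx (by simpa only [mem_sphere_iff_norm, sub_zero] using h5)
  filter_upwards [h1, h2, h3] with x a b c
  exact ⟨a, b, c⟩

theorem sphere_parts0 (l : E →L[ℝ] ℝ) (hl : ‖l‖ ≤ 1) (v : E) {q q' : ℝ → ℝ}
    (hq : ∀ y, HasDerivAt q (q' y) y) (hq' : Continuous q') :
    ∫ z : sphere (0 : E) 1, (gr v z * q (l z) + q' (l z) * (l v - l z * gr v z)) ∂μ.toSphere =
      (finrank ℝ E : ℝ) * ∫ z : sphere (0 : E) 1, gr v z * q (l z) ∂μ.toSphere := by
  have hqc : Continuous q := continuous_iff_continuousAt.2 fun y => (hq y).continuousAt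
  obtain ⟨M, hM⟩ := (isCompact_Icc (a := (-1:ℝ)) (b := 1)).exists_bound_of_continuousOn
    hqc.continuousOn
  obtain ⟨D, hD⟩ := (isCompact_Icc (a := (-1:ℝ)) (b := 1)).exists_bound_of_continuousOn
    hq'.continuousOn
  have hD0 : 0 ≤ D := (norm_nonneg _).trans (hD 0 (by norm_num))
  have hM0 : 0 ≤ M := (norm_nonneg _).trans (hM 0 (by norm_num))
  have hDl : ∀ a ∈ Icc (-1 : ℝ) 1, ∀ b ∈ Icc (-1 : ℝ) 1, |q a - q b| ≤ D * |a - b| := by
    intro a ha b hb
    have := (convex_Icc (-1 : ℝ) 1).norm_image_sub_le_of_norm_hasDerivWithin_le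
      (f := q) (f' := q') (C := D) (fun x _ => (hq x).hasDerivWithinAt) hD hb ha
    simpa only [ge_iff_le, Real.norm_eq_abs] using this
  have hL : LipschitzWith ⟨M + 2 * D, by positivity⟩ (tf l q) :=
    lipschitz_of_bound _ (tf_bound hl (fun a ha => hM a ha) hDl hD0)
  have key := hL.integral_lineDeriv_mul_eq (μ := μ) cut_lip cut_compact v
  set H1 : E → ℝ := fun x => gr v x * q (l x / ‖x‖) +
    q' (l x / ‖x‖) * (l v - l x / ‖x‖ * gr v x) with hH1
  set H2 : E → ℝ := fun x => gr v x * q (l x / ‖x‖) with hH2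
  have hgm := measurable_gr v
  have ham : Measurable fun x : E => l x / ‖x‖ :=
    (l.continuous.measurable).div measurable_norm
  have m2 : Measurable H2 := hgm.mul (hqc.measurable.comp ham)
  have m1 : Measurable H1 := m2.add ((hq'.measurable.comp ham).mul
    (measurable_const.sub (ham.mul hgm)))
  have e1 : ∫ x, lineDeriv ℝ (tf l q) x v * cut x ∂μ =
      ∫ x in ball (0 : E) 1, H1 x * (fun r : ℝ => 1 - r) ‖x‖ ∂μ := by
    rw [← integral_indicator measurableSet_ball]
    refine integral_congr_ae ?_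
    filter_upwards [ae_good μ] with x hx
    rw [lineDeriv_tf l hq hx.2.1 hx.1 v]
    by_cases h : ‖x‖ < 1
    · rw [indicator_of_mem (by simpa only [mem_ball, dist_zero_right] using h)]
      unfold cut
      rw [max_eq_right (by linarith only [h])]
    · rw [indicator_of_notMem (by simpa only [mem_ball, dist_zero_right, not_lt] using h)]
      unfold cut
      rw [max_eq_left (by linarith only [h]), mul_zero]
  have e2 : ∫ x, lineDeriv ℝ (cut (E := E)) x (-v) * tf l q x ∂μ =
      ∫ x in ball (0 : E) 1, H2 x * (fun r : ℝ => r) ‖x‖ ∂μ := by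
    rw [← integral_indicator measurableSet_ball]
    refine integral_congr_ae ?_
    filter_upwards [ae_good μ] with x hx
    by_cases h : ‖x‖ < 1
    · rw [indicator_of_mem (by simpa only [mem_ball, dist_zero_right] using h), lineDeriv_cut_lt h hx.1]
      simp only [hH2, tf]
      ring
    · have h' : 1 < ‖x‖ := lt_of_le_of_ne (not_lt.1 h) (Ne.symm hx.2.2)
      rw [indicator_of_notMem (by simpa only [mem_ball, dist_zero_right, not_lt] using h), lineDeriv_cut_gt h', zero_mul]
  have b2 : ∀ x, |H2 x| ≤ ‖v‖ * M := by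
    intro x
    simp only [hH2, abs_mul]
    exact mul_le_mul (abs_gr_le v x) (hM _ (mem_Icc_ratio hl x)) (abs_nonneg _) (norm_nonneg _)
  have b1 : ∀ x, |H1 x| ≤ ‖v‖ * M + D * (‖v‖ + ‖v‖) := by
    intro x
    have h1 : |q' (l x / ‖x‖) * (l v - l x / ‖x‖ * gr v x)| ≤ D * (‖v‖ + ‖v‖) := by
      rw [abs_mul]
      refine mul_le_mul (hD _ (mem_Icc_ratio hl x)) ?_ (abs_nonneg _) hD0
      have h2 : |l v| ≤ ‖v‖ := by
        have h3 := l.le_opNorm v
        rw [Real.norm_eq_abs] at h3
        exact h3.trans (mul_le_of_le_one_left (norm_nonneg v) hl)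
      have h4 : |l x / ‖x‖ * gr v x| ≤ ‖v‖ := by
        rw [abs_mul]
        calc |l x / ‖x‖| * |gr v x| ≤ 1 * ‖v‖ :=
              mul_le_mul (abs_ratio_le hl x) (abs_gr_le v x) (abs_nonneg _) zero_le_one
          _ = ‖v‖ := one_mul _
      exact (abs_sub _ _).trans (add_le_add h2 h4)
    exact (abs_add_le _ _).trans (add_le_add (b2 x) h1)
  have ha : ∀ (r : ℝ) (x : E), 0 < r → l (r • x) / ‖r • x‖ = l x / ‖x‖ := by
    intro r x hr
    rw [map_smul, norm_smul, Real.norm_eq_abs, abs_of_pos hr, smul_eq_mul,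
      mul_div_mul_left _ _ hr.ne']
  have s2 : ∀ (r : ℝ) (x : E), 0 < r → H2 (r • x) = H2 x := by
    intro r x hr
    simp only [hH2]
    rw [ha r x hr, gr_smul hr]
  have s1 : ∀ (r : ℝ) (x : E), 0 < r → H1 (r • x) = H1 x := by
    intro r x hr
    simp only [hH1]
    rw [ha r x hr, gr_smul hr]
  have hn : 0 < finrank ℝ E := finrank_pos
  rw [e1, e2, integral_radial μ H1 (fun r => 1 - r) m1 b1 s1 (by fun_prop),
    integral_radial μ H2 (fun r => r) m2 b2 s2 (by fun_prop)] at key
  rw [integral_pow_one_sub _ hn, integral_pow_mul _ hn] at key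
  have r1 : ∫ z : sphere (0 : E) 1, H1 z ∂μ.toSphere = ∫ z : sphere (0 : E) 1,
      (gr v z * q (l z) + q' (l z) * (l v - l z * gr v z)) ∂μ.toSphere := by
    refine integral_congr_ae (Filter.Eventually.of_forall fun z => ?_)
    simp only [hH1, norm_eq_of_mem_sphere z, div_one]
  have r2 : ∫ z : sphere (0 : E) 1, H2 z ∂μ.toSphere = ∫ z : sphere (0 : E) 1,
      gr v z * q (l z) ∂μ.toSphere := by
    refine integral_congr_ae (Filter.Eventually.of_forall fun z => ?_)
    simp only [hH2, norm_eq_of_mem_sphere z, div_one]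
  rw [r1, r2] at key
  have hn' : (0 : ℝ) < finrank ℝ E := by exact_mod_cast hn
  generalize (∫ z : sphere (0 : E) 1,
      (gr v z * q (l z) + q' (l z) * (l v - l z * gr v z)) ∂μ.toSphere) = I1 at key ⊢
  generalize (∫ z : sphere (0 : E) 1, gr v z * q (l z) ∂μ.toSphere) = I2 at key ⊢
  field_simp at key
  linarith only [key]

/-- bounded measurable functions on the sphere are integrable -/
theorem integrable_sphere {F : sphere (0 : E) 1 → ℝ} (hF : Measurable F) {C : ℝ}
    (hC : ∀ z, |F z| ≤ C) : Integrable F μ.toSphere :=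
  Integrable.of_bound hF.aestronglyMeasurable C
    (Filter.Eventually.of_forall fun z => by rw [Real.norm_eq_abs]; exact hC z)

theorem lift_hasDerivAt (n : ℕ) (hn : 2 ≤ n) {p p' : ℝ → ℝ} (hp : ∀ y, HasDerivAt p (p' y) y)
    (hp' : Continuous p') (a : ℝ) :
    HasDerivAt (fun a : ℝ => ∫ r in (0 : ℝ)..1, r ^ (n - 2) * p (r * a))
      (∫ r in (0 : ℝ)..1, r ^ (n - 1) * p' (r * a)) a := by
  have hpc : Continuous p := continuous_iff_continuousAt.2 fun y => (hp y).continuousAt
  obtain ⟨D, hD⟩ := (isCompact_Icc (a := (-(|a| + 1))) (b := |a| + 1)).exists_bound_of_continuousOn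
    hp'.continuousOn
  have h := intervalIntegral.hasDerivAt_integral_of_dominated_loc_of_deriv_le
    (F := fun a r : ℝ => r ^ (n - 2) * p (r * a)) (F' := fun a r : ℝ => r ^ (n - 1) * p' (r * a))
    (x₀ := a) (s := ball a 1) (a := 0) (b := 1) (μ := volume) (bound := fun _ => D)
    (ball_mem_nhds a one_pos) ?_ ?_ ?_ ?_ ?_ ?_
  · exact h.2
  · refine Filter.Eventually.of_forall fun x => ?_
    exact (Continuous.aestronglyMeasurable (by (clear * - hpc; fun_prop)))
  · exact Continuous.intervalIntegrable (by (clear * - hpc; fun_prop)) _ _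
  · exact (Continuous.aestronglyMeasurable (by fun_prop))
  · refine Filter.Eventually.of_forall fun r hr x hx => ?_
    rw [uIoc_of_le zero_le_one] at hr
    have hx1 : |x| ≤ |a| + 1 := by
      rw [mem_ball, Real.dist_eq] at hx
      calc |x| = |(x - a) + a| := by ring_nf
        _ ≤ |x - a| + |a| := abs_add_le _ _
        _ ≤ |a| + 1 := by linarith only [hx]
    have hx2 : |r * x| ≤ |a| + 1 := by
      rw [abs_mul, abs_of_pos hr.1]
      calc r * |x| ≤ 1 * |x| := mul_le_mul_of_nonneg_right hr.2 (abs_nonneg x)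
        _ ≤ _ := by linarith only [hx1]
    have h1 := hD (r * x) (abs_le.1 hx2)
    rw [norm_mul, norm_pow, Real.norm_eq_abs, abs_of_pos hr.1]
    calc r ^ (n - 1) * ‖p' (r * x)‖ ≤ 1 * ‖p' (r * x)‖ :=
          mul_le_mul_of_nonneg_right (pow_le_one₀ hr.1.le hr.2) (norm_nonneg _)
      _ ≤ D := by rw [one_mul]; exact h1
  · exact Continuous.intervalIntegrable (by fun_prop) _ _
  · refine Filter.Eventually.of_forall fun r hr x hx => ?_
    have h1 : HasDerivAt (fun x : ℝ => r * x) r x := by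
      simpa only [id_eq, mul_one] using (hasDerivAt_id x).const_mul r
    have h2 := ((hp (r * x)).comp x h1).const_mul (r ^ (n - 2))
    obtain ⟨k, rfl⟩ : ∃ k, n = k + 2 := ⟨n - 2, by omega⟩
    refine h2.congr_deriv ?_
    rw [show k + 2 - 1 = k + 1 from rfl, show k + 2 - 2 = k from rfl]
    ring

theorem lift_eq (n : ℕ) (hn : 2 ≤ n) {p p' : ℝ → ℝ} (hp : ∀ y, HasDerivAt p (p' y) y)
    (hp' : Continuous p') (a : ℝ) :
    ((n : ℝ) - 1) * (∫ r in (0 : ℝ)..1, r ^ (n - 2) * p (r * a)) +
      a * (∫ r in (0 : ℝ)..1, r ^ (n - 1) * p' (r * a)) = p a := by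
  have hpc : Continuous p := continuous_iff_continuousAt.2 fun y => (hp y).continuousAt
  obtain ⟨k, rfl⟩ : ∃ k, n = k + 2 := ⟨n - 2, by omega⟩
  simp only [show k + 2 - 1 = k + 1 from rfl, show k + 2 - 2 = k from rfl]
  have h1 : ∀ r ∈ uIcc (0 : ℝ) 1, HasDerivAt (fun r : ℝ => r ^ (k + 1) * p (r * a))
      (((k : ℝ) + 1) * (r ^ k * p (r * a)) + a * (r ^ (k + 1) * p' (r * a))) r := by
    intro r _
    have h2 : HasDerivAt (fun x : ℝ => x * a) a r := by
      simpa only [id_eq, one_mul] using (hasDerivAt_id r).mul_const a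
    have h3 := (hasDerivAt_pow (k + 1) r).mul ((hp (r * a)).comp r h2)
    refine h3.congr_deriv ?_
    simp only [Nat.add_sub_cancel, Function.comp]
    push_cast
    ring
  have h4 := intervalIntegral.integral_eq_sub_of_hasDerivAt h1
    (Continuous.intervalIntegrable (by (clear * - hpc hp'; fun_prop)) _ _)
  rw [intervalIntegral.integral_add (Continuous.intervalIntegrable (by fun_prop) _ _)
    (Continuous.intervalIntegrable (by fun_prop) _ _), intervalIntegral.integral_const_mul,
    intervalIntegral.integral_const_mul] at h4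
  simp only [one_pow, one_mul, ne_eq, Nat.add_eq_zero_iff, one_ne_zero, and_false,
    not_false_eq_true, zero_pow, zero_mul, sub_zero] at h4
  push_cast
  rw [← h4]
  ring

end Vale.Agent.P237.Exch
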