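import Vale.Agent.P237.Exch4

/-!
# P237: the exchangeability inequality
-/

open MeasureTheory Metric Set Module
open scoped NNReal Pointwise

namespace Vale.Agent.P237.Exch

variable {E : Type*} [NormedAddCommGroup E] [NormedSpace ℝ E] [FiniteDimensional ℝ E]
  [MeasurableSpace E] [BorelSpace E] [Nontrivial E] (μ : Measure E) [μ.IsAddHaarMeasure]

omit [Nontrivial E] in
theorem integrableOn_ball_comp (l : E →L[ℝ] ℝ) {f : ℝ → ℝ} (hf : Continuous f) :
    IntegrableOn (fun x => f (l x)) (ball (0 : E) 1) μ := by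
  have : ProperSpace E := FiniteDimensional.proper ℝ E
  have h1 : IntegrableOn (fun x => f (l x)) (closedBall (0 : E) 1) μ :=
    (hf.comp l.continuous).continuousOn.integrableOn_compact (isCompact_closedBall _ _)
  exact h1.mono_set ball_subset_closedBall

/-- the law of `l z` on the sphere in terms of the law of `l x` on the ball -/
theorem sphere_a (l : E →L[ℝ] ℝ) {c c' : ℝ → ℝ}
    (hc : ∀ y, HasDerivAt c (c' y) y) (hc' : Continuous c') :
    ∫ z : sphere (0 : E) 1, c (l z) ∂μ.toSphere =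
      ∫ x in ball (0 : E) 1, ((finrank ℝ E : ℝ) * c (l x) + l x * c' (l x)) ∂μ := by
  have hcc : Continuous c := continuous_iff_continuousAt.2 fun y => (hc y).continuousAt
  have hn : 0 < finrank ℝ E := finrank_pos
  rw [integral_ball_polar μ _ (integrableOn_ball_comp μ l
    (f := fun y => (finrank ℝ E : ℝ) * c y + y * c' y) (by (clear * - hcc hc'; fun_prop)))]
  refine integral_congr_ae (Filter.Eventually.of_forall fun z => ?_)
  beta_reduce
  rw [← integral_Ioc_eq_integral_Ioo, ← intervalIntegral.integral_of_le zero_le_one]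
  obtain ⟨k, hk⟩ : ∃ k, finrank ℝ E = k + 1 := ⟨finrank ℝ E - 1, by omega⟩
  have h1 : ∀ r ∈ uIcc (0 : ℝ) 1, HasDerivAt (fun r : ℝ => r ^ (k + 1) * c (r * l z))
      (r ^ (finrank ℝ E - 1) * ((finrank ℝ E : ℝ) * c (l (r • (z : E))) +
        l (r • (z : E)) * c' (l (r • (z : E))))) r := by
    intro r _
    have h2 : HasDerivAt (fun x : ℝ => x * l z) (l z) r := by
      simpa only [id_eq, one_mul] using (hasDerivAt_id r).mul_const (l z)
    have h3 := (hasDerivAt_pow (k + 1) r).mul ((hc (r * l z)).comp r h2)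
    refine h3.congr_deriv ?_
    rw [hk, map_smul, smul_eq_mul]
    simp only [Nat.add_sub_cancel, Function.comp]
    push_cast
    ring
  have h4 := intervalIntegral.integral_eq_sub_of_hasDerivAt h1
    (Continuous.intervalIntegrable (by (clear * - hcc hc'; fun_prop)) _ _)
  rw [h4]
  simp

/-- the divergence identity -/
theorem sphere_b (hd : 2 ≤ finrank ℝ E) (l : E →L[ℝ] ℝ) (hl : ‖l‖ ≤ 1) (v : E) {p p' : ℝ → ℝ}
    (hp : ∀ y, HasDerivAt p (p' y) y) (hp' : Continuous p') :
    ∫ z : sphere (0 : E) 1, gr v z * p (l z) ∂μ.toSphere =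
      l v * ∫ x in ball (0 : E) 1, p' (l x) ∂μ := by
  set n := finrank ℝ E with hn
  set q : ℝ → ℝ := fun a => ∫ r in (0 : ℝ)..1, r ^ (n - 2) * p (r * a) with hqd
  set q' : ℝ → ℝ := fun a => ∫ r in (0 : ℝ)..1, r ^ (n - 1) * p' (r * a) with hqd'
  have hq : ∀ y, HasDerivAt q (q' y) y := fun y => lift_hasDerivAt n hd hp hp' y
  have hqc' : Continuous q' := by
    apply intervalIntegral.continuous_parametric_intervalIntegral_of_continuous'
    fun_prop
  have hqc : Continuous q := continuous_iff_continuousAt.2 fun y => (hq y).continuousAt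
  have hlift : ∀ a, ((n : ℝ) - 1) * q a + a * q' a = p a := fun a => lift_eq n hd hp hp' a
  have h0 := sphere_parts0 μ l hl v hq hqc'
  obtain ⟨M, hM⟩ := (isCompact_Icc (a := (-1:ℝ)) (b := 1)).exists_bound_of_continuousOn
    hqc.continuousOn
  obtain ⟨D, hD⟩ := (isCompact_Icc (a := (-1:ℝ)) (b := 1)).exists_bound_of_continuousOn
    hqc'.continuousOn
  have hM0 : 0 ≤ M := (norm_nonneg _).trans (hM 0 (by norm_num))
  have hD0 : 0 ≤ D := (norm_nonneg _).trans (hD 0 (by norm_num))
  have hI : ∀ z : sphere (0 : E) 1, l z ∈ Icc (-1 : ℝ) 1 := by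
    intro z
    have := mem_Icc_ratio hl (z : E)
    rwa [norm_eq_of_mem_sphere z, div_one] at this
  have hlm : Measurable fun z : sphere (0 : E) 1 => l z :=
    (l.continuous.comp continuous_subtype_val).measurable
  have hgm : Measurable fun z : sphere (0 : E) 1 => gr v z :=
    (measurable_gr v).comp measurable_subtype_coe
  have i1 : Integrable (fun z : sphere (0 : E) 1 => gr v z * q (l z)) μ.toSphere := by
    refine integrable_sphere μ (hgm.mul (hqc.measurable.comp hlm)) (C := ‖v‖ * M) fun z => ?_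
    rw [abs_mul]
    exact mul_le_mul (abs_gr_le v _) (hM _ (hI z)) (abs_nonneg _) (norm_nonneg _)
  have i2 : Integrable (fun z : sphere (0 : E) 1 => q' (l z)) μ.toSphere :=
    integrable_sphere μ (hqc'.measurable.comp hlm) (C := D) fun z => hD _ (hI z)
  have i3 : Integrable (fun z : sphere (0 : E) 1 => l z * q' (l z) * gr v z) μ.toSphere := by
    refine integrable_sphere μ ((hlm.mul (hqc'.measurable.comp hlm)).mul hgm) (C := 1 * D * ‖v‖)
      fun z => ?_
    rw [abs_mul, abs_mul]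
    exact mul_le_mul (mul_le_mul (abs_le.2 (hI z)) (hD _ (hI z)) (abs_nonneg _) zero_le_one)
      (abs_gr_le v _) (abs_nonneg _) (by (clear * - hD0; positivity))
  have e1 : ∫ z : sphere (0 : E) 1, (gr v z * q (l z) + q' (l z) * (l v - l z * gr v z))
      ∂μ.toSphere = (∫ z : sphere (0 : E) 1, gr v z * q (l z) ∂μ.toSphere) +
        (l v * ∫ z : sphere (0 : E) 1, q' (l z) ∂μ.toSphere) -
        ∫ z : sphere (0 : E) 1, l z * q' (l z) * gr v z ∂μ.toSphere := by
    have i4 : Integrable (fun z : sphere (0 : E) 1 => gr v z * q (l z) + l v * q' (l z))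
      μ.toSphere := i1.add (i2.const_mul _)
    rw [← integral_const_mul, ← integral_add i1 (i2.const_mul _), ← integral_sub i4 i3]
    refine integral_congr_ae (Filter.Eventually.of_forall fun z => ?_)
    beta_reduce
    ring
  have e2 : ∫ z : sphere (0 : E) 1, gr v z * p (l z) ∂μ.toSphere =
      ((n : ℝ) - 1) * (∫ z : sphere (0 : E) 1, gr v z * q (l z) ∂μ.toSphere) +
        ∫ z : sphere (0 : E) 1, l z * q' (l z) * gr v z ∂μ.toSphere := by
    rw [← integral_const_mul, ← integral_add (i1.const_mul _) i3]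
    refine integral_congr_ae (Filter.Eventually.of_forall fun z => ?_)
    beta_reduce
    rw [← hlift (l z)]
    ring
  have e3 : ∫ z : sphere (0 : E) 1, q' (l z) ∂μ.toSphere = ∫ x in ball (0 : E) 1, p' (l x) ∂μ := by
    rw [integral_ball_polar μ _ (integrableOn_ball_comp μ l hp')]
    refine integral_congr_ae (Filter.Eventually.of_forall fun z => ?_)
    beta_reduce
    rw [← integral_Ioc_eq_integral_Ioo, ← intervalIntegral.integral_of_le zero_le_one]
    simp only [hqd', map_smul, smul_eq_mul]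
    rfl
  rw [e1] at h0
  rw [e2, ← e3]
  linarith only [h0]

/-- The pairing of a point `z` with the dual point of `x`. -/
noncomputable def pr (z x : sphere (0 : E) 1) : ℝ := gr (z : E) (x : E)

omit [FiniteDimensional ℝ E] [MeasurableSpace E] [BorelSpace E] [Nontrivial E] in
theorem pr_mem (z x : sphere (0 : E) 1) : pr z x ∈ Icc (-1 : ℝ) 1 := by
  have := abs_gr_le (z : E) (x : E)
  rw [norm_eq_of_mem_sphere z] at this
  exact abs_le.1 this

omit [Nontrivial E] in
theorem measurable_pr : Measurable fun w : sphere (0 : E) 1 × sphere (0 : E) 1 => pr w.1 w.2 := by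
  unfold pr gr
  have h1 : Measurable fun x : E => fderiv ℝ (fun y : E => ‖y‖) x :=
    measurable_fderiv ℝ (fun y : E => ‖y‖)
  have h2 : Measurable fun w : sphere (0 : E) 1 × sphere (0 : E) 1 =>
      fderiv ℝ (fun y : E => ‖y‖) (w.2 : E) := h1.comp (measurable_subtype_coe.comp measurable_snd)
  have h3 : Continuous fun w : (E →L[ℝ] ℝ) × E => w.1 w.2 :=
    isBoundedBilinearMap_apply.continuous
  exact h3.measurable.comp (h2.prodMk (measurable_subtype_coe.comp measurable_fst))

/-- The averaged functional vanishes by exchangeability. -/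
theorem exch_zero {A : ℝ → ℝ → ℝ} (hA : Measurable (Function.uncurry A)) {C : ℝ}
    (hC : ∀ a ∈ Icc (-1 : ℝ) 1, ∀ b ∈ Icc (-1 : ℝ) 1, |A a b| ≤ C)
    (hanti : ∀ a ∈ Icc (-1 : ℝ) 1, ∀ b ∈ Icc (-1 : ℝ) 1, A a b = -A b a) :
    Integrable (fun w : sphere (0 : E) 1 × sphere (0 : E) 1 => A (pr w.2 w.1) (pr w.1 w.2))
      (μ.toSphere.prod μ.toSphere) ∧
    ∫ x : sphere (0 : E) 1, (∫ z : sphere (0 : E) 1, A (pr z x) (pr x z) ∂μ.toSphere)
      ∂μ.toSphere = 0 := by
  have hm : Measurable fun w : sphere (0 : E) 1 × sphere (0 : E) 1 =>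
      A (pr w.2 w.1) (pr w.1 w.2) := by
    have h1 : Measurable fun w : sphere (0 : E) 1 × sphere (0 : E) 1 => pr w.2 w.1 :=
      measurable_pr.comp measurable_swap
    exact hA.comp (h1.prodMk measurable_pr)
  have hint : Integrable (fun w : sphere (0 : E) 1 × sphere (0 : E) 1 =>
      A (pr w.2 w.1) (pr w.1 w.2)) (μ.toSphere.prod μ.toSphere) :=
    Integrable.of_bound hm.aestronglyMeasurable C
      (Filter.Eventually.of_forall fun w => hC _ (pr_mem _ _) _ (pr_mem _ _))
  refine ⟨hint, ?_⟩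
  set I := ∫ x : sphere (0 : E) 1, (∫ z : sphere (0 : E) 1, A (pr z x) (pr x z) ∂μ.toSphere)
      ∂μ.toSphere with hI
  have h1 : I = ∫ z : sphere (0 : E) 1, (∫ x : sphere (0 : E) 1, A (pr z x) (pr x z) ∂μ.toSphere)
      ∂μ.toSphere := integral_integral_swap hint
  have h2 : ∫ z : sphere (0 : E) 1, (∫ x : sphere (0 : E) 1, A (pr z x) (pr x z) ∂μ.toSphere)
      ∂μ.toSphere = -I := by
    rw [hI, ← integral_neg]
    refine integral_congr_ae (Filter.Eventually.of_forall fun x => ?_)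
    beta_reduce
    rw [← integral_neg]
    refine integral_congr_ae (Filter.Eventually.of_forall fun z => ?_)
    beta_reduce
    exact hanti _ (pr_mem _ _) _ (pr_mem _ _)
  linarith only [h1, h2]

/-- The dual point (gradient of the norm) as a functional. -/
noncomputable def dg (x : sphere (0 : E) 1) : E →L[ℝ] ℝ := fderiv ℝ (fun y : E => ‖y‖) (x : E)

omit [FiniteDimensional ℝ E] [MeasurableSpace E] [BorelSpace E] [Nontrivial E] in
theorem dg_apply (x z : sphere (0 : E) 1) : dg x (z : E) = pr z x := rfl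

omit [FiniteDimensional ℝ E] [MeasurableSpace E] [BorelSpace E] [Nontrivial E] in
theorem norm_dg_le (x : sphere (0 : E) 1) : ‖dg x‖ ≤ 1 := by
  have h1 : ‖fderiv ℝ (fun y : E => ‖y‖) (x : E)‖ ≤ ((1 : ℝ≥0) : ℝ) :=
    norm_fderiv_le_of_lipschitz ℝ lipschitzWith_one_norm
  simpa only [dg, ge_iff_le, NNReal.coe_one] using h1

omit [FiniteDimensional ℝ E] [MeasurableSpace E] [BorelSpace E] [Nontrivial E] in
theorem dg_self {x : sphere (0 : E) 1} (hx : DifferentiableAt ℝ (fun y : E => ‖y‖) (x : E)) :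
    dg x (x : E) = 1 := by
  have h := hx.fderiv_norm_self
  rw [norm_eq_of_mem_sphere x] at h
  exact h

/-- almost every point of the sphere is a point of differentiability of the norm -/
theorem ae_sphere : ∀ᵐ x : sphere (0 : E) 1 ∂μ.toSphere,
    DifferentiableAt ℝ (fun y : E => ‖y‖) (x : E) := by
  have h1 : ∀ᵐ x : E ∂μ, DifferentiableAt ℝ (fun y : E => ‖y‖) x :=
    lipschitzWith_one_norm.ae_differentiableAt
  rw [ae_iff]
  have hms : MeasurableSet {x : sphere (0 : E) 1 |
      ¬DifferentiableAt ℝ (fun y : E => ‖y‖) (x : E)} := by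
    have h2 : MeasurableSet {x : E | DifferentiableAt ℝ (fun y : E => ‖y‖) x} :=
      measurableSet_of_differentiableAt ℝ (fun y : E => ‖y‖)
    exact measurable_subtype_coe h2.compl
  rw [μ.toSphere_apply' hms]
  have h3 : μ (Ioo (0 : ℝ) 1 • ((↑) '' {x : sphere (0 : E) 1 |
      ¬DifferentiableAt ℝ (fun y : E => ‖y‖) (x : E)} : Set E)) = 0 := by
    refine measure_mono_null ?_ h1
    rintro _ ⟨r, hr, _, ⟨x, hx, rfl⟩, rfl⟩
    simp only [mem_setOf_eq] at hx
    simp only [mem_compl_iff, mem_setOf_eq]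
    intro h4
    exact hx (h4.differentiableAt_norm_of_smul)
  rw [h3, mul_zero]

/-- Lower bound of the inner integral by supporting pairs. -/
theorem inner_lower (hd : 2 ≤ finrank ℝ E) {A : ℝ → ℝ → ℝ}
    (hA : Measurable (Function.uncurry A)) {C : ℝ}
    (hC : ∀ a ∈ Icc (-1 : ℝ) 1, ∀ b ∈ Icc (-1 : ℝ) 1, |A a b| ≤ C)
    {x : sphere (0 : E) 1} (hx : DifferentiableAt ℝ (fun y : E => ‖y‖) (x : E))
    {c c' p p' : ℝ → ℝ} (hc : ∀ y, HasDerivAt c (c' y) y) (hc' : Continuous c')
    (hp : ∀ y, HasDerivAt p (p' y) y) (hp' : Continuous p')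
    (hsup : ∀ a ∈ Icc (-1 : ℝ) 1, ∀ b ∈ Icc (-1 : ℝ) 1, c a + p a * b ≤ A a b) :
    ∫ y in ball (0 : E) 1, ((finrank ℝ E : ℝ) * c (dg x y) + dg x y * c' (dg x y) +
      p' (dg x y)) ∂μ ≤ ∫ z : sphere (0 : E) 1, A (pr z x) (pr x z) ∂μ.toSphere := by
  have hcc : Continuous c := continuous_iff_continuousAt.2 fun y => (hc y).continuousAt
  have hpc : Continuous p := continuous_iff_continuousAt.2 fun y => (hp y).continuousAt
  obtain ⟨M, hM⟩ := (isCompact_Icc (a := (-1:ℝ)) (b := 1)).exists_bound_of_continuousOn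
    hcc.continuousOn
  obtain ⟨D, hD⟩ := (isCompact_Icc (a := (-1:ℝ)) (b := 1)).exists_bound_of_continuousOn
    hpc.continuousOn
  have hM0 : 0 ≤ M := (norm_nonneg _).trans (hM 0 (by norm_num))
  have hD0 : 0 ≤ D := (norm_nonneg _).trans (hD 0 (by norm_num))
  have m1 : Measurable fun z : sphere (0 : E) 1 => pr z x :=
    measurable_pr.comp (measurable_id.prodMk measurable_const)
  have m2 : Measurable fun z : sphere (0 : E) 1 => pr x z :=
    measurable_pr.comp (measurable_const.prodMk measurable_id)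
  have i1 : Integrable (fun z : sphere (0 : E) 1 => c (pr z x)) μ.toSphere :=
    integrable_sphere μ (hcc.measurable.comp m1) (C := M) fun z => hM _ (pr_mem _ _)
  have i2 : Integrable (fun z : sphere (0 : E) 1 => pr x z * p (pr z x)) μ.toSphere := by
    refine integrable_sphere μ (m2.mul (hpc.measurable.comp m1)) (C := 1 * D) fun z => ?_
    rw [abs_mul]
    exact mul_le_mul (abs_le.2 (pr_mem _ _)) (hD _ (pr_mem _ _)) (abs_nonneg _) zero_le_one
  have i3 : Integrable (fun z : sphere (0 : E) 1 => A (pr z x) (pr x z)) μ.toSphere :=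
    integrable_sphere μ (hA.comp (m1.prodMk m2)) (C := C) fun z => hC _ (pr_mem _ _) _ (pr_mem _ _)
  have ea := sphere_a μ (dg x) hc hc'
  have eb := sphere_b μ hd (dg x) (norm_dg_le x) (x : E) hp hp'
  rw [dg_self hx, one_mul] at eb
  have j1 := integrableOn_ball_comp μ (dg x) (f := fun y => (finrank ℝ E : ℝ) * c y + y * c' y)
    (by fun_prop)
  have j2 := integrableOn_ball_comp μ (dg x) hp'
  have e0 : ∫ y in ball (0 : E) 1, ((finrank ℝ E : ℝ) * c (dg x y) + dg x y * c' (dg x y) +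
      p' (dg x y)) ∂μ = ∫ z : sphere (0 : E) 1, (c (pr z x) + pr x z * p (pr z x))
        ∂μ.toSphere := by
    rw [integral_add i1 i2, integral_add j1 j2, ← ea, ← eb]
    rfl
  rw [e0]
  refine integral_mono (i1.add i2) i3 fun z => ?_
  have := hsup _ (pr_mem z x) _ (pr_mem x z)
  simp only
  linarith only [this]

/-- **Exchangeability theorem.**  If the inner integral is nonnegative for almost every `x`
then it vanishes for almost every `x`. -/
theorem exch_ae {A : ℝ → ℝ → ℝ} (hA : Measurable (Function.uncurry A)) {C : ℝ}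
    (hC : ∀ a ∈ Icc (-1 : ℝ) 1, ∀ b ∈ Icc (-1 : ℝ) 1, |A a b| ≤ C)
    (hanti : ∀ a ∈ Icc (-1 : ℝ) 1, ∀ b ∈ Icc (-1 : ℝ) 1, A a b = -A b a)
    (h0 : ∀ᵐ x : sphere (0 : E) 1 ∂μ.toSphere,
      0 ≤ ∫ z : sphere (0 : E) 1, A (pr z x) (pr x z) ∂μ.toSphere) :
    ∀ᵐ x : sphere (0 : E) 1 ∂μ.toSphere,
      ∫ z : sphere (0 : E) 1, A (pr z x) (pr x z) ∂μ.toSphere = 0 := by
  obtain ⟨hint, hz⟩ := exch_zero (E := E) μ hA hC hanti
  have h1 := (integral_eq_zero_iff_of_nonneg_ae h0 hint.integral_prod_left).1 hz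
  filter_upwards [h1] with x hx
  exact hx

/-- **Exchangeability theorem**, contrapositive form. -/
theorem exch (hd : 2 ≤ finrank ℝ E) {A : ℝ → ℝ → ℝ}
    (hA : Measurable (Function.uncurry A)) {C : ℝ}
    (hC : ∀ a ∈ Icc (-1 : ℝ) 1, ∀ b ∈ Icc (-1 : ℝ) 1, |A a b| ≤ C)
    (hanti : ∀ a ∈ Icc (-1 : ℝ) 1, ∀ b ∈ Icc (-1 : ℝ) 1, A a b = -A b a) :
    ∃ x : sphere (0 : E) 1, DifferentiableAt ℝ (fun y : E => ‖y‖) (x : E) ∧
      ∀ c c' p p' : ℝ → ℝ, (∀ y, HasDerivAt c (c' y) y) → Continuous c' →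
        (∀ y, HasDerivAt p (p' y) y) → Continuous p' →
        (∀ a ∈ Icc (-1 : ℝ) 1, ∀ b ∈ Icc (-1 : ℝ) 1, c a + p a * b ≤ A a b) →
        ∫ y in ball (0 : E) 1, ((finrank ℝ E : ℝ) * c (dg x y) + dg x y * c' (dg x y) +
          p' (dg x y)) ∂μ ≤ 0 := by
  by_contra hcon
  push Not at hcon
  have h1 : ∀ᵐ x : sphere (0 : E) 1 ∂μ.toSphere,
      0 < ∫ z : sphere (0 : E) 1, A (pr z x) (pr x z) ∂μ.toSphere := by
    filter_upwards [ae_sphere μ] with x hx
    obtain ⟨c, c', p, p', hc, hc', hp, hp', hsup, hpos⟩ := hcon x hx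
    exact hpos.trans_le (inner_lower μ hd hA hC hx hc hc' hp hp' hsup)
  have h2 := exch_ae μ hA hC hanti (h1.mono fun x hx => hx.le)
  have h3 : ∀ᵐ _ : sphere (0 : E) 1 ∂μ.toSphere, False := by
    filter_upwards [h1, h2] with x a b
    linarith only [a, b]
  have h4 : μ.toSphere = 0 := by
    rw [Filter.eventually_false_iff_eq_bot, ae_eq_bot] at h3
    exact h3
  exact Measure.toSphere_ne_zero μ h4

end Vale.Agent.P237.Exch
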