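import Vale.Agent.P237.Seg

open MeasureTheory Metric Set Module TopologicalSpace
open scoped Pointwise

namespace Vale.Agent.P237

variable {V : Type*} [NormedAddCommGroup V] [InnerProductSpace ℝ V] [FiniteDimensional ℝ V]
  [MeasurableSpace V] [BorelSpace V]

omit [InnerProductSpace ℝ V] [FiniteDimensional ℝ V] [MeasurableSpace V] [BorelSpace V] in
private lemma ex_near (K L : NonemptyCompacts V) {ε : ℝ} (h : dist K L < ε) {x : V}
    (hx : x ∈ (K : Set V)) : ∃ y ∈ (L : Set V), dist x y < ε := by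
  have hfin : hausdorffEDist (K : Set V) L ≠ ⊤ :=
    hausdorffEDist_ne_top_of_nonempty_of_bounded K.nonempty L.nonempty
      K.isCompact.isBounded L.isCompact.isBounded
  rw [NonemptyCompacts.dist_eq] at h
  exact exists_dist_lt_of_hausdorffDist_lt hx h hfin

private def exT (ρ : ℝ) : Set (NonemptyCompacts V) :=
  {K | Convex ℝ (K : Set V) ∧ (∀ x ∈ (K : Set V), -x ∈ (K : Set V)) ∧
    closedBall (0 : V) 1 ⊆ K ∧ (K : Set V) ⊆ closedBall (0 : V) ρ}

omit [InnerProductSpace ℝ V] [FiniteDimensional ℝ V] [MeasurableSpace V] [BorelSpace V] in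
private lemma ex_mem_of_forall (K : NonemptyCompacts V) (x : V)
    (h : ∀ ε > 0, ∃ y ∈ (K : Set V), dist x y < ε) : x ∈ (K : Set V) := by
  have : x ∈ closure (K : Set V) := Metric.mem_closure_iff.2 h
  rwa [K.isCompact.isClosed.closure_eq] at this

omit [MeasurableSpace V] [BorelSpace V] in
private lemma ex_isCompact (ρ : ℝ) : IsCompact (exT ρ : Set (NonemptyCompacts V)) := by
  have hc : IsCompact {K : NonemptyCompacts V | (K : Set V) ⊆ closedBall (0 : V) ρ} :=
    NonemptyCompacts.isCompact_subsets_of_isCompact (isCompact_closedBall 0 ρ)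
  refine hc.of_isClosed_subset ?_ (fun K hK => hK.2.2.2)
  refine isClosed_of_closure_subset fun K hK => ?_
  rw [Metric.mem_closure_iff] at hK
  refine ⟨?_, ?_, ?_, ?_⟩
  · intro x hx y hy a b ha hb hab
    refine ex_mem_of_forall K _ fun ε hε => ?_
    obtain ⟨L, hL, hKL⟩ := hK (ε / 3) (by positivity)
    obtain ⟨x', hx', hxx⟩ := ex_near K L hKL hx
    obtain ⟨y', hy', hyy⟩ := ex_near K L hKL hy
    obtain ⟨z, hz, hzz⟩ := ex_near L K (by rwa [dist_comm]) (hL.1 hx' hy' ha hb hab)
    refine ⟨z, hz, ?_⟩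
    have h1 : dist (a • x + b • y) (a • x' + b • y') ≤ ε / 3 + ε / 3 := by
      refine (dist_add_add_le _ _ _ _).trans (add_le_add ?_ ?_)
      · rw [dist_smul₀, Real.norm_of_nonneg ha]
        have : a * dist x x' ≤ 1 * dist x x' := by
          gcongr
          linarith
        linarith
      · rw [dist_smul₀, Real.norm_of_nonneg hb]
        have : b * dist y y' ≤ 1 * dist y y' := by
          gcongr
          linarith
        linarith
    have := dist_triangle (a • x + b • y) (a • x' + b • y') z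
    linarith
  · intro x hx
    refine ex_mem_of_forall K _ fun ε hε => ?_
    obtain ⟨L, hL, hKL⟩ := hK (ε / 2) (by positivity)
    obtain ⟨x', hx', hxx⟩ := ex_near K L hKL hx
    obtain ⟨z, hz, hzz⟩ := ex_near L K (by rwa [dist_comm]) (hL.2.1 x' hx')
    refine ⟨z, hz, ?_⟩
    have := dist_triangle (-x) (-x') z
    rw [dist_neg_neg] at this
    linarith
  · intro x hx
    refine ex_mem_of_forall K _ fun ε hε => ?_
    obtain ⟨L, hL, hKL⟩ := hK ε hε
    exact ex_near L K (by rwa [dist_comm]) (hL.2.2.1 hx)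
  · intro x hx
    rw [mem_closedBall_zero_iff]
    refine le_of_forall_pos_le_add fun ε hε => ?_
    obtain ⟨L, hL, hKL⟩ := hK ε hε
    obtain ⟨x', hx', hxx⟩ := ex_near K L hKL hx
    have h1 := mem_closedBall_zero_iff.1 (hL.2.2.2 hx')
    have h2 := norm_le_norm_add_norm_sub' x x'
    rw [dist_eq_norm] at hxx
    linarith

omit [FiniteDimensional ℝ V] [MeasurableSpace V] [BorelSpace V] in
private lemma ex_isSymBody {ρ : ℝ} {K : NonemptyCompacts V} (hK : K ∈ exT ρ) :
    IsSymBody (K : Set V) := by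
  refine ⟨⟨hK.1, K.isCompact, ?_⟩, hK.2.1⟩
  refine ⟨0, interior_mono (ball_subset_closedBall.trans hK.2.2.1) ?_⟩
  rw [interior_eq_iff_isOpen.2 isOpen_ball]
  exact mem_ball_self one_pos

omit [FiniteDimensional ℝ V] [MeasurableSpace V] [BorelSpace V] in
private lemma ex_subset_smul {ρ : ℝ} {K L : NonemptyCompacts V} (hL : L ∈ exT ρ) {ε : ℝ}
    (h : dist K L < ε) : (K : Set V) ⊆ (1 + ε) • (L : Set V) := by
  have hε : 0 < ε := dist_nonneg.trans_lt h
  intro x hx
  obtain ⟨y, hy, hxy⟩ := ex_near K L h hx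
  rw [hL.1.add_smul zero_le_one hε.le, one_smul]
  refine ⟨y, hy, x - y, ?_, by simp⟩
  refine ⟨ε⁻¹ • (x - y), hL.2.2.1 ?_, ?_⟩
  · rw [mem_closedBall_zero_iff, norm_smul, norm_inv, Real.norm_of_nonneg hε.le]
    rw [dist_eq_norm] at hxy
    rw [inv_mul_le_iff₀ hε]
    linarith
  · simp only [smul_smul]
    rw [mul_inv_cancel₀ hε.ne', one_smul]

/-- The comparison of two close bodies. -/
private lemma ex_compare {K L : Set V} (hK : IsSymBody K) (hL : IsSymBody L)
    (hP : IsCompact (projBody L)) {c : ℝ} (hc : 1 ≤ c)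
    (h1 : K ⊆ c • L) (h2 : L ⊆ c • K) :
    vol (projBody K) / vol K ^ (finrank ℝ V - 1) ≤
      c ^ (finrank ℝ V * (finrank ℝ V - 1)) * c ^ (finrank ℝ V * (finrank ℝ V - 1)) *
        (vol (projBody L) / vol L ^ (finrank ℝ V - 1)) := by
  have hc0 : 0 < c := by linarith
  have hvol_smul : ∀ (A : Set V) (r : ℝ), 0 < r → vol (r • A) = r ^ finrank ℝ V * vol A := by
    intro A r hr
    unfold vol
    rw [Measure.addHaar_smul, ENNReal.toReal_mul, ENNReal.toReal_ofReal (abs_nonneg _),
      abs_of_nonneg (by positivity)]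
  have hpos : ∀ A : Set V, IsSymBody A → 0 < vol A := by
    intro A hA
    exact ENNReal.toReal_pos ((isOpen_interior.measure_pos volume hA.int).trans_le
      (measure_mono interior_subset)).ne' hA.compact.measure_lt_top.ne
  -- volumes
  have hv : vol L ≤ c ^ finrank ℝ V * vol K := by
    rw [← hvol_smul K c hc0]
    exact ENNReal.toReal_mono (hK.compact.smul c).measure_lt_top.ne (measure_mono h2)
  -- projection bodies
  have hb : ∀ v, beta K v ≤ c ^ (finrank ℝ V - 1) * beta L v := by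
    intro v
    rw [← beta_smul_set hL.compact hL.convex hc0]
    exact beta_mono hK.compact hK.convex (hL.compact.smul c) (hL.convex.smul c) h1 v
  have hcd : 0 < c ^ (finrank ℝ V - 1) := by positivity
  have hp : projBody K ⊆ c ^ (finrank ℝ V - 1) • projBody L := by
    intro y hy
    refine ⟨(c ^ (finrank ℝ V - 1))⁻¹ • y, ?_, ?_⟩
    · intro u hu
      have h3 := hy u hu
      rw [← beta_unit hK.compact hK.convex hu] at h3
      rw [← beta_unit hL.compact hL.convex hu, real_inner_smul_left, inv_mul_le_iff₀ hcd]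
      exact h3.trans (hb u)
    · simp only [smul_smul]
      rw [mul_inv_cancel₀ hcd.ne', one_smul]
  have hpv : vol (projBody K) ≤ c ^ (finrank ℝ V * (finrank ℝ V - 1)) * vol (projBody L) := by
    have h3 : vol (projBody K) ≤ vol (c ^ (finrank ℝ V - 1) • projBody L) :=
      ENNReal.toReal_mono (hP.smul _).measure_lt_top.ne
        (measure_mono hp)
    rwa [hvol_smul _ _ hcd, ← pow_mul, mul_comm (finrank ℝ V - 1)] at h3
  have hKpos := hpos K hK
  have hLpos := hpos L hL
  have hv' : vol L ^ (finrank ℝ V - 1) ≤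
      c ^ (finrank ℝ V * (finrank ℝ V - 1)) * vol K ^ (finrank ℝ V - 1) := by
    have := pow_le_pow_left₀ hLpos.le hv (finrank ℝ V - 1)
    rwa [mul_pow, ← pow_mul] at this
  have hP0 : 0 ≤ vol (projBody L) := ENNReal.toReal_nonneg
  rw [div_le_iff₀ (by positivity)]
  calc vol (projBody K) ≤ c ^ (finrank ℝ V * (finrank ℝ V - 1)) * vol (projBody L) := hpv
    _ = c ^ (finrank ℝ V * (finrank ℝ V - 1)) *
        (vol (projBody L) / vol L ^ (finrank ℝ V - 1)) * vol L ^ (finrank ℝ V - 1) := by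
      field_simp
    _ ≤ c ^ (finrank ℝ V * (finrank ℝ V - 1)) *
        (vol (projBody L) / vol L ^ (finrank ℝ V - 1)) *
        (c ^ (finrank ℝ V * (finrank ℝ V - 1)) * vol K ^ (finrank ℝ V - 1)) := by
      gcongr
    _ = _ := by ring

/-- `exists_minimizer`, given the compactness of projection bodies. -/
theorem exists_minimizer_of_compact (hE : ∀ L : Set V, IsSymBody L → IsCompact (projBody L))
    (ρ : ℝ) (hρ : 1 ≤ ρ) : ∃ K₀ : Set V, IsSymBody K₀ ∧
    closedBall (0 : V) 1 ⊆ K₀ ∧ K₀ ⊆ closedBall (0 : V) ρ ∧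
    ∀ K : Set V, IsSymBody K → closedBall (0 : V) 1 ⊆ K → K ⊆ closedBall (0 : V) ρ →
      vol (projBody K₀) / vol K₀ ^ (finrank ℝ V - 1) ≤
        vol (projBody K) / vol K ^ (finrank ℝ V - 1) := by
  set f : NonemptyCompacts V → ℝ := fun K =>
    vol (projBody (K : Set V)) / vol (K : Set V) ^ (finrank ℝ V - 1) with hf
  have hf0 : ∀ K, 0 ≤ f K := fun K =>
    div_nonneg ENNReal.toReal_nonneg (pow_nonneg ENNReal.toReal_nonneg _)
  have hlsc : LowerSemicontinuousOn f (exT ρ) := by
    intro K hK y hy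
    set q : ℕ := finrank ℝ V * (finrank ℝ V - 1) with hq
    -- choose `ε` with `(1+ε)^(2q) y < f K`
    have hcont : Filter.Tendsto (fun ε : ℝ => (1 + ε) ^ q * (1 + ε) ^ q * y)
        (nhdsWithin 0 (Ioi 0)) (nhds ((1 + 0) ^ q * (1 + 0) ^ q * y)) := by
      refine Filter.Tendsto.mono_left ?_ nhdsWithin_le_nhds
      refine ContinuousAt.tendsto (f := fun ε : ℝ => (1 + ε) ^ q * (1 + ε) ^ q * y) ?_
      fun_prop
    have h1 : ∀ᶠ ε in nhdsWithin (0 : ℝ) (Ioi 0), (1 + ε) ^ q * (1 + ε) ^ q * y < f K := by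
      refine hcont.eventually_lt_const ?_
      simpa using hy
    obtain ⟨ε, hε1, hε⟩ := (h1.and self_mem_nhdsWithin).exists
    have hε : 0 < ε := hε
    filter_upwards [mem_nhdsWithin_of_mem_nhds (Metric.ball_mem_nhds K hε), self_mem_nhdsWithin]
      with L hL hLT
    have hLK : dist L K < ε := hL
    have h2 := ex_compare (ex_isSymBody hK) (ex_isSymBody hLT) (hE _ (ex_isSymBody hLT)) (c := 1 + ε) (by linarith)
      (ex_subset_smul hLT (by rwa [dist_comm])) (ex_subset_smul hK hLK)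
    have h3 : (1 + ε) ^ q * (1 + ε) ^ q * y < (1 + ε) ^ q * (1 + ε) ^ q * f L := hε1.trans_le h2
    exact lt_of_mul_lt_mul_left h3 (by positivity)
  have hne : (exT ρ : Set (NonemptyCompacts V)).Nonempty := by
    refine ⟨⟨⟨closedBall (0 : V) 1, isCompact_closedBall 0 1⟩, ⟨0, by simp⟩⟩, ?_, ?_, ?_, ?_⟩
    · exact convex_closedBall 0 1
    · intro x hx
      have hx' : x ∈ closedBall (0 : V) 1 := hx
      change -x ∈ closedBall (0 : V) 1
      rw [mem_closedBall_zero_iff] at hx' ⊢
      rwa [norm_neg]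
    · exact subset_rfl
    · exact closedBall_subset_closedBall hρ
  obtain ⟨K₀, hK₀, hmin⟩ := hlsc.exists_isMinOn hne (ex_isCompact ρ)
  refine ⟨K₀, ex_isSymBody hK₀, hK₀.2.2.1, hK₀.2.2.2, fun K hK h1 h2 => ?_⟩
  exact hmin (a := ⟨⟨K, hK.compact⟩, hK.int.mono interior_subset⟩) ⟨hK.convex, hK.symm, h1, h2⟩

end Vale.Agent.P237
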