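import Vale.Agent.P237.All
import Vale.Agent.P237.Ratio
import Vale.Agent.P237.Glue2

/-!
# P237: the class-reduction inequality for the projection body operator and its equality case
-/

open MeasureTheory Metric Set Module
open scoped Pointwise

namespace Vale.Agent.P237

variable {V : Type*} [NormedAddCommGroup V] [InnerProductSpace ℝ V] [FiniteDimensional ℝ V]
  [MeasurableSpace V] [BorelSpace V]

namespace Glue1

theorem bernoulli {a x : ℝ} (ha : 0 ≤ a) (hx : 0 ≤ x) (n : ℕ) :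
    a ^ (n + 1) + (n + 1) * a ^ n * x ≤ (a + x) ^ (n + 1) := by
  induction n with
  | zero => simp only [zero_add, pow_one, CharP.cast_eq_zero, pow_zero, mul_one, one_mul, Std.le_refl]
  | succ n ih =>
    have h1 : (a ^ (n + 1) + (n + 1) * a ^ n * x) * (a + x) ≤ (a + x) ^ (n + 1) * (a + x) :=
      mul_le_mul_of_nonneg_right ih (by positivity)
    have h2 : (0 : ℝ) ≤ (n + 1) * a ^ n * x * x := by (clear * - ha hx; positivity)
    push_cast
    calc a ^ (n + 1 + 1) + ((n : ℝ) + 1 + 1) * a ^ (n + 1) * x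
        ≤ (a ^ (n + 1) + (n + 1) * a ^ n * x) * (a + x) := by
          have h3 : (a ^ (n + 1) + (n + 1) * a ^ n * x) * (a + x) =
            a ^ (n + 1 + 1) + ((n : ℝ) + 1 + 1) * a ^ (n + 1) * x + (n + 1) * a ^ n * x * x := by
            ring
          rw [h3]
          linarith only [h2]
      _ ≤ (a + x) ^ (n + 1) * (a + x) := h1
      _ = (a + x) ^ (n + 1 + 1) := by ring

theorem limit_lemma {d : ℕ} (hd : 0 < d) {a b s A C : ℝ} (ha : 0 ≤ a) (hb : 0 ≤ b)
    (h : ∀ ε : ℝ, 0 < ε → ε ≤ 1 →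
      (a + ε * b) ^ d ≤ a ^ d + ε * s * (1 + ε * C) ^ (d - 1) * (d * A)) :
    a ^ (d - 1) * b ≤ s * A := by
  obtain ⟨n, rfl⟩ : ∃ n, d = n + 1 := ⟨d - 1, by omega⟩
  simp only [Nat.add_sub_cancel] at h ⊢
  have h1 : ∀ ε : ℝ, 0 < ε → ε ≤ 1 → a ^ n * b ≤ s * (1 + ε * C) ^ n * A := by
    intro ε hε hε1
    have h2 := h ε hε hε1
    have h3 := bernoulli ha (mul_nonneg hε.le hb) n
    have h4 : ((n : ℝ) + 1) * ε * (a ^ n * b) ≤ ((n : ℝ) + 1) * ε * (s * (1 + ε * C) ^ n * A) := by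
      push_cast at h2
      have h5 := h3.trans h2
      have h6 : ((n : ℝ) + 1) * a ^ n * (ε * b) ≤ ε * s * (1 + ε * C) ^ n * (((n : ℝ) + 1) * A) := by
        (clear * - h3 h2; linarith)
      calc ((n : ℝ) + 1) * ε * (a ^ n * b) = ((n : ℝ) + 1) * a ^ n * (ε * b) := by ring
        _ ≤ _ := h6
        _ = _ := by ring
    exact le_of_mul_le_mul_left h4 (by positivity)
  have hlim : Filter.Tendsto (fun ε : ℝ => s * (1 + ε * C) ^ n * A) (nhdsWithin 0 (Ioi 0))
      (nhds (s * (1 + 0 * C) ^ n * A)) := by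
    apply Filter.Tendsto.mono_left _ nhdsWithin_le_nhds
    exact Continuous.tendsto (by fun_prop) 0
  have h2 : a ^ n * b ≤ s * (1 + 0 * C) ^ n * A := by
    apply ge_of_tendsto hlim
    have h3 : Ioc (0 : ℝ) 1 ∈ nhdsWithin (0 : ℝ) (Ioi 0) := Ioc_mem_nhdsGT one_pos
    filter_upwards [h3] with ε hε
    exact h1 ε hε.1 hε.2
  simpa only [ge_iff_le, zero_mul, add_zero, one_pow, mul_one] using h2

theorem rpow_pow {x : ℝ} (hx : 0 ≤ x) {d : ℕ} (hd : 0 < d) :
    (x ^ ((1 : ℝ) / d)) ^ d = x := by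
  rw [one_div]
  exact Real.rpow_inv_natCast_pow hx hd.ne'

/-- the derivative bound. -/
theorem core {K : Set V} (hK : IsBody K) (h0 : (0 : V) ∈ interior K) (hd : 0 < finrank ℝ V)
    {t : ℝ} (ht : 0 ≤ t) :
    (vol K ^ ((1 : ℝ) / finrank ℝ V)) ^ (finrank ℝ V - 1) *
      (vol (K + t • projBody (projBody K)) ^ ((1 : ℝ) / finrank ℝ V) -
        vol K ^ ((1 : ℝ) / finrank ℝ V)) ≤ t * vol (projBody K) := by
  have hN := projBody_isSymBody hK
  have hM := projBody_isSymBody hN.toIsBody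
  obtain ⟨C, hC, hbound⟩ := mixed_bound hK h0 hN hM.compact hM.convex
    (hM.int.mono interior_subset)
    (fun v => (supp_projBody hK v).ge) (fun v => (supp_projBody hN.toIsBody v).le)
  set M := projBody (projBody K) with hMdef
  have hKne : K.Nonempty := hK.int.mono interior_subset
  have hMne : M.Nonempty := hM.int.mono interior_subset
  have htM : IsCompact (t • M) := hM.compact.smul t
  have htMne : (t • M).Nonempty := hMne.smul_set
  have hKtM : IsCompact (K + t • M) := hK.compact.add htM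
  set a := vol K ^ ((1 : ℝ) / finrank ℝ V) with ha
  set g := vol (K + t • M) ^ ((1 : ℝ) / finrank ℝ V) with hg
  have ha0 : 0 ≤ a := Real.rpow_nonneg (vol_nonneg K) _
  have hag : a ≤ g := by
    have h1 := brunn_minkowski hK.compact htM hKne htMne hd
    have h2 : 0 ≤ vol (t • M) ^ ((1 : ℝ) / finrank ℝ V) := Real.rpow_nonneg (vol_nonneg _) _
    (clear h0 ht hN C hC hbound hMdef hKtM ha hg ha0; linarith)
  apply limit_lemma hd (C := t * C) ha0 (sub_nonneg.2 hag)
  intro ε hε hε1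
  -- inclusion
  have hincl : (1 - ε) • K + ε • (K + t • M) ⊆ K + (ε * t) • M := by
    rintro _ ⟨_, ⟨k, hk, rfl⟩, _, ⟨_, ⟨k', hk', _, ⟨m, hm, rfl⟩, rfl⟩, rfl⟩, rfl⟩
    refine ⟨(1 - ε) • k + ε • k', ?_, (ε * t) • m, ⟨m, hm, rfl⟩, ?_⟩
    · exact hK.convex hk hk' (by linarith only [hε1]) hε.le (by ring)
    · simp only [smul_add, mul_smul]
      abel
  have hcs : ∀ {s : ℝ} {S : Set V}, 0 ≤ s →
      vol (s • S) ^ ((1 : ℝ) / finrank ℝ V) = s * vol S ^ ((1 : ℝ) / finrank ℝ V) := by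
    intro s S hs
    rw [vol_smul_set_of_nonneg hs, Real.mul_rpow (by (clear * - hs; positivity)) (vol_nonneg S), one_div,
      Real.pow_rpow_inv_natCast hs hd.ne']
  have hbm := brunn_minkowski (K := (1 - ε) • K) (L := ε • (K + t • M))
    (hK.compact.smul _) (hKtM.smul _) hKne.smul_set (hKne.add htMne).smul_set hd
  rw [hcs (by linarith only [hε1]), hcs hε.le, ← ha, ← hg] at hbm
  have hmono : vol ((1 - ε) • K + ε • (K + t • M)) ≤ vol (K + (ε * t) • M) :=
    vol_mono (hK.compact.add (hM.compact.smul _)) hincl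
  have h3 : a + ε * (g - a) ≤ vol (K + (ε * t) • M) ^ ((1 : ℝ) / finrank ℝ V) := by
    have h4 := Real.rpow_le_rpow (vol_nonneg _) hmono
      (show (0 : ℝ) ≤ (1 : ℝ) / finrank ℝ V by positivity)
    calc a + ε * (g - a) = (1 - ε) * a + ε * g := by ring
      _ ≤ _ := hbm.trans h4
  have h5 : (a + ε * (g - a)) ^ finrank ℝ V ≤ vol (K + (ε * t) • M) := by
    have h6 := pow_le_pow_left₀ (add_nonneg ha0 (mul_nonneg hε.le (sub_nonneg.2 hag))) h3
      (finrank ℝ V)
    rwa [rpow_pow (vol_nonneg _) hd] at h6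
  have h7 := hbound (ε * t) (mul_nonneg hε.le ht)
  rw [ha, rpow_pow (vol_nonneg K) hd, ← ha, ← mul_assoc ε t C]
  exact h5.trans h7

omit [FiniteDimensional ℝ V] [MeasurableSpace V] [BorelSpace V] in
/-- Reduction to bodies with `0` in the interior. -/
theorem exists_translate {K : Set V} (hK : IsBody K) : ∃ c : V,
    IsBody ((fun x => c + x) '' K) ∧ (0 : V) ∈ interior ((fun x => c + x) '' K) := by
  obtain ⟨x, hx⟩ := hK.int
  refine ⟨-x, hK.translate (-x), ?_⟩
  have h1 := (Homeomorph.addLeft (-x)).image_interior K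
  have h2 : (fun y => -x + y) '' interior K = interior ((fun y => -x + y) '' K) := h1
  rw [← h2]
  exact ⟨x, hx, by simp⟩

theorem contract0 {K : Set V} (hK : IsBody K) (h0 : (0 : V) ∈ interior K)
    (hd : 0 < finrank ℝ V) :
    vol K ^ (finrank ℝ V - 1) * vol (projBody (projBody K)) ≤
      vol (projBody K) ^ finrank ℝ V := by
  have hN := projBody_isSymBody hK
  have hM := projBody_isSymBody hN.toIsBody
  have h1 := core hK h0 hd zero_le_one
  rw [one_smul, one_mul] at h1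
  have h2 := brunn_minkowski hK.compact hM.compact (hK.int.mono interior_subset)
    (hM.int.mono interior_subset) hd
  set a := vol K ^ ((1 : ℝ) / finrank ℝ V) with ha
  set m := vol (projBody (projBody K)) ^ ((1 : ℝ) / finrank ℝ V) with hm
  have ha0 : 0 ≤ a := Real.rpow_nonneg (vol_nonneg K) _
  have hm0 : 0 ≤ m := Real.rpow_nonneg (vol_nonneg _) _
  have h3 : a ^ (finrank ℝ V - 1) * m ≤ vol (projBody K) := by
    refine le_trans ?_ h1
    apply mul_le_mul_of_nonneg_left _ (by (clear * - ha0; positivity))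
    (clear hK h0 hd hN hM h1 ha hm ha0 hm0; linarith)
  have h4 := pow_le_pow_left₀ (by (clear * - ha0 hm0; positivity)) h3 (finrank ℝ V)
  rw [mul_pow, hm, rpow_pow (vol_nonneg _) hd, ← pow_mul, mul_comm (finrank ℝ V - 1), pow_mul, ha,
    rpow_pow (vol_nonneg _) hd] at h4
  exact h4

theorem contract0_eq {K : Set V} (hK : IsBody K) (h0 : (0 : V) ∈ interior K)
    (hd : 0 < finrank ℝ V)
    (h : vol (projBody K) ^ finrank ℝ V ≤
      vol K ^ (finrank ℝ V - 1) * vol (projBody (projBody K))) :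
    ∃ (c : V) (r : ℝ), 0 < r ∧ projBody (projBody K) = (fun x => c + x) '' (r • K) := by
  have hN := projBody_isSymBody hK
  have hM := projBody_isSymBody hN.toIsBody
  set M := projBody (projBody K) with hMdef
  set a := vol K ^ ((1 : ℝ) / finrank ℝ V) with ha
  set m := vol M ^ ((1 : ℝ) / finrank ℝ V) with hm
  have hvK : 0 < vol K := ZA.vol_pos hK
  have hvM : 0 < vol M := ZA.vol_pos hM.toIsBody
  have ha0 : 0 < a := Real.rpow_pos_of_pos hvK _
  have hm0 : 0 < m := Real.rpow_pos_of_pos hvM _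
  have had : a ^ finrank ℝ V = vol K := rpow_pow (vol_nonneg _) hd
  have hmd : m ^ finrank ℝ V = vol M := rpow_pow (vol_nonneg _) hd
  -- `vol N ≤ a^(d-1) m`
  have h1 : vol (projBody K) ≤ a ^ (finrank ℝ V - 1) * m := by
    apply le_of_pow_le_pow_left₀ hd.ne' (by (clear h0 hd hN h hMdef ha hm ha0 hm0 had hmd; positivity))
    rw [mul_pow, ← pow_mul, mul_comm (finrank ℝ V - 1), pow_mul, had, hmd]
    exact h
  set t := a / m with ht
  have ht0 : 0 < t := div_pos ha0 hm0
  have htm : t * m = a := div_mul_cancel₀ a hm0.ne'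
  have h2 := core hK h0 hd ht0.le
  rw [← hMdef, ← ha] at h2
  set g := vol (K + t • M) ^ ((1 : ℝ) / finrank ℝ V) with hg
  have h3 : g - a ≤ a := by
    have h4 : a ^ (finrank ℝ V - 1) * (g - a) ≤ a ^ (finrank ℝ V - 1) * a := by
      calc a ^ (finrank ℝ V - 1) * (g - a) ≤ t * vol (projBody K) := h2
        _ ≤ t * (a ^ (finrank ℝ V - 1) * m) := mul_le_mul_of_nonneg_left h1 ht0.le
        _ = a ^ (finrank ℝ V - 1) * (t * m) := by ring
        _ = a ^ (finrank ℝ V - 1) * a := by rw [htm]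
    exact le_of_mul_le_mul_left h4 (by positivity)
  have hvtM : vol (t • M) = vol K := by
    rw [vol_smul_set_of_nonneg ht0.le, ← hmd, ← mul_pow, htm, had]
  have hvtM' : vol (t • M) ^ ((1 : ℝ) / finrank ℝ V) = a := by rw [hvtM]
  have hbm := brunn_minkowski hK.compact (hM.compact.smul t) (hK.int.mono interior_subset)
    (hM.int.mono interior_subset).smul_set hd
  rw [hvtM', ← ha, ← hg] at hbm
  have hg2 : g = 2 * a := by linarith only [hbm, h3]
  have hvol : vol (K + t • M) = 2 ^ finrank ℝ V * vol K := by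
    have h4 : g ^ finrank ℝ V = vol (K + t • M) := rpow_pow (vol_nonneg _) hd
    rw [← h4, hg2, mul_pow, had]
  have hhalf : vol ((2⁻¹ : ℝ) • (K + t • M)) = vol K := by
    rw [vol_smul_set_of_nonneg (by norm_num), hvol, ← mul_assoc, ← mul_pow]
    norm_num
  have htMbody : IsBody (t • M) := by
    have h4 := hM.toIsBody.image (LinearEquiv.smulOfNeZero ℝ V t ht0.ne')
    exact h4
  obtain ⟨c, hc⟩ := bm_equality hK htMbody hvtM.symm hhalf
  refine ⟨t⁻¹ • c, t⁻¹, inv_pos.2 ht0, ?_⟩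
  have h5 : M = t⁻¹ • (t • M) := by rw [inv_smul_smul₀ ht0.ne']
  rw [h5, hc]
  ext x
  constructor
  · rintro ⟨_, ⟨k, hk, rfl⟩, rfl⟩
    exact ⟨t⁻¹ • k, smul_mem_smul_set hk, by simp only [smul_add]⟩
  · rintro ⟨_, ⟨k, hk, rfl⟩, rfl⟩
    exact ⟨c + k, ⟨k, hk, rfl⟩, by simp only [smul_add]⟩

end Glue1

theorem petty_contract {K : Set V} (hK : IsBody K) (hd : 0 < finrank ℝ V) :
    vol K ^ (finrank ℝ V - 1) * vol (projBody (projBody K)) ≤
      vol (projBody K) ^ finrank ℝ V := by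
  obtain ⟨c, hc, hc0⟩ := Glue1.exists_translate hK
  have h1 := Glue1.contract0 hc hc0 hd
  rwa [projBody_translate, vol_image_add_left] at h1

theorem petty_contract_eq {K : Set V} (hK : IsBody K) (hd : 0 < finrank ℝ V)
    (h : vol (projBody K) ^ finrank ℝ V ≤
      vol K ^ (finrank ℝ V - 1) * vol (projBody (projBody K))) :
    ∃ (c : V) (r : ℝ), 0 < r ∧ projBody (projBody K) = (fun x => c + x) '' (r • K) := by
  obtain ⟨c, hc, hc0⟩ := Glue1.exists_translate hK
  obtain ⟨c', r, hr, h1⟩ := Glue1.contract0_eq hc hc0 hd (by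
    rwa [projBody_translate, vol_image_add_left])
  rw [projBody_translate] at h1
  refine ⟨c' + r • c, r, hr, ?_⟩
  rw [h1]
  ext x
  constructor
  · rintro ⟨_, ⟨_, ⟨k, hk, rfl⟩, rfl⟩, rfl⟩
    exact ⟨r • k, smul_mem_smul_set hk, by simp only [smul_add]; abel⟩
  · rintro ⟨_, ⟨k, hk, rfl⟩, rfl⟩
    exact ⟨r • (c + k), smul_mem_smul_set ⟨k, hk, rfl⟩, by simp only [smul_add]; abel⟩

end Vale.Agent.P237
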