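import Vale.Agent.P237.Slices
import Vale.Agent.P237.PlaneBeta
import Vale.Agent.P237.OneD

/-!
# P237: second moments of slices and the final slice estimate
-/

open MeasureTheory Metric Set Module
open scoped Pointwise

namespace Vale.Agent.P237

section Plane

variable {W : Type*} [NormedAddCommGroup W] [InnerProductSpace ℝ W] [FiniteDimensional ℝ W]
  [MeasurableSpace W] [BorelSpace W]

theorem volume_ball_plane (h2 : finrank ℝ W = 2) : (volume : Measure W).real (ball 0 1) = Real.pi := by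
  have : Nontrivial W := Module.nontrivial_of_finrank_pos (R := ℝ) (by omega)
  unfold Measure.real
  rw [InnerProductSpace.volume_ball_of_dim_even (k := 1) (by omega), h2]
  simp [Real.pi_pos.le]

/-- Integral of `min (‖z‖² - r², 0)` in the plane. -/
theorem integral_min_plane (h2 : finrank ℝ W = 2) {r : ℝ} (hr : 0 ≤ r) :
    ∫ z : W, min (‖z‖ ^ 2 - r ^ 2) 0 = - (Real.pi * r ^ 4 / 2) := by
  have : Nontrivial W := Module.nontrivial_of_finrank_pos (R := ℝ) (by omega)
  have h := integral_fun_norm_addHaar (volume : Measure W) (fun s : ℝ => min (s ^ 2 - r ^ 2) 0)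
  rw [h, h2, volume_ball_plane h2]
  have h3 : ∫ y in Ioi (0:ℝ), y ^ (2 - 1) • min (y ^ 2 - r ^ 2) 0 = - (r ^ 4 / 4) := by
    have e1 : ∫ y in Ioi (0:ℝ), y ^ (2 - 1) • min (y ^ 2 - r ^ 2) 0 =
        ∫ y in Ioc (0:ℝ) r, y * (y ^ 2 - r ^ 2) := by
      rw [← integral_indicator measurableSet_Ioi, ← integral_indicator measurableSet_Ioc]
      congr 1
      funext y
      by_cases hy : 0 < y
      · rw [indicator_of_mem (show y ∈ Ioi (0:ℝ) from hy)]
        by_cases hy2 : y ≤ r
        · rw [indicator_of_mem (show y ∈ Ioc (0:ℝ) r from ⟨hy, hy2⟩), min_eq_left]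
          · simp only [Nat.add_one_sub_one, pow_one, smul_eq_mul]
          · (clear * - hr hy2 hy; nlinarith)
        · rw [indicator_of_notMem (show y ∉ Ioc (0:ℝ) r from fun h => hy2 h.2), min_eq_right]
          · simp only [Nat.add_one_sub_one, pow_one, smul_eq_mul, mul_zero]
          · push Not at hy2
            nlinarith only [hr, hy2]
      · rw [indicator_of_notMem (show y ∉ Ioi (0:ℝ) from hy),
          indicator_of_notMem (show y ∉ Ioc (0:ℝ) r from fun h => hy h.1)]
    rw [e1, ← intervalIntegral.integral_of_le hr]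
    have hder : ∀ y ∈ uIcc 0 r, HasDerivAt (fun y : ℝ => y ^ 4 / 4 - r ^ 2 * y ^ 2 / 2)
        (y * (y ^ 2 - r ^ 2)) y := by
      intro y _
      have := ((hasDerivAt_pow 4 y).div_const 4).sub
        (((hasDerivAt_pow 2 y).const_mul (r ^ 2)).div_const 2)
      refine this.congr_deriv ?_
      simp only [Nat.cast_ofNat, Nat.add_one_sub_one, ne_eq, OfNat.ofNat_ne_zero, not_false_eq_true, mul_div_cancel_left₀, pow_one]
      ring
    rw [intervalIntegral.integral_eq_sub_of_hasDerivAt hder (by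
      have : Continuous (fun y : ℝ => y * (y ^ 2 - r ^ 2)) := by fun_prop
      exact this.intervalIntegrable _ _)]
    ring
  rw [h3]
  simp only [smul_eq_mul, mul_neg, smul_neg, nsmul_eq_mul, Nat.cast_ofNat, neg_inj]
  ring

/-- Among planar sets of given area the disc has the least second moment. -/
theorem moment_plane (h2 : finrank ℝ W = 2) {S : Set W} (hS : IsCompact S) :
    vol S ^ 2 / (2 * Real.pi) ≤ ∫ z in S, ‖z‖ ^ 2 := by
  have hpi := Real.pi_pos
  have hv : 0 ≤ vol S := ENNReal.toReal_nonneg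
  set r : ℝ := √(vol S / Real.pi) with hr
  have hr0 : 0 ≤ r := Real.sqrt_nonneg _
  have hr2 : r ^ 2 = vol S / Real.pi := Real.sq_sqrt (by (clear h2 hS hpi r hr hr0; positivity))
  have hI := integral_min_plane (W := W) h2 hr0
  have hcont : Continuous (fun z : W => min (‖z‖ ^ 2 - r ^ 2) 0) := by (clear * -; (clear * -; fun_prop))
  have hint : Integrable (fun z : W => min (‖z‖ ^ 2 - r ^ 2) 0) := by
    refine hcont.integrable_of_hasCompactSupport ?_
    refine HasCompactSupport.intro (isCompact_closedBall (0 : W) r) ?_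
    intro z hz
    rw [mem_closedBall_zero_iff, not_le] at hz
    apply min_eq_right
    nlinarith only [hr0, hz]
  have h1 : ∫ z : W, min (‖z‖ ^ 2 - r ^ 2) 0 ≤ ∫ z in S, min (‖z‖ ^ 2 - r ^ 2) 0 := by
    rw [← integral_indicator hS.measurableSet]
    refine integral_mono hint (hint.indicator hS.measurableSet) ?_
    intro z
    by_cases hz : z ∈ S
    · simp only [indicator_of_mem hz]; exact le_rfl
    · simp only [indicator_of_notMem hz]; exact min_le_right _ _
  have hc1 : IntegrableOn (fun z : W => ‖z‖ ^ 2) S :=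
    (by fun_prop : Continuous (fun z : W => ‖z‖ ^ 2)).continuousOn.integrableOn_compact hS
  have hc2 : IntegrableOn (fun _ : W => r ^ 2) S :=
    continuousOn_const.integrableOn_compact hS
  have h2 : ∫ z in S, min (‖z‖ ^ 2 - r ^ 2) 0 ≤ ∫ z in S, (‖z‖ ^ 2 - r ^ 2) :=
    integral_mono hint.integrableOn (hc1.sub hc2) fun z => min_le_left _ _
  rw [integral_sub hc1 hc2, setIntegral_const, smul_eq_mul] at h2
  have h3 : (volume : Measure W).real S = vol S := rfl
  rw [h3] at h2
  rw [hI] at h1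
  have h4 : r ^ 4 = (vol S / Real.pi) ^ 2 := by rw [← hr2]; ring
  rw [h4] at h1
  have e1 : Real.pi * (vol S / Real.pi) ^ 2 / 2 = vol S ^ 2 / (2 * Real.pi) := by
    (clear hS hpi hv r hr hr0 hr2 hI hcont hint h1 hc1 hc2 h2 h3 h4; field_simp)
  have e2 : vol S * r ^ 2 = 2 * (vol S ^ 2 / (2 * Real.pi)) := by
    rw [hr2]
    (clear hS hpi hv r hr hr0 hr2 hI hcont hint h1 hc1 hc2 h2 h3 h4 e1; field_simp)
  rw [e1] at h1
  rw [e2] at h2
  (clear hS hpi hv hr hr0 hr2 hI hcont hint hc1 hc2 h3 h4 e1 e2; linarith)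

end Plane

section Space

variable {V : Type*} [NormedAddCommGroup V] [InnerProductSpace ℝ V] [FiniteDimensional ℝ V]
  [MeasurableSpace V] [BorelSpace V]

omit [FiniteDimensional ℝ V] [MeasurableSpace V] [BorelSpace V] in
theorem norm_sq_prod_point {u : V} (hu : ‖u‖ = 1) (z : ((ℝ ∙ u)ᗮ : Submodule ℝ V)) (y : ℝ) :
    ‖(z : V) + y • u‖ ^ 2 = ‖z‖ ^ 2 + y ^ 2 := by
  have h1 : inner ℝ (z : V) u = 0 := by
    rw [real_inner_comm]
    exact Submodule.mem_orthogonal_singleton_iff_inner_right.mp z.2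
  have h2 := norm_add_sq_real (z : V) (y • u)
  rw [h2, inner_smul_right, h1, norm_smul, hu]
  simp only [mul_zero, add_zero, Real.norm_eq_abs, mul_one, sq_abs, Submodule.coe_norm]

/-- The areas of the slices are bounded. -/
theorem exists_vol_slice_le {K : Set V} (hK : IsCompact K) {u : V} (hu : ‖u‖ = 1) :
    ∃ C : ℝ, 0 ≤ C ∧ ∀ y, vol (slice K u y) ≤ C := by
  obtain ⟨R, hR⟩ := hK.isBounded.subset_closedBall (0 : V)
  refine ⟨vol (closedBall (0 : ((ℝ ∙ u)ᗮ : Submodule ℝ V)) R), ENNReal.toReal_nonneg, fun y => ?_⟩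
  refine ENNReal.toReal_mono (isCompact_closedBall _ _).measure_lt_top.ne (measure_mono ?_)
  intro z hz
  have h1 := hR (show (z : V) + y • u ∈ K from hz)
  rw [mem_closedBall_zero_iff] at h1 ⊢
  have h2 := norm_sq_prod_point hu z y
  have h3 : ‖z‖ ^ 2 ≤ ‖(z : V) + y • u‖ ^ 2 := by rw [h2]; nlinarith only []
  exact (abs_le_of_sq_le_sq' h3 (norm_nonneg _)).2.trans h1

theorem integrable_vol_slice_sq {K : Set V} (hK : IsCompact K) {u : V} (hu : ‖u‖ = 1) :
    Integrable (fun y : ℝ => vol (slice K u y) ^ 2) := by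
  obtain ⟨C, hC, hb⟩ := exists_vol_slice_le hK hu
  have h := integrable_vol_slice hK hu
  have h2 := h.mul_bdd (c := C) h.aestronglyMeasurable (Filter.Eventually.of_forall fun y => by
    rw [Real.norm_eq_abs, abs_of_nonneg (show 0 ≤ vol (slice K u y) from ENNReal.toReal_nonneg)]
    exact hb y)
  refine h2.congr (Filter.Eventually.of_forall fun y => ?_)
  simp only [sq]

/-- Fubini for continuous functions on a compact set. -/
theorem slice_fubini {K : Set V} (hK : IsCompact K) {u : V} (hu : ‖u‖ = 1) (g : V → ℝ)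
    (hg : Continuous g) :
    Integrable (fun y : ℝ => ∫ z in slice K u y, g ((z : V) + y • u)) ∧
    ∫ x in K, g x = ∫ y : ℝ, (∫ z in slice K u y, g ((z : V) + y • u)) := by
  have hm : MeasurableSet K := hK.measurableSet
  have hint : Integrable (fun x : V => K.indicator g x) := by
    rw [integrable_indicator_iff hm]
    exact hg.continuousOn.integrableOn_compact hK
  have hint2 : Integrable (fun p : ℝ × ((ℝ ∙ u)ᗮ : Submodule ℝ V) =>
      K.indicator g ((p.2 : V) + p.1 • u)) := by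
    have := ((prodEquiv_measurePreserving u hu).integrable_comp_emb
      (prodEquiv u hu).measurableEmbedding).2 hint
    refine this.congr (Filter.Eventually.of_forall fun p => ?_)
    simp only [Function.comp, prodEquiv_apply]
  have hpt : ∀ y : ℝ, ∫ z : ((ℝ ∙ u)ᗮ : Submodule ℝ V), K.indicator g ((z : V) + y • u)
      = ∫ z in slice K u y, g ((z : V) + y • u) := by
    intro y
    rw [← integral_indicator (slice_isCompact hK u y).measurableSet]
    congr 1
  rw [Measure.volume_eq_prod] at hint2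
  constructor
  · refine hint2.integral_prod_left.congr (Filter.Eventually.of_forall fun y => ?_)
    exact hpt y
  · rw [← integral_indicator hm, integral_eq_integral_prod u hu, Measure.volume_eq_prod,
      integral_prod _ hint2]
    exact integral_congr_ae (Filter.Eventually.of_forall fun y => hpt y)

theorem slice_moment (hd : finrank ℝ V = 3) {K : Set V} (hK : IsCompact K) {u : V}
    (hu : ‖u‖ = 1) :
    (∫ x in K, (inner ℝ x u) ^ 2) + (∫ y : ℝ, vol (slice K u y) ^ 2) / (2 * Real.pi) ≤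
      ∫ x in K, ‖x‖ ^ 2 := by
  have h2 := finrank_perp hd hu
  obtain ⟨i1, e1⟩ := slice_fubini hK hu (fun x => ‖x‖ ^ 2) (by fun_prop)
  obtain ⟨i2, e2⟩ := slice_fubini hK hu (fun x => (inner ℝ x u) ^ 2)
    ((continuous_id.inner continuous_const).pow 2)
  rw [e1, e2, ← integral_div, ← integral_add i2 ((integrable_vol_slice_sq hK hu).div_const _)]
  refine integral_mono (i2.add ((integrable_vol_slice_sq hK hu).div_const _)) i1 ?_
  intro y
  have hS := slice_isCompact hK u y
  have h3 := moment_plane h2 hS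
  simp only [inner_prod_point hu, norm_sq_prod_point hu]
  have hc1 : IntegrableOn (fun z : ((ℝ ∙ u)ᗮ : Submodule ℝ V) => ‖z‖ ^ 2) (slice K u y) :=
    (by fun_prop : Continuous (fun z : ((ℝ ∙ u)ᗮ : Submodule ℝ V) =>
      ‖z‖ ^ 2)).continuousOn.integrableOn_compact hS
  have hc2 : IntegrableOn (fun _ : ((ℝ ∙ u)ᗮ : Submodule ℝ V) => y ^ 2) (slice K u y) :=
    continuousOn_const.integrableOn_compact hS
  rw [integral_add hc1 hc2]
  (clear i1 e1 i2 e2 hc1 hc2; linarith)

/-- The slices are empty for `|y| > 1`. -/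
theorem vol_slice_eq_zero {K : Set V} (hs : ∀ x ∈ K, -x ∈ K) {u : V} (hu : ‖u‖ = 1)
    (hc : ∀ x ∈ K, inner ℝ x u ≤ 1) {y : ℝ} (hy : 1 < |y|) : vol (slice K u y) = 0 := by
  have : slice K u y = ∅ := by
    rw [eq_empty_iff_forall_notMem]
    intro z hz
    have h1 := hc _ hz
    have h2 := hc _ (hs _ hz)
    rw [inner_neg_left, inner_prod_point hu] at h2
    rw [inner_prod_point hu] at h1
    rcases lt_abs.mp hy with h | h <;> linarith
  rw [this]
  simp [vol]

theorem integral_eq_of_support {f : ℝ → ℝ} (hf : ∀ y, 1 < |y| → f y = 0) :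
    ∫ y : ℝ, f y = ∫ y in (-1:ℝ)..1, f y := by
  rw [intervalIntegral.integral_of_le (by norm_num), ← integral_Icc_eq_integral_Ioc]
  symm
  refine setIntegral_eq_integral_of_forall_compl_eq_zero ?_
  intro y hy
  apply hf
  rw [mem_Icc, ← abs_le, not_le] at hy
  exact hy

/-- **Slice estimate**: the contact direction of the moment inequality. -/
theorem sqrt_slice_bound (hd : finrank ℝ V = 3) {K : Set V} (hK : IsSymBody K)
    (hb : closedBall (0 : V) 1 ⊆ K) {u : V} (hu : ‖u‖ = 1)
    (hc : ∀ x ∈ K, inner ℝ x u ≤ 1)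
    (hm : (∫ x in K, ‖x‖ ^ 2) ≤ 3 * ∫ x in K, (inner ℝ x u) ^ 2) :
    3 * Real.pi ^ 2 / 16 * vol K ≤ (∫ y : ℝ, √(vol (slice K u y))) ^ 2 ∧
    (4 * Real.pi / 3 < vol K →
      3 * Real.pi ^ 2 / 16 * vol K < (∫ y : ℝ, √(vol (slice K u y))) ^ 2) := by
  have hpi := Real.pi_pos
  have hKc := hK.compact
  set A : ℝ → ℝ := fun y => vol (slice K u y) with hA
  have hA0 : ∀ y, 0 ≤ A y := fun y => ENNReal.toReal_nonneg
  have hAz : ∀ y, 1 < |y| → A y = 0 := fun y hy => vol_slice_eq_zero hK.symm hu hc hy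
  set p : ℝ → ℝ := fun y => √(A y / Real.pi) with hp
  have hp2 : ∀ y, p y ^ 2 = A y / Real.pi := fun y => Real.sq_sqrt (div_nonneg (hA0 y) hpi.le)
  have hpe : ∀ y, p y = (√Real.pi)⁻¹ * √(A y) := fun y => by
    simp only [hp]
    rw [Real.sqrt_div' _ hpi.le, div_eq_inv_mul]
  have hconc : ConcaveOn ℝ (Icc (-1) 1) p := by
    have h1 := slice_sqrt_concave hd hK.toIsBody hb hu
    have h2 := h1.smul (inv_nonneg.mpr (Real.sqrt_nonneg Real.pi))
    refine h2.congr ?_
    intro y _
    simp only [smul_eq_mul, hpe, hA]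
  have heven : ∀ y, p (-y) = p y := fun y => by
    simp only [hp, hA, slice_vol_even hK hu]
  have hge : ∀ y ∈ Icc (-1 : ℝ) 1, √(1 - y ^ 2) ≤ p y := by
    intro y hy
    apply Real.sqrt_le_sqrt
    rw [le_div_iff₀ hpi, mul_comm]
    exact slice_ge hd hK.toIsBody hb hu (abs_le.mpr hy)
  -- transfer of the moment inequality
  have hmom := slice_moment hd hKc hu
  have hin : ∫ x in K, (inner ℝ x u) ^ 2 = ∫ y : ℝ, y ^ 2 * A y :=
    integral_slice hKc hu (fun t => t ^ 2) (by fun_prop)
  have e4 : ∫ y in (-1:ℝ)..1, p y ^ 4 = (∫ y : ℝ, A y ^ 2) / Real.pi ^ 2 := by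
    rw [integral_eq_of_support (f := fun y => A y ^ 2) (fun y hy => by rw [hAz y hy]; ring),
      ← intervalIntegral.integral_div]
    congr 1
    funext y
    rw [show p y ^ 4 = (p y ^ 2) ^ 2 by ring, hp2, div_pow]
  have e3 : ∫ y in (-1:ℝ)..1, y ^ 2 * p y ^ 2 = (∫ y : ℝ, y ^ 2 * A y) / Real.pi := by
    rw [integral_eq_of_support (f := fun y => y ^ 2 * A y) (fun y hy => by rw [hAz y hy]; ring),
      ← intervalIntegral.integral_div]
    congr 1
    funext y
    rw [hp2, mul_div_assoc]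
  have e2 : ∫ y in (-1:ℝ)..1, p y ^ 2 = vol K / Real.pi := by
    rw [vol_eq_integral_slice hKc hu, integral_eq_of_support (f := fun y => vol (slice K u y)) hAz,
      ← intervalIntegral.integral_div]
    congr 1
    funext y
    rw [hp2]
  have e1 : ∫ y in (-1:ℝ)..1, p y = (√Real.pi)⁻¹ * ∫ y : ℝ, √(A y) := by
    rw [integral_eq_of_support (f := fun y => √(A y)) (fun y hy => by rw [hAz y hy]; simp),
      ← intervalIntegral.integral_const_mul]
    congr 1
    funext y
    rw [hpe]
  have hS : ∫ y in (-1:ℝ)..1, p y ^ 4 ≤ 4 * ∫ y in (-1:ℝ)..1, y ^ 2 * p y ^ 2 := by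
    rw [e4, e3]
    rw [hin] at hm hmom
    have h1 : (∫ y : ℝ, A y ^ 2) / (2 * Real.pi) ≤ 2 * ∫ y : ℝ, y ^ 2 * A y := by (clear hd hK hb hu hc hpi hKc hA hA0 hAz p hp hp2 hpe hconc heven hge hin e4 e3 e2 e1; linarith)
    rw [div_le_iff₀ (by positivity)] at h1
    rw [div_le_iff₀ (by positivity)]
    have h3 : 4 * ((∫ y : ℝ, y ^ 2 * A y) / Real.pi) * Real.pi ^ 2 =
        2 * (∫ y : ℝ, y ^ 2 * A y) * (2 * Real.pi) := by
      field_simp
      ring
    rw [h3]
    exact h1
  have hsq : (√Real.pi)⁻¹ ^ 2 = Real.pi⁻¹ := by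
    rw [inv_pow, Real.sq_sqrt hpi.le]
  constructor
  · have h := one_dim_even hconc heven hge hS
    rw [e2, e1, mul_pow, hsq] at h
    have h' := mul_le_mul_of_nonneg_left h hpi.le
    have t1 : Real.pi * (3 * Real.pi ^ 2 / 16 * (vol K / Real.pi)) =
        3 * Real.pi ^ 2 / 16 * vol K := by (clear hd hK hb u hu hc hm hpi hKc A hA hA0 hAz p hp hp2 hpe hconc heven hge hmom hin e4 e3 e2 e1 hS hsq h h'; field_simp)
    have t2 : Real.pi * (Real.pi⁻¹ * (∫ y : ℝ, √(A y)) ^ 2) = (∫ y : ℝ, √(A y)) ^ 2 := by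
      (clear * -; field_simp)
    rw [t1, t2] at h'
    exact h'
  · intro hv
    have hv' : 4 / 3 < ∫ y in (-1:ℝ)..1, p y ^ 2 := by
      rw [e2, lt_div_iff₀ hpi]
      (clear hd hK hb u hu hc hm hpi hKc A hA hA0 hAz p hp hp2 hpe hconc heven hge hmom hin e4 e3 e2 e1 hS hsq; linarith)
    have h := one_dim_even_strict hconc heven hge hS hv'
    rw [e2, e1, mul_pow, hsq] at h
    have h' := mul_lt_mul_of_pos_left h hpi
    have t1 : Real.pi * (3 * Real.pi ^ 2 / 16 * (vol K / Real.pi)) =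
        3 * Real.pi ^ 2 / 16 * vol K := by (clear hd hK hb u hu hc hm hpi hKc A hA hA0 hAz p hp hp2 hpe hconc heven hge hmom hin e4 e3 e2 e1 hS hsq hv hv' h h'; field_simp)
    have t2 : Real.pi * (Real.pi⁻¹ * (∫ y : ℝ, √(A y)) ^ 2) = (∫ y : ℝ, √(A y)) ^ 2 := by
      (clear * -; field_simp)
    rw [t1, t2] at h'
    exact h'

end Space

end Vale.Agent.P237
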