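import Vale.Agent.P237.Seg

open MeasureTheory Metric Set Module
open scoped Pointwise

namespace Vale.Agent.P237

variable {V : Type*} [NormedAddCommGroup V] [InnerProductSpace ℝ V] [FiniteDimensional ℝ V]
  [MeasurableSpace V] [BorelSpace V]

private lemma mx_vol_translate (a : V) (K : Set V) : vol ((fun x => a + x) '' K) = vol K := by
  unfold vol
  rw [image_add_left, measure_preimage_add]

omit [FiniteDimensional ℝ V] [MeasurableSpace V] [BorelSpace V] in
private lemma mx_smul_half_segment (t : ℝ) (v : V) :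
    t • segment ℝ (-(2⁻¹ : ℝ) • v) ((2⁻¹ : ℝ) • v) =
      (fun x => (-(t / 2)) • v + x) '' segment ℝ 0 (t • v) := by
  have h1 : t • segment ℝ (-(2⁻¹ : ℝ) • v) ((2⁻¹ : ℝ) • v) =
      segment ℝ (t • (-(2⁻¹ : ℝ) • v)) (t • ((2⁻¹ : ℝ) • v)) := by
    have := image_segment ℝ (LinearMap.lsmul ℝ V t).toAffineMap (-(2⁻¹ : ℝ) • v) ((2⁻¹ : ℝ) • v)
    exact this
  have h2 : (fun x => (-(t / 2)) • v + x) '' segment ℝ 0 (t • v) =
      segment ℝ ((-(t / 2)) • v + 0) ((-(t / 2)) • v + t • v) :=
    segment_translate_image ℝ _ _ _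
  rw [h1, h2]
  congr 1
  · module
  · module

/-- Adding a symmetric segment increases the volume by `β`. -/
private lemma mx_vol_add_half_segment (K : Set V) (t : ℝ) (v : V) :
    vol (K + t • segment ℝ (-(2⁻¹ : ℝ) • v) ((2⁻¹ : ℝ) • v)) = vol K + beta K (t • v) := by
  rw [mx_smul_half_segment]
  have : K + (fun x => (-(t / 2)) • v + x) '' segment ℝ 0 (t • v) =
      (fun x => (-(t / 2)) • v + x) '' (K + segment ℝ 0 (t • v)) := by
    ext x
    constructor
    · rintro ⟨k, hk, _, ⟨s, hs, rfl⟩, rfl⟩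
      exact ⟨k + s, ⟨k, hk, s, hs, rfl⟩, by simp only; abel⟩
    · rintro ⟨_, ⟨k, hk, s, hs, rfl⟩, rfl⟩
      exact ⟨k, hk, _, ⟨s, hs, rfl⟩, by simp only; abel⟩
  rw [this, mx_vol_translate]
  unfold beta
  ring

/-- The zonotope of a partial family. -/
private def mxZ {ι : Type*} (v : ι → V) (s : Finset ι) : Set V :=
  ∑ j ∈ s, segment ℝ (-(2⁻¹ : ℝ) • v j) ((2⁻¹ : ℝ) • v j)

omit [InnerProductSpace ℝ V] [FiniteDimensional ℝ V] [MeasurableSpace V] [BorelSpace V] in
private lemma mx_isCompact_sum [NormedSpace ℝ V] {ι : Type*} (S : ι → Set V) (s : Finset ι)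
    (h : ∀ i, IsCompact (S i)) : IsCompact (∑ j ∈ s, S j) := by
  classical
  induction s using Finset.induction_on with
  | empty => simp only [Finset.sum_empty]; exact isCompact_singleton
  | insert a s ha ih => rw [Finset.sum_insert ha]; exact (h a).add ih

omit [InnerProductSpace ℝ V] [FiniteDimensional ℝ V] [MeasurableSpace V] [BorelSpace V] in
private lemma mx_convex_sum [NormedSpace ℝ V] {ι : Type*} (S : ι → Set V) (s : Finset ι)
    (h : ∀ i, Convex ℝ (S i)) : Convex ℝ (∑ j ∈ s, S j) := by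
  classical
  induction s using Finset.induction_on with
  | empty => simp only [Finset.sum_empty]; exact convex_singleton 0
  | insert a s ha ih => rw [Finset.sum_insert ha]; exact (h a).add ih

omit [FiniteDimensional ℝ V] [MeasurableSpace V] [BorelSpace V] in
private lemma mx_segment_compact (a b : V) : IsCompact (segment ℝ a b) := by
  rw [segment_eq_image]
  exact isCompact_Icc.image (by fun_prop)

omit [FiniteDimensional ℝ V] [MeasurableSpace V] [BorelSpace V] in
private lemma mx_norm_le {ι : Type*} (v : ι → V) (s : Finset ι) (z : V) (hz : z ∈ mxZ v s) :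
    ‖z‖ ≤ ∑ j ∈ s, ‖v j‖ := by
  classical
  unfold mxZ at hz
  induction s using Finset.induction_on generalizing z with
  | empty =>
    simp only [Finset.sum_empty] at hz
    have : z = 0 := hz
    simp [this]
  | insert a s ha ih =>
    rw [Finset.sum_insert ha] at hz
    obtain ⟨x, hx, y, hy, rfl⟩ := hz
    rw [Finset.sum_insert ha]
    refine (norm_add_le _ _).trans (add_le_add ?_ (ih y hy))
    have h1 : segment ℝ (-(2⁻¹ : ℝ) • v a) ((2⁻¹ : ℝ) • v a) ⊆ closedBall (0 : V) ‖v a‖ := by
      refine (convex_closedBall (0 : V) ‖v a‖).segment_subset ?_ ?_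
      · rw [mem_closedBall_zero_iff, norm_smul, norm_neg, Real.norm_of_nonneg (by norm_num)]
        have := norm_nonneg (v a)
        linarith only [this]
      · rw [mem_closedBall_zero_iff, norm_smul, Real.norm_of_nonneg (by norm_num)]
        have := norm_nonneg (v a)
        linarith only [this]
    exact mem_closedBall_zero_iff.1 (h1 hx)

theorem zonotope_bound {K : Set V} (hK : IsBody K) {r : ℝ} (hr : 0 < r)
    (hr' : closedBall (0 : V) r ⊆ K) {m : ℕ} (v : Fin m → V) {t : ℝ} (ht : 0 ≤ t) :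
    vol (K + t • ∑ j, segment ℝ (-(2⁻¹ : ℝ) • v j) ((2⁻¹ : ℝ) • v j)) ≤
      vol K + t * (1 + t * (∑ j, ‖v j‖) / r) ^ (finrank ℝ V - 1) * ∑ j, beta K (v j) := by
  classical
  set L : ℝ := ∑ j, ‖v j‖ with hL
  have hL0 : 0 ≤ L := Finset.sum_nonneg fun j _ => norm_nonneg _
  set c : ℝ := 1 + t * L / r with hc
  have hc0 : 0 < c := by (clear * - ht hr; positivity)
  have key : ∀ s : Finset (Fin m), vol (K + t • mxZ v s) ≤
      vol K + t * c ^ (finrank ℝ V - 1) * ∑ j ∈ s, beta K (v j) := by
    intro s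
    induction s using Finset.induction_on with
    | empty =>
      have : t • mxZ v ∅ = {0} := by
        unfold mxZ
        simp only [Finset.sum_empty]
        change t • ({0} : Set V) = {0}
        simp
      rw [this]
      simp only [add_singleton, add_zero, image_id', Finset.sum_empty, mul_zero, Std.le_refl]
    | insert a s ha ih =>
      have hZc : IsCompact (mxZ v s) := mx_isCompact_sum _ s fun j => mx_segment_compact _ _
      have hZv : Convex ℝ (mxZ v s) := mx_convex_sum _ s fun j => convex_segment _ _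
      have hK'c : IsCompact (K + t • mxZ v s) := hK.compact.add (hZc.smul t)
      have hK'v : Convex ℝ (K + t • mxZ v s) := hK.convex.add (hZv.smul t)
      have e1 : K + t • mxZ v (insert a s) =
          (K + t • mxZ v s) + t • segment ℝ (-(2⁻¹ : ℝ) • v a) ((2⁻¹ : ℝ) • v a) := by
        unfold mxZ
        rw [Finset.sum_insert ha, smul_add, add_comm (t • segment ℝ _ _), add_assoc]
      rw [e1, mx_vol_add_half_segment, beta_smul hK'c hK'v, abs_of_nonneg ht,
        Finset.sum_insert ha]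
      have h1 : K + t • mxZ v s ⊆ c • K := by
        rintro _ ⟨x, hx, _, ⟨z, hz, rfl⟩, rfl⟩
        have hzn : ‖z‖ ≤ L := (mx_norm_le v s z hz).trans
          (Finset.sum_le_sum_of_subset_of_nonneg (Finset.subset_univ s)
            fun j _ _ => norm_nonneg _)
        rw [hc, hK.convex.add_smul zero_le_one (by (clear * - ht hr; positivity)), one_smul]
        refine ⟨x, hx, t • z, ?_, rfl⟩
        rcases eq_or_lt_of_le ht with rfl | ht'
        · refine ⟨x, hx, ?_⟩
          simp
        rcases eq_or_lt_of_le hL0 with hL1 | hL1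
        · have : z = 0 := by
            rw [← norm_le_zero_iff]
            rw [← hL1] at hzn
            exact hzn
          refine ⟨x, hx, ?_⟩
          simp only [← hL1, mul_zero, zero_div, zero_smul, this, smul_zero]
        · refine ⟨(r / L) • z, hr' ?_, ?_⟩
          · rw [mem_closedBall_zero_iff, norm_smul, Real.norm_of_nonneg (by (clear * - hr hL1; positivity))]
            calc r / L * ‖z‖ ≤ r / L * L := by gcongr
              _ = r := by (clear * - hL1 hr; field_simp)
          · simp only [smul_smul]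
            congr 1
            (clear * - hL1 hr ht'; field_simp)
      have h2 : beta (K + t • mxZ v s) (v a) ≤ c ^ (finrank ℝ V - 1) * beta K (v a) := by
        rw [← beta_smul_set hK.compact hK.convex hc0]
        exact beta_mono hK'c hK'v (hK.compact.smul c) (hK.convex.smul c) h1 _
      have h3 := mul_le_mul_of_nonneg_left h2 ht
      nlinarith [ih, h3]
  exact key Finset.univ


omit [FiniteDimensional ℝ V] [MeasurableSpace V] [BorelSpace V] in
private lemma mx_le_supp {N : Set V} (hN : IsCompact N) {x : V} (hx : x ∈ N) (v : V) :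
    inner ℝ x v ≤ supp N v := by
  refine le_csSup ?_ ⟨x, hx, rfl⟩
  exact (hN.image (by fun_prop)).bddAbove

omit [FiniteDimensional ℝ V] [MeasurableSpace V] [BorelSpace V] in
private lemma mx_zero_mem_interior {N : Set V} (hN : IsSymBody N) : (0 : V) ∈ interior N := by
  obtain ⟨x, hx⟩ := hN.int
  have h1 : -x ∈ interior N := by
    have h2 : -N = N := by
      ext y
      constructor
      · intro hy
        have := hN.symm _ hy
        rwa [neg_neg] at this
      · intro hy
        exact hN.symm _ hy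
    have h3 : interior N = -interior N := by
      conv_lhs => rw [← h2]
      exact ((Homeomorph.neg V).preimage_interior N).symm
    rw [h3]
    simpa using hx
  have h2 := hN.convex.interior hx h1 (by norm_num : (0 : ℝ) ≤ 1 / 2)
    (by norm_num : (0 : ℝ) ≤ 1 / 2) (by norm_num)
  have h3 : (1 / 2 : ℝ) • x + (1 / 2 : ℝ) • -x = 0 := by module
  rwa [h3] at h2

omit [InnerProductSpace ℝ V] [FiniteDimensional ℝ V] [MeasurableSpace V] [BorelSpace V] in
private lemma mx_exists_ball {N : Set V} (h : (0 : V) ∈ interior N) :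
    ∃ ρ : ℝ, 0 < ρ ∧ closedBall (0 : V) ρ ⊆ N :=
  Metric.nhds_basis_closedBall.mem_iff.1 (mem_interior_iff_mem_nhds.1 h)

omit [FiniteDimensional ℝ V] [MeasurableSpace V] [BorelSpace V] in
private lemma mx_supp_ge {N : Set V} (hN : IsCompact N) {ρ : ℝ} (hρ : 0 < ρ)
    (h : closedBall (0 : V) ρ ⊆ N) (v : V) : ρ * ‖v‖ ≤ supp N v := by
  rcases eq_or_ne v 0 with rfl | hv
  · have := mx_le_supp hN (h (mem_closedBall_self hρ.le)) (0 : V)
    simpa only [norm_zero, mul_zero, ge_iff_le, inner_self_eq_norm_sq_to_K, Real.ringHom_apply, ne_eq,     OfNat.ofNat_ne_zero, not_false_eq_true, zero_pow] using this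
  · have hv' : 0 < ‖v‖ := norm_pos_iff.2 hv
    have hx : (ρ / ‖v‖) • v ∈ N := by
      apply h
      rw [mem_closedBall_zero_iff, norm_smul, Real.norm_of_nonneg (by positivity)]
      have : ρ / ‖v‖ * ‖v‖ = ρ := by field_simp
      rw [this]
    have := mx_le_supp hN hx v
    rw [real_inner_smul_left, real_inner_self_eq_norm_sq] at this
    have h2 : ρ / ‖v‖ * ‖v‖ ^ 2 = ρ * ‖v‖ := by field_simp
    rwa [h2] at this

omit [FiniteDimensional ℝ V] [MeasurableSpace V] [BorelSpace V] in
/-- A point of the zonotope with extremal inner product. -/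
private lemma mx_exists_zono {m : ℕ} (v : Fin m → V) (u : V) :
    ∃ z ∈ ∑ j, segment ℝ (-(2⁻¹ : ℝ) • v j) ((2⁻¹ : ℝ) • v j),
      inner ℝ z u = 2⁻¹ * ∑ j, |inner ℝ (v j) u| := by
  have h : ∀ j, ∃ z ∈ segment ℝ (-(2⁻¹ : ℝ) • v j) ((2⁻¹ : ℝ) • v j),
      inner ℝ z u = 2⁻¹ * |inner ℝ (v j) u| := by
    intro j
    rcases le_total 0 (inner ℝ (v j) u) with h | h
    · exact ⟨_, right_mem_segment _ _ _, by rw [real_inner_smul_left, abs_of_nonneg h]⟩
    · exact ⟨_, left_mem_segment _ _ _, by rw [real_inner_smul_left, abs_of_nonpos h]; ring⟩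
  choose z hz hz' using h
  refine ⟨∑ j, z j, Set.finsetSum_mem_finsetSum _ _ _ fun j _ => hz j, ?_⟩
  rw [sum_inner, Finset.mul_sum]
  exact Finset.sum_congr rfl fun j _ => hz' j

/-- `mixed_bound`, given the approximation of `N` by zonotopes. -/
theorem mixed_bound_of_approx {K N M : Set V} (hK : IsBody K) (h0 : (0 : V) ∈ interior K)
    (hN : IsSymBody N) (hM : IsCompact M)
    (zonotope_approx : ∀ ε : ℝ, 0 < ε → ε < 1 → ∃ (m : ℕ) (v : Fin m → V),
      (∀ u : V, (1 - ε) * beta N u ≤ 2⁻¹ * ∑ j, |inner ℝ (v j) u|) ∧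
      ∑ j, supp N (v j) ≤ (1 + ε) * (finrank ℝ V * vol N))
    (h1 : ∀ v, beta K v ≤ supp N v) (h2 : ∀ v, supp M v ≤ beta N v) :
    ∃ C : ℝ, 0 ≤ C ∧ ∀ t : ℝ, 0 ≤ t → vol (K + t • M) ≤
      vol K + t * (1 + t * C) ^ (finrank ℝ V - 1) * (finrank ℝ V * vol N) := by
  obtain ⟨r, hr, hrK⟩ := mx_exists_ball h0
  obtain ⟨ρ, hρ, hρN⟩ := mx_exists_ball (mx_zero_mem_interior hN)
  set D : ℝ := finrank ℝ V * vol N with hD
  have hD0 : 0 ≤ D := mul_nonneg (Nat.cast_nonneg _) ENNReal.toReal_nonneg
  refine ⟨D / ρ / r, by (clear * - hD0 hρ hr; positivity), fun t ht => ?_⟩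
  have key : ∀ ε : ℝ, 0 < ε → ε < 1 → vol (K + t • M) ≤ vol K + t / (1 - ε) *
      (1 + t / (1 - ε) * (((1 + ε) * D) / ρ) / r) ^ (finrank ℝ V - 1) * ((1 + ε) * D) := by
    intro ε hε hε1
    have hε' : 0 < 1 - ε := by linarith
    obtain ⟨m, v, hv1, hv2⟩ := zonotope_approx ε hε hε1
    set Z : Set V := ∑ j, segment ℝ (-(2⁻¹ : ℝ) • v j) ((2⁻¹ : ℝ) • v j) with hZ
    have hZc : IsCompact Z := mx_isCompact_sum _ _ fun j => mx_segment_compact _ _
    have hZv : Convex ℝ Z := mx_convex_sum _ _ fun j => convex_segment _ _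
    have hMZ : ∀ x ∈ M, (1 - ε) • x ∈ Z := by
      intro x hx
      by_contra hxZ
      obtain ⟨f, s, hf1, hf2⟩ := geometric_hahn_banach_closed_point hZv hZc.isClosed hxZ
      set u : V := (InnerProductSpace.toDual ℝ V).symm f with hu
      have hfu : ∀ y, f y = inner ℝ y u := by
        intro y
        rw [real_inner_comm, hu, InnerProductSpace.toDual_symm_apply]
      obtain ⟨z, hz, hz'⟩ := mx_exists_zono v u
      have h3 := hf1 z hz
      rw [hfu, hz'] at h3
      rw [hfu, real_inner_smul_left] at hf2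
      have h4 := hv1 u
      have h5 := mx_le_supp hM hx u
      have h6 := h2 u
      have h7 : (1 - ε) * inner ℝ x u ≤ (1 - ε) * beta N u :=
        mul_le_mul_of_nonneg_left (h5.trans h6) hε'.le
      (clear K hK h0 hN h1 r hr hrK ρ hρ hρN D zonotope_approx hD hD0 t ht hε hv2 Z hZ hZc hZv hxZ hf1 hu hfu z hz hz'; linarith)
    have hsub : K + t • M ⊆ K + (t / (1 - ε)) • Z := by
      refine add_subset_add_left ?_
      rintro _ ⟨x, hx, rfl⟩
      refine ⟨(1 - ε) • x, hMZ x hx, ?_⟩
      simp only [smul_smul]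
      congr 1
      (clear * - hε'; field_simp)
    have hfin : volume (K + (t / (1 - ε)) • Z) ≠ ⊤ :=
      (hK.compact.add (hZc.smul _)).measure_lt_top.ne
    have hle : vol (K + t • M) ≤ vol (K + (t / (1 - ε)) • Z) :=
      ENNReal.toReal_mono hfin (measure_mono hsub)
    have ht' : 0 ≤ t / (1 - ε) := div_nonneg ht hε'.le
    have hzb := zonotope_bound hK hr hrK v ht'
    refine hle.trans (hzb.trans ?_)
    have hb0 : ∀ j, 0 ≤ beta K (v j) := fun j => beta_nonneg hK.compact hK.convex _
    have hsum : ∑ j, beta K (v j) ≤ (1 + ε) * D :=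
      (Finset.sum_le_sum fun j _ => h1 (v j)).trans hv2
    have hsum0 : 0 ≤ ∑ j, beta K (v j) := Finset.sum_nonneg fun j _ => hb0 j
    have hL : ∑ j, ‖v j‖ ≤ ((1 + ε) * D) / ρ := by
      rw [le_div_iff₀ hρ, mul_comm, Finset.mul_sum]
      exact (Finset.sum_le_sum fun j _ => mx_supp_ge hN.compact hρ hρN (v j)).trans hv2
    have hL0 : 0 ≤ ∑ j, ‖v j‖ := Finset.sum_nonneg fun j _ => norm_nonneg _
    (clear M h0 hM h2 hrK zonotope_approx hD hε' hv1 Z hZ hZc hZv hMZ hsub hfin hle ht' hzb hL0; gcongr)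
  have hlim : Filter.Tendsto (fun ε : ℝ => vol K + t / (1 - ε) *
      (1 + t / (1 - ε) * (((1 + ε) * D) / ρ) / r) ^ (finrank ℝ V - 1) * ((1 + ε) * D))
      (nhdsWithin 0 (Ioi 0)) (nhds (vol K + t / (1 - 0) *
      (1 + t / (1 - 0) * (((1 + 0) * D) / ρ) / r) ^ (finrank ℝ V - 1) * ((1 + 0) * D))) := by
    refine Filter.Tendsto.mono_left ?_ nhdsWithin_le_nhds
    refine ContinuousAt.tendsto (f := fun ε : ℝ => vol K + t / (1 - ε) *
      (1 + t / (1 - ε) * (((1 + ε) * D) / ρ) / r) ^ (finrank ℝ V - 1) * ((1 + ε) * D)) ?_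
    have h3 : ContinuousAt (fun ε : ℝ => t / (1 - ε)) 0 :=
      ContinuousAt.div continuousAt_const (continuousAt_const.sub continuousAt_id) (by norm_num)
    (clear M hK h0 hN hM h1 h2 hr hrK hρ hρN zonotope_approx hD hD0 ht key h3; fun_prop (disch := norm_num))
  have hfinal := ge_of_tendsto hlim (by
    filter_upwards [Ioo_mem_nhdsGT (zero_lt_one (α := ℝ))] with ε hε
    exact key ε hε.1 hε.2)
  refine hfinal.trans (le_of_eq ?_)
  simp only [sub_zero, div_one, add_zero, one_mul]
  congr 4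
  ring

end Vale.Agent.P237
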